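import Mathlib

/-!
# Definitions for the statement on the stronger `ℓ¹`-Bass conjecture in all degrees
-/

namespace Vale.Agent.P184.A

universe u v

variable {G : Type*} [Group G]

/-- Matrices of functions on `G`. -/
abbrev Mat (G : Type*) (q : ℕ) := Matrix (Fin q) (Fin q) (G → ℂ)

/-- The entries of `a` are in `ℓ¹(G)`. -/
def InL1 {q : ℕ} (a : Mat G q) : Prop := ∀ i j, Summable fun g => ‖a i j g‖

/-- The product of matrices over `ℓ¹(G)`. -/
noncomputable def mul {q : ℕ} (a b : Mat G q) : Mat G q := fun i j g =>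
  ∑ k, ∑' h, a i k h * b k j (h⁻¹ * g)

open Classical in
/-- The unit matrix over `ℓ¹(G)`. -/
noncomputable def unit (G : Type*) [Group G] (q : ℕ) : Mat G q := fun i j g =>
  if i = j ∧ g = 1 then 1 else 0

/-- `e` is an idempotent matrix over `ℓ¹(G)`. -/
def IsIdem {q : ℕ} (e : Mat G q) : Prop := InL1 e ∧ mul e e = e

/-- `u` is an invertible matrix over `ℓ¹(G)` with inverse `v`. -/
def IsInv {q : ℕ} (u v : Mat G q) : Prop :=
  InL1 u ∧ InL1 v ∧ mul u v = unit G q ∧ mul v u = unit G q

/-- The coefficient of the Hattori-Stallings trace of `e` at the conjugacy class `C`. -/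
noncomputable def tau {q : ℕ} (C : ConjClasses G) (e : Mat G q) : ℂ :=
  ∑' g : C.carrier, ∑ i, e i i g

variable (G) in
/-- The `ℓ¹`-Bass conjecture for the group `G`. -/
def L1Bass : Prop :=
  ∀ (q : ℕ) (e : Mat G q), IsIdem e → ∃ F : Finset (ConjClasses G),
    (∀ C ∈ F, ∀ g ∈ C.carrier, IsOfFinOrder g) ∧ ∀ C ∉ F, tau C e = 0

/-- `L` is a length function on `G`. -/
def IsLen (L : G → ℝ) : Prop :=
  L 1 = 0 ∧ (∀ g, L g⁻¹ = L g) ∧ ∀ g h, L (g * h) ≤ L g + L h

/-- The Hochschild coboundary of the cochain `φ` of degree `n`. -/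
def hob {n : ℕ} (φ : (Fin (n + 1) → G) → ℂ) (g : Fin (n + 2) → G) : ℂ :=
  ∑ j : Fin (n + 1), (-1) ^ (j : ℕ) * φ (j.castSucc.contractNth (· * ·) g) +
    (-1) ^ (n + 1) * φ (Fin.cons (g (Fin.last (n + 1)) * g 0) fun i => g i.castSucc.succ)

/-- `φ` is a cyclic cocycle of degree `n` on the group ring of `G`, localised at the conjugacy
class of `x`. -/
def CyclicCocycle (x : G) (n : ℕ) (φ : (Fin (n + 1) → G) → ℂ) : Prop :=
  (∀ g, ¬ IsConj x (List.ofFn g).prod → φ g = 0) ∧
    (∀ g, φ (fun i => g (finRotate (n + 1) i)) = (-1) ^ n * φ g) ∧ ∀ g, hob φ g = 0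

/-- `φ` has subexponential growth with respect to `L`. -/
def Subexp (L : G → ℝ) {n : ℕ} (φ : (Fin (n + 1) → G) → ℂ) : Prop :=
  ∀ ε : ℝ, 0 < ε → ∃ C : ℝ, ∀ g, ‖φ g‖ ≤ C * Real.exp (ε * ∑ i, L (g i))

/-- `a` decays exponentially with respect to `L`. -/
def ExpDecay (L : G → ℝ) {q : ℕ} (a : Mat G q) : Prop :=
  ∃ ε : ℝ, 0 < ε ∧ ∀ i j, Summable fun g => ‖a i j g‖ * Real.exp (ε * L g)

/-- The value of the cochain `φ`, extended to matrices by means of the matrix trace, at the
matrices `a 0, ..., a n` is zero. -/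
def PairZero {n q : ℕ} (φ : (Fin (n + 1) → G) → ℂ) (a : ℕ → Mat G q) : Prop :=
  HasSum (fun g : Fin (n + 1) → G =>
    φ g * (List.ofFn fun k => Matrix.of fun i j => a k i j (g k)).prod.trace) 0

/-- The cyclic cocycles of even degree and of subexponential growth with respect to `L` which
are localised at the class of `x` pair to zero with the idempotent matrices which decay
exponentially. -/
def EvenAt (L : G → ℝ) (x : G) : Prop :=
  ∀ (m : ℕ) (φ : (Fin (2 * m + 1) → G) → ℂ), CyclicCocycle x (2 * m) φ → Subexp L φ →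
    ∀ (q : ℕ) (e : Mat G q), IsIdem e → ExpDecay L e → PairZero φ fun _ => e

/-- The cyclic cocycles of odd degree and of subexponential growth with respect to `L` which
are localised at the class of `x` pair to zero with the invertible matrices `u` such that `u` and
its inverse `v` decay exponentially: the value at `v - 1, u - 1, ..., v - 1, u - 1` is zero. -/
def OddAt (L : G → ℝ) (x : G) : Prop :=
  ∀ (m : ℕ) (φ : (Fin (2 * m + 1 + 1) → G) → ℂ), CyclicCocycle x (2 * m + 1) φ → Subexp L φ →
    ∀ (q : ℕ) (u v : Mat G q), IsInv u v → ExpDecay L u → ExpDecay L v →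
      PairZero φ fun k => if Even k then v - unit G q else u - unit G q

variable (G) in
/-- The stronger form of the `ℓ¹`-Bass conjecture for `G`, in all degrees. For a length function
`L` dominating all others, like the word length of a finitely generated group:
* the classes in `K_0(ℓ¹(G))` are represented by idempotents with exponential decay,
* the classes in `K_1(ℓ¹(G))` are represented by invertible matrices `v` such that `v` and its
  inverse `v'` decay exponentially (`v = u w` with `w` at distance less than `1` from the unit),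
* these classes pair to zero with the cyclic cocycles of subexponential growth which are localised
  at the classes of the elements of infinite order. -/
def StrongBass : Prop :=
  ∃ L : G → ℝ, IsLen L ∧ (∀ L', IsLen L' → ∃ c : ℝ, ∀ g, L' g ≤ c * L g) ∧
    (∀ (q : ℕ) (e : Mat G q), IsIdem e → ∃ f u v : Mat G q,
      IsIdem f ∧ ExpDecay L f ∧ InL1 u ∧ InL1 v ∧ mul u v = e ∧ mul v u = f) ∧
    (∀ (q : ℕ) (u u' : Mat G q), IsInv u u' → ∃ v v' w : Mat G q,
      IsInv v v' ∧ ExpDecay L v ∧ ExpDecay L v' ∧ InL1 w ∧ v = mul u w ∧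
      ∑ i, ∑ j, ∑' g, ‖(w - unit G q) i j g‖ < 1) ∧
    ∀ x : G, ¬ IsOfFinOrder x → EvenAt L x ∧ OddAt L x

end Vale.Agent.P184.A
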