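import Vale.Agent.P184.SMain
import Vale.Agent.P184.R2.ADefs

/-!
# The even degrees: bridge to the results of `SMain`
-/

namespace Vale.Agent.P184.A

variable {G : Type*} [Group G]

theorem evenAt_of_strongAt {L : G → ℝ} {x : G} (h : S.StrongAt L x) : EvenAt L x :=
  fun m φ hφ hg q e he hd => h m φ ⟨hφ.1, fun g => by rw [hφ.2.1, pow_mul]; simp, hφ.2.2⟩
    hg q e he hd

end Vale.Agent.P184.A
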