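import Mathlib

/-!
# Signed shuffle products of functions of finite sets
-/

namespace Vale.Agent.P184.Odd

open Finset

noncomputable section

section Grassmann

variable {α : Type*} [LinearOrder α]

/-- the sign of a pair of sets -/
def sg (s t : Finset α) : ℝ := ∏ i ∈ s, ∏ j ∈ t, if j < i then -1 else 1

theorem sg_union_right {s t t' : Finset α} (h : Disjoint t t') :
    sg s (t ∪ t') = sg s t * sg s t' := by
  unfold sg
  rw [← Finset.prod_mul_distrib]
  exact Finset.prod_congr rfl fun i _ => Finset.prod_union h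

theorem sg_union_left {s s' t : Finset α} (h : Disjoint s s') :
    sg (s ∪ s') t = sg s t * sg s' t := by
  unfold sg
  exact Finset.prod_union h

theorem sg_sq (s t : Finset α) : sg s t * sg s t = 1 := by
  unfold sg
  rw [← Finset.prod_mul_distrib]
  refine Finset.prod_eq_one fun i _ => ?_
  rw [← Finset.prod_mul_distrib]
  refine Finset.prod_eq_one fun j _ => ?_
  split <;> norm_num

theorem sg_comm {s t : Finset α} (h : Disjoint s t) :
    sg s t * sg t s = (-1) ^ (s.card * t.card) := by
  unfold sg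
  rw [Finset.prod_comm (s := t) (t := s), ← Finset.prod_mul_distrib, mul_comm s.card, pow_mul,
    ← Finset.prod_const]
  refine Finset.prod_congr rfl fun i hi => ?_
  rw [← Finset.prod_mul_distrib, ← Finset.prod_const]
  refine Finset.prod_congr rfl fun j hj => ?_
  rcases lt_trichotomy i j with h1 | h1 | h1
  · rw [if_neg h1.not_gt, if_pos h1, one_mul]
  · exact absurd h1 (Finset.disjoint_left.1 h hi |> fun h2 h3 => h2 (h3 ▸ hj))
  · rw [if_pos h1, if_neg h1.not_gt, mul_one]

theorem sg_comm' {s t : Finset α} (h : Disjoint s t) :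
    sg s t = (-1) ^ (s.card * t.card) * sg t s := by
  rw [← sg_comm h, mul_assoc, sg_sq, mul_one]

/-- the product of two functions of sets -/
def gm (f g : Finset α → ℝ) (u : Finset α) : ℝ :=
  ∑ s ∈ u.powerset, sg s (u \ s) * f s * g (u \ s)

theorem gm_assoc (f g h : Finset α → ℝ) (u : Finset α) :
    gm (gm f g) h u = gm f (gm g h) u := by
  unfold gm
  simp only [Finset.mul_sum, Finset.sum_mul]
  rw [Finset.sum_sigma', Finset.sum_sigma']
  refine Finset.sum_bij' (fun z _ => ⟨z.2, z.1 \ z.2⟩) (fun z _ => ⟨z.1 ∪ z.2, z.1⟩) ?_ ?_ ?_ ?_ ?_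
  · rintro ⟨t, s⟩ hz
    simp only [Finset.mem_sigma, Finset.mem_powerset] at hz ⊢
    exact ⟨hz.2.trans hz.1, Finset.sdiff_subset_sdiff hz.1 subset_rfl⟩
  · rintro ⟨s, r⟩ hz
    simp only [Finset.mem_sigma, Finset.mem_powerset] at hz ⊢
    exact ⟨Finset.union_subset hz.1 (hz.2.trans Finset.sdiff_subset), Finset.subset_union_left⟩
  · rintro ⟨t, s⟩ hz
    simp only [Finset.mem_sigma, Finset.mem_powerset] at hz
    simp only [Finset.union_sdiff_of_subset hz.2]
  · rintro ⟨s, r⟩ hz
    simp only [Finset.mem_sigma, Finset.mem_powerset] at hz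
    have h1 : Disjoint s r := Finset.disjoint_of_subset_right hz.2 Finset.disjoint_sdiff
    simp only [Finset.union_sdiff_cancel_left h1]
  · rintro ⟨t, s⟩ hz
    simp only [Finset.mem_sigma, Finset.mem_powerset] at hz
    have h1 : (u \ s) \ (t \ s) = u \ t := by
      ext i
      simp only [Finset.mem_sdiff]
      constructor
      · rintro ⟨⟨h2, h3⟩, h4⟩
        exact ⟨h2, fun h5 => h4 ⟨h5, h3⟩⟩
      · rintro ⟨h2, h3⟩
        exact ⟨⟨h2, fun h4 => h3 (hz.2 h4)⟩, fun h4 => h3 h4.1⟩
    have h2 : u \ s = (t \ s) ∪ (u \ t) := by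
      ext i
      simp only [Finset.mem_sdiff, Finset.mem_union]
      constructor
      · rintro ⟨h3, h4⟩
        by_cases h5 : i ∈ t
        · exact Or.inl ⟨h5, h4⟩
        · exact Or.inr ⟨h3, h5⟩
      · rintro (⟨h3, h4⟩ | ⟨h3, h4⟩)
        · exact ⟨hz.1 h3, h4⟩
        · exact ⟨h3, fun h5 => h4 (hz.2 h5)⟩
    have h3 : Disjoint (t \ s) (u \ t) :=
      Finset.disjoint_of_subset_left Finset.sdiff_subset Finset.disjoint_sdiff
    have h4 : sg s (u \ s) = sg s (t \ s) * sg s (u \ t) := by rw [h2, sg_union_right h3]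
    have h5 : sg t (u \ t) = sg s (u \ t) * sg (t \ s) (u \ t) := by
      conv_lhs => rw [← Finset.union_sdiff_of_subset hz.2]
      rw [sg_union_left Finset.disjoint_sdiff, Finset.union_sdiff_of_subset hz.2]
    simp only [h1]
    rw [h4, h5]
    ring

/-- the indicator function of the sets with `b` elements -/
def io (b : ℕ) (s : Finset α) : ℝ := if s.card = b then 1 else 0

theorem gm_io_one_left (f : Finset α → ℝ) (u : Finset α) :
    gm (io 1) f u = ∑ i ∈ u, sg {i} (u.erase i) * f (u.erase i) := by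
  unfold gm
  have h1 : ∀ s ∈ u.powerset, s ∉ u.powersetCard 1 → sg s (u \ s) * io 1 s * f (u \ s) = 0 := by
    intro s hs h
    have : s.card ≠ 1 := fun h2 => h (Finset.mem_powersetCard.2 ⟨Finset.mem_powerset.1 hs, h2⟩)
    simp only [io, if_neg this, mul_zero, zero_mul]
  rw [← Finset.sum_subset (fun s hs => Finset.mem_powerset.2 (Finset.mem_powersetCard.1 hs).1) h1,
    Finset.powersetCard_one, Finset.sum_map]
  refine Finset.sum_congr rfl fun i _ => ?_
  simp only [Function.Embedding.coeFn_mk, io, Finset.card_singleton, if_true, mul_one,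
    Finset.sdiff_singleton_eq_erase]

theorem gm_io_one_right (f : Finset α → ℝ) (u : Finset α) :
    gm f (io 1) u = ∑ i ∈ u, sg (u.erase i) {i} * f (u.erase i) := by
  unfold gm
  have h1 : ∀ s ∈ u.powerset, sg s (u \ s) * f s * io 1 (u \ s) ≠ 0 → (u \ s).card = 1 := by
    intro s _ h
    by_contra h2
    exact h (by simp only [io, if_neg h2, mul_zero])
  symm
  refine Finset.sum_bij_ne_zero (fun i _ _ => u.erase i) ?_ ?_ ?_ ?_
  · intro i _ _
    exact Finset.mem_powerset.2 (Finset.erase_subset _ _)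
  · intro i hi _ j hj _ h
    exact Finset.erase_injOn u hi hj h
  · intro s hs h
    obtain ⟨i, hi⟩ := Finset.card_eq_one.1 (h1 s hs h)
    have h2 : i ∈ u \ s := by rw [hi]; exact Finset.mem_singleton_self i
    have h3 : u.erase i = s := by
      rw [← Finset.sdiff_singleton_eq_erase, ← hi, Finset.sdiff_sdiff_eq_self
        (Finset.mem_powerset.1 hs)]
    refine ⟨i, (Finset.mem_sdiff.1 h2).1, ?_, h3⟩
    rw [h3, ← hi]
    intro h4
    apply h
    rw [h4, zero_mul]
  · intro i hi _
    have h3 : u \ u.erase i = {i} := by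
      rw [← Finset.sdiff_singleton_eq_erase, Finset.sdiff_sdiff_eq_self
        (Finset.singleton_subset_iff.2 hi)]
    rw [h3]
    simp only [io, Finset.card_singleton, if_true, mul_one]

theorem gm_congr {f f' g g' : Finset α → ℝ} {u : Finset α} (hf : ∀ s ⊆ u, f s = f' s)
    (hg : ∀ s ⊆ u, g s = g' s) : gm f g u = gm f' g' u := by
  unfold gm
  refine Finset.sum_congr rfl fun s hs => ?_
  rw [hf s (Finset.mem_powerset.1 hs), hg _ Finset.sdiff_subset]

theorem gm_sub_right (f g g' : Finset α → ℝ) (u : Finset α) :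
    gm f (fun s => g s - g' s) u = gm f g u - gm f g' u := by
  unfold gm
  rw [← Finset.sum_sub_distrib]
  exact Finset.sum_congr rfl fun s _ => by ring

theorem gm_smul_right (c : ℝ) (f g : Finset α → ℝ) (u : Finset α) :
    gm f (fun s => c * g s) u = c * gm f g u := by
  unfold gm
  rw [Finset.mul_sum]
  exact Finset.sum_congr rfl fun s _ => by ring

theorem gm_zero_left (g : Finset α → ℝ) (u : Finset α) : gm (fun _ => 0) g u = 0 := by
  unfold gm
  exact Finset.sum_eq_zero fun s _ => by ring

theorem gm_zero_right (f : Finset α → ℝ) (u : Finset α) : gm f (fun _ => 0) u = 0 := by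
  unfold gm
  exact Finset.sum_eq_zero fun s _ => by ring

/-- `f` is supported on the sets with `m` elements -/
def Hom (m : ℕ) (f : Finset α → ℝ) : Prop := ∀ s, s.card ≠ m → f s = 0

/-- the function of the singletons commutes up to a sign -/
theorem io_one_comm {m : ℕ} {f : Finset α → ℝ} (hf : Hom m f) (u : Finset α) :
    gm (io 1) f u = (-1) ^ m * gm f (io 1) u := by
  rw [gm_io_one_left, gm_io_one_right, Finset.mul_sum]
  refine Finset.sum_congr rfl fun i hi => ?_
  by_cases h : (u.erase i).card = m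
  · rw [sg_comm' (Finset.disjoint_singleton_left.2 (Finset.notMem_erase i u)), h,
      Finset.card_singleton, one_mul]
    ring
  · rw [hf _ h, mul_zero, mul_zero, mul_zero]

/-- the sum of the signs of the sets with `b` elements -/
def Sg (b : ℕ) (u : Finset α) : ℝ := ∑ s ∈ u.powersetCard b, sg s (u \ s)

theorem gm_io_io (b c : ℕ) (u : Finset α) :
    gm (io b) (io c) u = if u.card = b + c then Sg b u else 0 := by
  unfold gm Sg
  split_ifs with h
  · rw [← Finset.sum_subset (s₁ := u.powersetCard b) (s₂ := u.powerset)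
      (fun s hs => Finset.mem_powerset.2 (Finset.mem_powersetCard.1 hs).1)]
    · refine Finset.sum_congr rfl fun s hs => ?_
      have h1 := Finset.mem_powersetCard.1 hs
      have h2 : (u \ s).card = c := by
        rw [Finset.card_sdiff_of_subset h1.1, h, h1.2]
        omega
      simp only [io, h1.2, h2, if_true, mul_one]
    · intro s hs h1
      have : s.card ≠ b := fun h2 => h1 (Finset.mem_powersetCard.2 ⟨Finset.mem_powerset.1 hs, h2⟩)
      simp only [io, if_neg this, mul_zero, zero_mul]
  · refine Finset.sum_eq_zero fun s hs => ?_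
    have h1 := Finset.mem_powerset.1 hs
    by_cases h2 : s.card = b
    · have h3 : (u \ s).card ≠ c := by
        rw [Finset.card_sdiff_of_subset h1, h2]
        intro h3
        have h4 := Finset.card_le_card h1
        omega
      simp only [io, if_neg h3, mul_zero]
    · simp only [io, if_neg h2, mul_zero, zero_mul]

theorem sg_insert_max_left {m : α} {s t : Finset α} (hs : m ∉ s) (ht : ∀ x ∈ t, x < m) :
    sg (insert m s) t = (-1) ^ t.card * sg s t := by
  unfold sg
  rw [Finset.prod_insert hs]
  congr 1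
  rw [← Finset.prod_const]
  exact Finset.prod_congr rfl fun j hj => if_pos (ht j hj)

theorem sg_insert_max_right {m : α} {s t : Finset α} (ht : m ∉ t) (hs : ∀ x ∈ s, x < m) :
    sg s (insert m t) = sg s t := by
  unfold sg
  refine Finset.prod_congr rfl fun i hi => ?_
  rw [Finset.prod_insert ht, if_neg (hs i hi).not_gt, one_mul]

theorem Sg_insert {b : ℕ} {m : α} {u : Finset α} (hu : ∀ x ∈ u, x < m) :
    Sg (b + 1) (insert m u) = Sg (b + 1) u + (-1) ^ (u.card - b) * Sg b u := by
  have hm : m ∉ u := fun h => lt_irrefl _ (hu m h)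
  unfold Sg
  rw [Finset.powersetCard_succ_insert hm, Finset.sum_union, Finset.sum_image, Finset.mul_sum]
  · congr 1
    · refine Finset.sum_congr rfl fun s hs => ?_
      have h1 := (Finset.mem_powersetCard.1 hs).1
      rw [Finset.insert_sdiff_of_notMem _ fun h => hm (h1 h),
        sg_insert_max_right (fun h => hm (Finset.sdiff_subset h)) fun x hx => hu x (h1 hx)]
    · refine Finset.sum_congr rfl fun s hs => ?_
      have h1 := Finset.mem_powersetCard.1 hs
      have h2 : insert m u \ insert m s = u \ s := by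
        rw [Finset.insert_sdiff_insert, Finset.sdiff_insert, Finset.erase_eq_of_notMem]
        exact fun h => hm (Finset.sdiff_subset h)
      rw [h2, sg_insert_max_left (fun h => hm (h1.1 h)) fun x hx => hu x (Finset.sdiff_subset hx),
        Finset.card_sdiff_of_subset h1.1, h1.2]
  · intro s hs t ht h
    have h1 := (Finset.mem_powersetCard.1 hs).1
    have h2 := (Finset.mem_powersetCard.1 ht).1
    rw [← Finset.erase_insert fun h3 => hm (h1 h3), h, Finset.erase_insert fun h3 => hm (h2 h3)]
  · rw [Finset.disjoint_left]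
    intro s hs hs'
    obtain ⟨t, _, rfl⟩ := Finset.mem_image.1 hs'
    exact hm ((Finset.mem_powersetCard.1 hs).1 (Finset.mem_insert_self m t))

theorem Sg_zero (u : Finset α) : Sg 0 u = 1 := by
  unfold Sg
  rw [Finset.powersetCard_zero, Finset.sum_singleton]
  unfold sg
  rw [Finset.prod_empty]

theorem Sg_one (u : Finset α) : Sg 1 u = if Even u.card then 0 else 1 := by
  induction u using Finset.induction_on_max with
  | empty => rw [Sg, Finset.powersetCard_eq_empty.2 (by simp)]; simp
  | insert m u hu ih =>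
    have hm : m ∉ u := fun h => lt_irrefl _ (hu m h)
    rw [Sg_insert hu, ih, Sg_zero, Finset.card_insert_of_notMem hm, Nat.sub_zero]
    simp only [Nat.even_add_one]
    by_cases h : Even u.card
    · simp [h]
    · simp [h, (Nat.not_even_iff_odd.1 h).neg_one_pow]

theorem Sg_two (u : Finset α) : Sg 2 u = ((u.card / 2 : ℕ) : ℝ) := by
  induction u using Finset.induction_on_max with
  | empty => rw [Sg, Finset.powersetCard_eq_empty.2 (by simp)]; simp
  | insert m u hu ih =>
    have hm : m ∉ u := fun h => lt_irrefl _ (hu m h)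
    rw [Sg_insert hu, ih, Sg_one, Finset.card_insert_of_notMem hm]
    by_cases h : Even u.card
    · obtain ⟨k, hk⟩ := h
      rw [hk]
      have h1 : (k + k) / 2 = k := by omega
      have h2 : (k + k + 1) / 2 = k := by omega
      rw [h1, h2, if_pos ⟨k, rfl⟩, mul_zero, add_zero]
    · obtain ⟨k, hk⟩ := Nat.not_even_iff_odd.1 h
      rw [if_neg h, hk]
      have h1 : (2 * k + 1) / 2 = k := by omega
      have h2 : (2 * k + 1 + 1) / 2 = k + 1 := by omega
      have h3 : (-1 : ℝ) ^ (2 * k + 1 - 1) = 1 := by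
        rw [Nat.add_sub_cancel, pow_mul]; norm_num
      rw [h1, h2, h3]
      push_cast
      ring

theorem io_one_io_odd {b : ℕ} (hb : Odd b) (u : Finset α) : gm (io 1) (io b) u = 0 := by
  rw [gm_io_io]
  split_ifs with h
  · rw [Sg_one, if_pos]
    rw [h]
    exact hb.one_add
  · rfl

theorem io_two_io {j : ℕ} (u : Finset α) :
    gm (io 2) (io (2 * j)) u = ((j : ℝ) + 1) * io (2 * (j + 1)) u := by
  rw [gm_io_io]
  unfold io
  have h1 : 2 + 2 * j = 2 * (j + 1) := by ring
  rw [h1]
  split_ifs with h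
  · rw [Sg_two, h]
    have h2 : 2 * (j + 1) / 2 = j + 1 := by omega
    rw [h2]
    push_cast
    ring
  · ring

end Grassmann

/-! ### Order embeddings -/

section Map

variable {α β : Type*} [LinearOrder α] [LinearOrder β]

theorem sg_map (e : α ↪o β) (s t : Finset α) :
    sg (s.map e.toEmbedding) (t.map e.toEmbedding) = sg s t := by
  unfold sg
  rw [Finset.prod_map]
  refine Finset.prod_congr rfl fun i _ => ?_
  rw [Finset.prod_map]
  refine Finset.prod_congr rfl fun j _ => ?_
  simp only [RelEmbedding.coe_toEmbedding, OrderEmbedding.lt_iff_lt]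

theorem map_sdiff' (e : α ↪o β) (s t : Finset α) :
    (s \ t).map e.toEmbedding = s.map e.toEmbedding \ t.map e.toEmbedding := by
  ext x
  simp only [Finset.mem_map, Finset.mem_sdiff]
  constructor
  · rintro ⟨y, ⟨h1, h2⟩, rfl⟩
    exact ⟨⟨y, h1, rfl⟩, fun ⟨z, h3, h4⟩ => h2 (e.toEmbedding.injective h4 ▸ h3)⟩
  · rintro ⟨⟨y, h1, rfl⟩, h2⟩
    exact ⟨y, ⟨h1, fun h3 => h2 ⟨y, h3, rfl⟩⟩, rfl⟩

theorem gm_map (e : α ↪o β) (f g : Finset β → ℝ) (u : Finset α) :
    gm f g (u.map e.toEmbedding) =
      gm (fun s => f (s.map e.toEmbedding)) (fun s => g (s.map e.toEmbedding)) u := by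
  unfold gm
  symm
  refine Finset.sum_bij (fun s _ => s.map e.toEmbedding) ?_ ?_ ?_ ?_
  · intro s hs
    exact Finset.mem_powerset.2 (Finset.map_subset_map.2 (Finset.mem_powerset.1 hs))
  · intro s _ t _ h
    exact Finset.map_injective _ h
  · intro t ht
    obtain ⟨s, hs, rfl⟩ := Finset.subset_map_iff.1 (Finset.mem_powerset.1 ht)
    exact ⟨s, Finset.mem_powerset.2 hs, rfl⟩
  · intro s _
    rw [← map_sdiff', sg_map]

theorem io_map (e : α ↪o β) (b : ℕ) (s : Finset α) : io b (s.map e.toEmbedding) = io b s := by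
  unfold io
  rw [Finset.card_map]

end Map

/-! ### Evaluation of cochains -/

section Ev

variable {α : Type*} [LinearOrder α] {G : Type*}

/-- the evaluation of a cochain at the points with labels in a set -/
def fv {k : ℕ} (F : (Fin k → G) → ℝ) (p : α → G) (s : Finset α) : ℝ :=
  if h : s.card = k then F fun i => p (s.orderEmbOfFin h i) else 0

theorem fv_hom {k : ℕ} (F : (Fin k → G) → ℝ) (p : α → G) : Hom k (fv F p) := by
  intro s hs
  unfold fv
  rw [dif_neg hs]

theorem fv_eq {k : ℕ} (F : (Fin k → G) → ℝ) (p : α → G) {s : Finset α} (h : s.card = k) :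
    fv F p s = F fun i => p (s.orderEmbOfFin h i) := by
  unfold fv
  rw [dif_pos h]

theorem fv_map {β : Type*} [LinearOrder β] (e : α ↪o β) {k : ℕ} (F : (Fin k → G) → ℝ)
    (p : β → G) (s : Finset α) : fv F (fun i => p (e i)) s = fv F p (s.map e.toEmbedding) := by
  by_cases h : s.card = k
  · have h' : (s.map e.toEmbedding).card = k := by rw [Finset.card_map, h]
    rw [fv_eq F _ h, fv_eq F _ h']
    congr 1
    funext i
    congr 1
    refine congrFun (Finset.orderEmbOfFin_unique h' (f := fun i => e (s.orderEmbOfFin h i))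
      (fun i => ?_) (fun i j hij => ?_)) i
    · exact Finset.mem_map_of_mem _ (Finset.orderEmbOfFin_mem s h i)
    · exact e.lt_iff_lt.2 ((s.orderEmbOfFin h).lt_iff_lt.2 hij)
  · rw [fv_hom F _ s h, fv_hom F _ _ (by rwa [Finset.card_map])]

theorem fv_univ {n : ℕ} (F : (Fin n → G) → ℝ) (p : Fin n → G) : fv F p Finset.univ = F p := by
  have h : (Finset.univ : Finset (Fin n)).card = n := by simp
  rw [fv_eq F p h]
  congr 1
  funext i
  congr 1
  refine congrFun (Finset.orderEmbOfFin_unique h (f := fun i => i) (fun i => Finset.mem_univ _)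
    (fun i j hij => hij)).symm i

/-- the simplicial coboundary -/
def cb {n : ℕ} (F : (Fin n → G) → ℝ) (p : Fin (n + 1) → G) : ℝ :=
  ∑ j : Fin (n + 1), (-1) ^ (j : ℕ) * F fun i => p (j.succAbove i)

theorem sum_emb {k : ℕ} {u : Finset α} (h : u.card = k) (g : α → ℝ) :
    ∑ j ∈ u, g j = ∑ i, g (u.orderEmbOfFin h i) := by
  have h1 := Finset.sum_map Finset.univ (u.orderEmbOfFin h).toEmbedding g
  rw [Finset.map_orderEmbOfFin_univ u h] at h1
  exact h1

theorem prod_emb {k : ℕ} {u : Finset α} (h : u.card = k) (g : α → ℝ) :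
    ∏ j ∈ u, g j = ∏ i, g (u.orderEmbOfFin h i) := by
  have h1 := Finset.prod_map Finset.univ (u.orderEmbOfFin h).toEmbedding g
  rw [Finset.map_orderEmbOfFin_univ u h] at h1
  exact h1

theorem sg_singleton {k : ℕ} {u : Finset α} (h : u.card = k + 1) (l : Fin (k + 1)) :
    sg {u.orderEmbOfFin h l} (u.erase (u.orderEmbOfFin h l)) = (-1) ^ (l : ℕ) := by
  unfold sg
  rw [Finset.prod_singleton]
  have h1 : ∏ j ∈ u.erase (u.orderEmbOfFin h l), (if j < u.orderEmbOfFin h l then (-1 : ℝ) else 1) =
      ∏ j ∈ u, if j < u.orderEmbOfFin h l then (-1 : ℝ) else 1 := by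
    rw [← Finset.mul_prod_erase u _ (Finset.orderEmbOfFin_mem u h l), if_neg (lt_irrefl _), one_mul]
  rw [h1]
  have h2 : ∏ j ∈ u, (if j < u.orderEmbOfFin h l then (-1 : ℝ) else 1) =
      ∏ i : Fin (k + 1), if i < l then (-1 : ℝ) else 1 := by
    rw [prod_emb h]
    refine Finset.prod_congr rfl fun i _ => ?_
    simp only [OrderEmbedding.lt_iff_lt]
  rw [h2, Finset.prod_ite, Finset.prod_const, Finset.prod_const_one, mul_one]
  congr 1
  have h3 : (Finset.univ.filter fun i : Fin (k + 1) => i < l) = Finset.Iio l := by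
    ext i; simp
  rw [h3, Fin.card_Iio]

/-- the coboundary is the product with the function of the singletons -/
theorem gm_io_one_fv {k : ℕ} (F : (Fin k → G) → ℝ) (p : α → G) (u : Finset α) :
    gm (io 1) (fv F p) u = fv (cb F) p u := by
  rw [gm_io_one_left]
  by_cases h : u.card = k + 1
  · rw [fv_eq (cb F) p h]
    unfold cb
    rw [sum_emb h]
    refine Finset.sum_congr rfl fun l _ => ?_
    rw [sg_singleton h l]
    have h1 : (u.erase (u.orderEmbOfFin h l)).card = k := by
      rw [Finset.card_erase_of_mem (Finset.orderEmbOfFin_mem u h l), h, Nat.add_sub_cancel]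
    rw [fv_eq F p h1]
    congr 2
    funext i
    congr 1
    refine (congrFun (Finset.orderEmbOfFin_unique h1
      (f := fun i => u.orderEmbOfFin h (l.succAbove i)) (fun i => ?_) (fun i j hij => ?_)) i).symm
    · refine Finset.mem_erase.2 ⟨fun h2 => ?_, Finset.orderEmbOfFin_mem u h _⟩
      exact Fin.succAbove_ne l i ((u.orderEmbOfFin h).injective h2)
    · exact (u.orderEmbOfFin h).lt_iff_lt.2 (Fin.succAbove_lt_succAbove_iff.2 hij)
  · rw [fv_hom _ _ u h]
    refine Finset.sum_eq_zero fun i hi => ?_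
    rw [fv_hom F p, mul_zero]
    rw [Finset.card_erase_of_mem hi]
    intro h1
    have := Finset.card_pos.2 ⟨i, hi⟩
    omega

end Ev

end

end Vale.Agent.P184.Odd
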