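import Mathlib
import Vale.Agent.P184.Bdl.B5
import Vale.Agent.P184.R2.O1

/-!
# The pairing of cochains with words in different letters
-/

namespace Vale.Agent.P184.Odd

noncomputable section

open scoped Topology

/-- Data: a trace, a length function and a rate of decay. -/
structure LData (G : Type*) [Group G] (D : Type*) [NormedRing D] [NormedAlgebra ℂ D] where
  x : G
  tr : D →L[ℂ] ℂ
  L : G → ℝ
  eps : ℝ
  htr : ∀ a b, tr (a * b) = tr (b * a)
  hL : IsLength L
  heps : 0 < eps

namespace LData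

variable {G : Type*} [Group G] {D : Type*} [NormedRing D] [NormedAlgebra ℂ D]

/-- the data for the admissible functions -/
def toD (A : LData G D) : DData G D where
  x := A.x
  tr := A.tr
  E := fun _ => 0
  L := A.L
  eps := A.eps
  htr := A.htr
  hE := fun k => by simp
  hL := A.hL
  heps := A.heps
  hdec := by simp only [norm_zero, zero_mul]; exact summable_zero

/-- the letters: functions which decay with the given rate -/
def Lt (A : LData G D) : AddSubgroup (G → D) where
  carrier := {w | Summable fun g => ‖w g‖ * Real.exp (A.eps * A.L g)}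
  zero_mem' := by
    simp only [Set.mem_ofPred_eq, Pi.zero_apply, norm_zero, zero_mul]
    exact summable_zero
  add_mem' := by
    intro a b ha hb
    refine Summable.of_nonneg_of_le (fun g => by positivity) (fun g => ?_) (ha.add hb)
    rw [← add_mul]
    exact mul_le_mul_of_nonneg_right (norm_add_le _ _) (Real.exp_pos _).le
  neg_mem' := by
    intro a ha
    simpa only [Set.mem_ofPred_eq, Pi.neg_apply, norm_neg] using ha

variable {A : LData G D}

theorem Lt_dec (w : A.Lt) : Summable fun g => ‖w.1 g‖ * Real.exp (A.eps * A.L g) := w.2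

theorem one_le_exp (A : LData G D) (g : G) : 1 ≤ Real.exp (A.eps * A.L g) :=
  Real.one_le_exp (mul_nonneg A.heps.le (A.hL.nonneg g))

theorem Lt_sum (w : A.Lt) : Summable fun g => ‖w.1 g‖ := by
  refine Summable.of_nonneg_of_le (fun _ => norm_nonneg _) (fun g => ?_) (Lt_dec w)
  exact le_mul_of_one_le_right (norm_nonneg _) (A.one_le_exp g)

theorem cv_summable [CompleteSpace D] (a b : A.Lt) (k : G) :
    Summable fun h => a.1 h * b.1 (h⁻¹ * k) := by
  refine Summable.of_norm_bounded ((Lt_sum a).mul_right (∑' g, ‖b.1 g‖)) fun h => ?_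
  refine (norm_mul_le _ _).trans (mul_le_mul_of_nonneg_left ?_ (norm_nonneg _))
  exact (Lt_sum b).le_tsum _ fun _ _ => norm_nonneg _

/-- the convolution of two letters -/
def cv (a b : A.Lt) : A.Lt := ⟨fun k => ∑' h, a.1 h * b.1 (h⁻¹ * k), by
  have h1 := (summable_mul_of_summable_norm
    (f := fun g => ‖a.1 g‖ * Real.exp (A.eps * A.L g))
    (g := fun g => ‖b.1 g‖ * Real.exp (A.eps * A.L g))
    (by simpa only [norm_mul, Real.norm_eq_abs, Real.abs_exp, abs_norm] using Lt_dec a)
    (by simpa only [norm_mul, Real.norm_eq_abs, Real.abs_exp, abs_norm] using Lt_dec b))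
  let φ : G × G ≃ G × G :=
    { toFun := fun z => (z.2, z.2⁻¹ * z.1)
      invFun := fun z => (z.1 * z.2, z.1)
      left_inv := fun z => by simp only [mul_inv_cancel_left, Prod.mk.eta]
      right_inv := fun z => by simp only [inv_mul_cancel_left, Prod.mk.eta] }
  have h2 := φ.summable_iff.2 h1
  have h3 := h2.prod
  refine Summable.of_nonneg_of_le (fun _ => by positivity) (fun k => ?_) h3
  have h4 := h2.prod_factor k
  by_cases h5 : Summable fun h => a.1 h * b.1 (h⁻¹ * k)
  · have h6 : ∀ h, ‖a.1 h * b.1 (h⁻¹ * k)‖ * Real.exp (A.eps * A.L k) ≤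
        ‖a.1 h‖ * Real.exp (A.eps * A.L h) *
          (‖b.1 (h⁻¹ * k)‖ * Real.exp (A.eps * A.L (h⁻¹ * k))) := by
      intro h
      have h7 : Real.exp (A.eps * A.L k) ≤
          Real.exp (A.eps * A.L h) * Real.exp (A.eps * A.L (h⁻¹ * k)) := by
        rw [← Real.exp_add, Real.exp_le_exp, ← mul_add]
        refine mul_le_mul_of_nonneg_left ?_ A.heps.le
        have := A.hL.2.2 h (h⁻¹ * k)
        rwa [mul_inv_cancel_left] at this
      calc ‖a.1 h * b.1 (h⁻¹ * k)‖ * Real.exp (A.eps * A.L k)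
          ≤ (‖a.1 h‖ * ‖b.1 (h⁻¹ * k)‖) *
            (Real.exp (A.eps * A.L h) * Real.exp (A.eps * A.L (h⁻¹ * k))) :=
            mul_le_mul (norm_mul_le _ _) h7 (Real.exp_pos _).le (by positivity)
        _ = _ := by ring
    have h7 : Summable fun h => ‖a.1 h * b.1 (h⁻¹ * k)‖ * Real.exp (A.eps * A.L k) :=
      Summable.of_nonneg_of_le (fun _ => by positivity) h6 h4
    have h8 : Summable fun h => ‖a.1 h * b.1 (h⁻¹ * k)‖ := by
      have := h7.mul_right (Real.exp (A.eps * A.L k))⁻¹
      refine this.congr fun h => ?_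
      rw [mul_assoc, mul_inv_cancel₀ (Real.exp_pos _).ne', mul_one]
    refine (mul_le_mul_of_nonneg_right (norm_tsum_le_tsum_norm h8) (Real.exp_pos _).le).trans ?_
    rw [← tsum_mul_right]
    exact h7.tsum_le_tsum h6 h4
  · have h6 : (∑' h, a.1 h * b.1 (h⁻¹ * k)) = 0 := tsum_eq_zero_of_not_summable h5
    simp only [h6, norm_zero, zero_mul]
    exact tsum_nonneg fun h => by simp only [Function.comp_apply]; positivity⟩

theorem cv_apply (a b : A.Lt) (k : G) : (cv a b).1 k = ∑' h, a.1 h * b.1 (h⁻¹ * k) := rfl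

/-! ### The weight of a word -/

/-- the weight of a tuple with respect to a word -/
def wt {m : ℕ} (w : Fin (m + 1) → A.Lt) (p : Fin (m + 1) → G) : ℂ :=
  A.tr (List.ofFn fun i => (w i).1 (stp A.x p i)).prod

theorem wt_tra {m : ℕ} (w : Fin (m + 1) → A.Lt) {h : G} (hh : Commute h A.x)
    (p : Fin (m + 1) → G) : wt w (tra h p) = wt w p := by
  unfold wt
  congr 3
  funext i
  rw [stp_tra A.x hh]

theorem wt_shf {m : ℕ} (w : Fin (m + 1) → A.Lt) (p : Fin (m + 1) → G) :
    wt (fun i => w (finRotate (m + 1) i)) (shf A.x p) = wt w p := by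
  unfold wt
  rw [List.ofFn_succ' (fun i => (w (finRotate (m + 1) i)).1 (stp A.x (shf A.x p) i)),
    List.ofFn_succ (f := fun i => (w i).1 (stp A.x p i)),
    List.concat_eq_append, List.prod_append, List.prod_singleton, A.htr,
    stp_shf_last, List.prod_cons, finRotate_last]
  congr 4
  funext k
  rw [stp_shf_castSucc]
  have h : finRotate (m + 1) k.castSucc = k.succ := by
    apply Fin.ext
    rw [coe_finRotate_of_ne_last (Fin.castSucc_lt_last k).ne]
    simp
  rw [h]

theorem norm_wt_le {m : ℕ} (w : Fin (m + 1) → A.Lt) (p : Fin (m + 1) → G) :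
    ‖wt w p‖ ≤ ‖A.tr‖ * ∏ i, ‖(w i).1 (stp A.x p i)‖ := by
  unfold wt
  refine (A.tr.le_opNorm _).trans (mul_le_mul_of_nonneg_left ?_ (norm_nonneg _))
  refine (List.norm_prod_le' ?_).trans (le_of_eq ?_)
  · intro h
    have := congrArg List.length h
    simp only [List.ofFn_succ, List.length_cons, List.length_ofFn, List.length_nil,
      Nat.add_eq_zero_iff, one_ne_zero, and_false] at this
  · rw [List.map_ofFn, List.prod_ofFn]
    rfl

/-- the pairing of a cochain with a word -/
def P {m : ℕ} (w : Fin (m + 1) → A.Lt) (F : (Fin (m + 1) → G) → ℝ) : ℂ :=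
  ∑' a : Orb A.x m, (F (Orb.rep A.x a) : ℂ) * wt w (Orb.rep A.x a)

theorem P_summable {m : ℕ} (w : Fin (m + 1) → A.Lt) {F : (Fin (m + 1) → G) → ℝ}
    (hF : A.toD.Good F) :
    Summable fun a : Orb A.x m => (F (Orb.rep A.x a) : ℂ) * wt w (Orb.rep A.x a) := by
  set K : ℝ := 2 * (m + 1) * (m + 1) + 4 * (m + 1) with hK
  have hK0 : 0 < K := by positivity
  obtain ⟨C, hC0, hC⟩ := hF.sub.pos (div_pos A.heps hK0)
  set B : G → ℝ := fun g => ∑ i, ‖(w i).1 g‖ * Real.exp (A.eps * A.L g) with hB
  have hB0 : ∀ g, 0 ≤ B g := fun g => Finset.sum_nonneg fun i _ => by positivity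
  have hB1 : ∀ g i, ‖(w i).1 g‖ * Real.exp (A.eps * A.L g) ≤ B g := fun g i =>
    Finset.single_le_sum (f := fun i => ‖(w i).1 g‖ * Real.exp (A.eps * A.L g))
      (fun i _ => by positivity) (Finset.mem_univ i)
  have h1 := summable_pi (A := B) hB0 (summable_sum fun i _ => Lt_dec (w i)) (m + 1)
  have h2 : Summable fun a : Orb A.x m => ∏ i, B (stp A.x (Orb.rep A.x a) i) :=
    h1.comp_injective (stp_injective A.x)
  refine Summable.of_norm_bounded (h2.mul_left (C * ‖A.tr‖)) fun a => ?_
  set p := Orb.rep A.x a with hp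
  rw [norm_mul, Complex.norm_real, Real.norm_eq_abs]
  have h3 := siz_le_stp (x := A.x) A.hL p
  have h4 : |F p| ≤ C * ∏ i, Real.exp (A.eps * A.L (stp A.x p i)) := by
    refine (hC p).trans (mul_le_mul_of_nonneg_left ?_ hC0)
    rw [← Real.exp_sum, Real.exp_le_exp, ← Finset.mul_sum]
    calc A.eps / K * siz A.x A.L p ≤ A.eps / K * (K * ∑ i, A.L (stp A.x p i)) :=
          mul_le_mul_of_nonneg_left h3 (div_pos A.heps hK0).le
      _ = A.eps * ∑ i, A.L (stp A.x p i) := by (clear * - hK0; field_simp)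
  have h5 := norm_wt_le w p
  calc |F p| * ‖wt w p‖
      ≤ (C * ∏ i, Real.exp (A.eps * A.L (stp A.x p i))) *
        (‖A.tr‖ * ∏ i, ‖(w i).1 (stp A.x p i)‖) := by
        refine mul_le_mul h4 h5 (norm_nonneg _) ?_
        exact mul_nonneg hC0 (Finset.prod_nonneg fun _ _ => (Real.exp_pos _).le)
    _ = C * ‖A.tr‖ * ∏ i, (‖(w i).1 (stp A.x p i)‖ * Real.exp (A.eps * A.L (stp A.x p i))) := by
        rw [Finset.prod_mul_distrib]
        ring
    _ ≤ C * ‖A.tr‖ * ∏ i, B (stp A.x p i) := by
        refine mul_le_mul_of_nonneg_left ?_ (mul_nonneg hC0 (norm_nonneg _))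
        exact Finset.prod_le_prod (fun i _ => by positivity) fun i _ => hB1 _ i

theorem P_add {m : ℕ} (w : Fin (m + 1) → A.Lt) {F F' : (Fin (m + 1) → G) → ℝ}
    (hF : A.toD.Good F) (hF' : A.toD.Good F') :
    P w (fun p => F p + F' p) = P w F + P w F' := by
  unfold P
  rw [← (P_summable w hF).tsum_add (P_summable w hF')]
  refine tsum_congr fun a => ?_
  push_cast; ring

theorem P_smul {m : ℕ} (w : Fin (m + 1) → A.Lt) (c : ℝ) {F : (Fin (m + 1) → G) → ℝ} :
    P w (fun p => c * F p) = c * P w F := by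
  unfold P
  rw [← tsum_mul_left]
  refine tsum_congr fun a => ?_
  push_cast; ring

theorem P_zero {m : ℕ} (w : Fin (m + 1) → A.Lt) : P w (fun _ : Fin (m + 1) → G => 0) = 0 := by
  have := P_smul w 0 (F := fun _ => 0)
  simpa using this

theorem P_neg {m : ℕ} (w : Fin (m + 1) → A.Lt) {F : (Fin (m + 1) → G) → ℝ} :
    P w (fun p => - F p) = - P w F := by
  have := P_smul w (-1) (F := F)
  push_cast at this
  rw [neg_one_mul] at this
  rw [← this]
  congr 1
  funext p
  ring

theorem P_sum {m : ℕ} (w : Fin (m + 1) → A.Lt) {ι : Type*} (S : Finset ι)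
    {F : ι → (Fin (m + 1) → G) → ℝ} (hF : ∀ i, A.toD.Good (F i)) :
    P w (fun p => ∑ i ∈ S, F i p) = ∑ i ∈ S, P w (F i) := by
  classical
  induction S using Finset.induction_on with
  | empty => simpa only [Finset.sum_empty] using (P_zero w)
  | insert a S ha ih =>
    simp only [Finset.sum_insert ha]
    rw [P_add w (hF a) (DData.Good.sum S hF), ih]

/-- the cyclic shift -/
theorem P_shf {m : ℕ} (w : Fin (m + 1) → A.Lt) {F : (Fin (m + 1) → G) → ℝ} (hF : CInv A.x F) :
    P w (fun p => F (shf A.x p)) = P (fun i => w (finRotate (m + 1) i)) F := by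
  unfold P
  rw [← (shfOrb A.x m).tsum_eq (fun a => (F (Orb.rep A.x a) : ℂ) *
    wt (fun i => w (finRotate (m + 1) i)) (Orb.rep A.x a))]
  refine tsum_congr fun a => ?_
  obtain ⟨h, hh, h1⟩ := rep_shfOrb A.x a
  rw [h1, hF h hh, wt_tra _ hh, wt_shf]

/-! ### Contraction of letters -/

/-- contraction of two neighbouring letters -/
def ct {m : ℕ} (j : Fin (m + 1)) (w : Fin (m + 2) → A.Lt) : Fin (m + 1) → A.Lt :=
  j.castSucc.contractNth cv w

theorem ct_of_lt {m : ℕ} {j k : Fin (m + 1)} (w : Fin (m + 2) → A.Lt) (h : (k : ℕ) < j) :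
    ct j w k = w k.castSucc := Fin.contractNth_apply_of_lt _ _ _ _ (by simpa using h)

theorem ct_of_eq {m : ℕ} (j : Fin (m + 1)) (w : Fin (m + 2) → A.Lt) :
    ct j w j = cv (w j.castSucc) (w j.succ) := Fin.contractNth_apply_of_eq _ _ _ _ (by simp)

theorem ct_of_gt {m : ℕ} {j k : Fin (m + 1)} (w : Fin (m + 2) → A.Lt) (h : (j : ℕ) < k) :
    ct j w k = w k.succ := Fin.contractNth_apply_of_gt _ _ _ _ (by simpa using h)

theorem wt_snoc {m : ℕ} (w : Fin (m + 2) → A.Lt) (p : Fin (m + 1) → G) (g : G) :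
    wt w (Fin.snoc p g : Fin (m + 2) → G) =
      A.tr ((List.ofFn fun k : Fin m => (w k.castSucc.castSucc).1 (stp A.x p k.castSucc)).prod *
        ((w (Fin.last m).castSucc).1 ((p (Fin.last m))⁻¹ * g) *
          (w (Fin.last (m + 1))).1 (g⁻¹ * (A.x * p 0)))) := by
  unfold wt
  rw [List.ofFn_succ' , List.ofFn_succ', List.concat_eq_append, List.concat_eq_append,
    List.prod_append, List.prod_append, List.prod_singleton, List.prod_singleton, mul_assoc,
    stp_snoc_mid, stp_snoc_last]
  congr 4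
  funext k
  rw [stp_snoc_castSucc]

theorem wt_last {m : ℕ} (w : Fin (m + 1) → A.Lt) (p : Fin (m + 1) → G) :
    wt w p = A.tr ((List.ofFn fun k : Fin m => (w k.castSucc).1 (stp A.x p k.castSucc)).prod *
        (w (Fin.last m)).1 ((p (Fin.last m))⁻¹ * (A.x * p 0))) := by
  unfold wt
  rw [List.ofFn_succ', List.concat_eq_append, List.prod_append, List.prod_singleton, stp_last]

variable [CompleteSpace D]

theorem tsum_wt_snoc {m : ℕ} (w : Fin (m + 2) → A.Lt) (p : Fin (m + 1) → G) :
    ∑' g, wt w (Fin.snoc p g : Fin (m + 2) → G) = wt (ct (Fin.last m) w) p := by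
  set a := w (Fin.last m).castSucc with ha
  set b := w (Fin.last (m + 1)) with hb
  have h1 := cv_summable a b ((p (Fin.last m))⁻¹ * (A.x * p 0))
  have h2 := (Equiv.mulLeft ((p (Fin.last m))⁻¹)).summable_iff.2 h1
  have h3 := (Equiv.mulLeft ((p (Fin.last m))⁻¹)).tsum_eq
    (fun h => a.1 h * b.1 (h⁻¹ * ((p (Fin.last m))⁻¹ * (A.x * p 0))))
  have h4 : ∀ g, a.1 ((p (Fin.last m))⁻¹ * g) * b.1 (g⁻¹ * (A.x * p 0)) =
      a.1 ((Equiv.mulLeft (p (Fin.last m))⁻¹) g) *
        b.1 (((Equiv.mulLeft (p (Fin.last m))⁻¹) g)⁻¹ * ((p (Fin.last m))⁻¹ * (A.x * p 0))) := by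
    intro g
    congr 2
    simp only [Equiv.coe_mulLeft]
    group
  have h6 : (ct (Fin.last m) w (Fin.last m)).1 ((p (Fin.last m))⁻¹ * (A.x * p 0)) =
      ∑' h, a.1 h * b.1 (h⁻¹ * ((p (Fin.last m))⁻¹ * (A.x * p 0))) := by
    rw [ct_of_eq, Fin.succ_last]
    rfl
  rw [wt_last, h6, ← h3]
  have h5 : ∀ g, wt w (Fin.snoc p g : Fin (m + 2) → G) =
      (A.tr.comp (ContinuousLinearMap.mul ℂ D
        (List.ofFn fun k : Fin m => (ct (Fin.last m) w k.castSucc).1
          (stp A.x p k.castSucc)).prod))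
        (a.1 ((Equiv.mulLeft (p (Fin.last m))⁻¹) g) *
        b.1 (((Equiv.mulLeft (p (Fin.last m))⁻¹) g)⁻¹ *
          ((p (Fin.last m))⁻¹ * (A.x * p 0)))) := by
    intro g
    rw [wt_snoc, h4]
    have h7 : ∀ k : Fin m, ct (Fin.last m) w k.castSucc = w k.castSucc.castSucc :=
      fun k => ct_of_lt w (by simp)
    simp only [h7]
    rfl
  rw [tsum_congr h5]
  exact (ContinuousLinearMap.map_tsum _ h2).symm

/-- deletion of the last vertex -/
theorem P_castSucc {m : ℕ} (w : Fin (m + 2) → A.Lt) {F : (Fin (m + 1) → G) → ℝ}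
    (hF : A.toD.Good F) :
    P w (fun p : Fin (m + 2) → G => F fun i => p i.castSucc) = P (ct (Fin.last m) w) F := by
  have h0 := P_summable w (hF.comp (Fin.castSucc : Fin (m + 1) → Fin (m + 2)))
  have h1 : ∀ z : Orb A.x m × G,
      ((F fun i => Orb.rep A.x (addOrb A.x m z) i.castSucc : ℝ) : ℂ) *
        wt w (Orb.rep A.x (addOrb A.x m z)) =
      (F (Orb.rep A.x z.1) : ℂ) *
        wt w (Fin.snoc (Orb.rep A.x z.1) z.2 : Fin (m + 2) → G) := by
    intro z
    obtain ⟨h, hh, h1⟩ := rep_addOrb A.x z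
    rw [h1, wt_tra w hh]
    congr 2
    have h2 : (fun i : Fin (m + 1) => tra h (Fin.snoc (Orb.rep A.x z.1) z.2 : Fin (m + 2) → G)
        i.castSucc) = tra h (Orb.rep A.x z.1) := by
      funext i
      simp only [tra, Fin.snoc_castSucc]
    rw [h2, hF.inv h hh]
  have h2 := (addOrb A.x m).summable_iff.2 h0
  have h3 : Summable fun z : Orb A.x m × G => (F (Orb.rep A.x z.1) : ℂ) *
        wt w (Fin.snoc (Orb.rep A.x z.1) z.2 : Fin (m + 2) → G) :=
    h2.congr h1
  unfold P
  rw [← (addOrb A.x m).tsum_eq (fun a => ((F fun i => Orb.rep A.x a i.castSucc : ℝ) : ℂ) *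
    wt w (Orb.rep A.x a)), tsum_congr h1, h3.tsum_prod]
  refine tsum_congr fun a => ?_
  have h4 := tsum_wt_snoc w (Orb.rep A.x a)
  rw [← h4, ← tsum_mul_left]

omit [CompleteSpace D] in
theorem ct_rot {m : ℕ} (k : Fin m) (w : Fin (m + 2) → A.Lt) (i : Fin (m + 1)) :
    ct k.succ (fun l => w ((finRotate (m + 2)).symm l)) (finRotate (m + 1) i) =
      ct k.castSucc w i := by
  have h0 : ∀ l : Fin (m + 1), (finRotate (m + 2)).symm l.succ = l.castSucc := by
    intro l
    rw [Equiv.symm_apply_eq]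
    apply Fin.ext
    rw [coe_finRotate_of_ne_last (Fin.castSucc_lt_last l).ne]
    simp
  have h1 : (finRotate (m + 2)).symm 0 = Fin.last (m + 1) := by
    rw [Equiv.symm_apply_eq, finRotate_last]
  refine Fin.lastCases ?_ (fun l => ?_) i
  · rw [finRotate_last, ct_of_lt _ (by simp), ct_of_gt _ (by simp)]
    rw [Fin.castSucc_zero, h1, Fin.succ_last]
  · have h2 : finRotate (m + 1) l.castSucc = l.succ := by
      apply Fin.ext
      rw [coe_finRotate_of_ne_last (Fin.castSucc_lt_last l).ne]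
      simp
    rw [h2]
    rcases lt_trichotomy (l : ℕ) (k : ℕ) with h | h | h
    · rw [ct_of_lt _ (by simpa using h), ct_of_lt _ (by simpa using h)]
      have h3 : l.succ.castSucc = l.castSucc.succ := rfl
      rw [h3, h0]
    · have h3 : l = k := Fin.ext h
      subst h3
      rw [ct_of_eq, ct_of_eq]
      have h3 : l.succ.castSucc = l.castSucc.succ := rfl
      rw [h3, h0, h0]
      rfl
    · rw [ct_of_gt _ (by simpa using h), ct_of_gt _ (by simpa using h)]
      rw [h0]
      rfl

/-- deletion of a vertex different from the first one -/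
theorem P_del {m : ℕ} (j : Fin (m + 1)) : ∀ (w : Fin (m + 2) → A.Lt)
    {F : (Fin (m + 1) → G) → ℝ}, A.toD.Good F →
    P w (fun p : Fin (m + 2) → G => F fun i => p (j.succ.succAbove i)) = P (ct j w) F := by
  refine Fin.reverseInduction (motive := fun j => ∀ (w : Fin (m + 2) → A.Lt)
    {F : (Fin (m + 1) → G) → ℝ}, A.toD.Good F →
    P w (fun p : Fin (m + 2) → G => F fun i => p (j.succ.succAbove i)) = P (ct j w) F)
    ?_ (fun k ih => ?_) j
  · intro w F hF
    have h1 : ∀ i : Fin (m + 1), (Fin.last m).succ.succAbove i = i.castSucc := by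
      intro i
      rw [Fin.succ_last]
      exact Fin.succAbove_last_apply i
    simp only [h1]
    exact P_castSucc w hF
  · intro w F hF
    set w' : Fin (m + 2) → A.Lt := fun l => w ((finRotate (m + 2)).symm l) with hw'
    have h1 : w = fun i => w' (finRotate (m + 2) i) := by
      funext i
      simp only [hw', Equiv.symm_apply_apply]
    have h2 : k.castSucc.succ = k.succ.castSucc := rfl
    conv_lhs => rw [h1]
    rw [← P_shf w' (hF.comp k.castSucc.succ.succAbove).inv]
    simp only [h2]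
    have h3 := ih w' hF.shf
    simp only [toD] at h3
    simp only [DData.shf_castSucc_succAbove]
    rw [h3, P_shf _ hF.inv]
    congr 1
    funext i
    exact ct_rot k w i

/-- deletion of the first vertex -/
theorem P_del_zero {m : ℕ} (w : Fin (m + 2) → A.Lt) {F : (Fin (m + 1) → G) → ℝ}
    (hF : A.toD.Good F) :
    P w (fun p : Fin (m + 2) → G => F fun i => p i.succ) =
      P (ct (Fin.last m) fun i => w (finRotate (m + 2) i)) F := by
  rw [← P_castSucc _ hF, ← P_shf w (hF.comp (Fin.castSucc : Fin (m + 1) → Fin (m + 2))).inv]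
  simp only [shf_castSucc]

end LData

end

end Vale.Agent.P184.Odd
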