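import Mathlib
import Vale.Agent.P184.R2.O2

/-!
# Alternating words
-/

namespace Vale.Agent.P184.Odd

noncomputable section

/-! ### Telescoping sums -/

theorem tel_fin (n : ℕ) (r : Fin (n + 1) → ℂ) :
    ∑ j : Fin n, (-1 : ℂ) ^ (j : ℕ) * (r j.castSucc + r j.succ) =
      r 0 - (-1) ^ n * r (Fin.last n) := by
  induction n with
  | zero => simp
  | succ n ih =>
    rw [Fin.sum_univ_castSucc]
    have h1 := ih fun i => r i.castSucc
    simp only [Fin.val_castSucc, Fin.castSucc_zero] at h1 ⊢
    have h2 : ∀ j : Fin n, r j.castSucc.succ = r j.succ.castSucc := fun j => rfl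
    simp only [h2]
    rw [h1, Fin.val_last, Fin.succ_last, pow_succ]
    ring

theorem tel_part (n : ℕ) : ∀ (r : Fin (n + 1) → ℂ) (i : ℕ) (hi : i < n),
    ∑ j : Fin n, (if i < (j : ℕ) then (-1 : ℂ) ^ (j : ℕ) * (r j.castSucc + r j.succ) else 0) =
      (-1) ^ (i + 1) * r ⟨i + 1, Nat.succ_lt_succ hi⟩ - (-1) ^ n * r (Fin.last n) := by
  induction n with
  | zero => intro r i hi; exact absurd hi (Nat.not_lt_zero i)
  | succ n ih =>
    intro r i hi
    rw [Fin.sum_univ_castSucc]
    have h2 : ∀ j : Fin n, r j.castSucc.succ = r j.succ.castSucc := fun j => rfl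
    simp only [Fin.val_castSucc, h2, Fin.val_last, Fin.succ_last]
    rcases Nat.lt_succ_iff_lt_or_eq.1 hi with h | h
    · rw [ih (fun i => r i.castSucc) i h, if_pos h, pow_succ (-1 : ℂ) n]
      have h3 : (⟨i + 1, Nat.succ_lt_succ h⟩ : Fin (n + 1)).castSucc =
          ⟨i + 1, Nat.succ_lt_succ hi⟩ := rfl
      rw [h3]
      ring
    · subst h
      have h3 : Fin.last (i + 1) = ⟨i + 1, Nat.succ_lt_succ hi⟩ := rfl
      rw [if_neg (lt_irrefl i), h3, add_zero, sub_self]
      exact Finset.sum_eq_zero fun j _ => if_neg (not_lt.2 j.isLt.le)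

theorem ofFn_update {M : Type*} [Monoid M] {n : ℕ} (f : Fin n → M) (i : Fin n) :
    ∃ a b : M, ∀ z, (List.ofFn (Function.update f i z)).prod = a * z * b := by
  induction n with
  | zero => exact i.elim0
  | succ n ih =>
    refine Fin.cases ?_ (fun j => ?_) i
    · refine ⟨1, (List.ofFn fun j => f j.succ).prod, fun z => ?_⟩
      rw [List.ofFn_succ, List.prod_cons, Function.update_self, one_mul]
      congr 3
    · obtain ⟨a, b, h⟩ := ih (fun j => f j.succ) j
      refine ⟨f 0 * a, b, fun z => ?_⟩
      rw [List.ofFn_succ, List.prod_cons, Function.update_of_ne (Fin.succ_ne_zero j).symm,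
        mul_assoc (f 0), mul_assoc (f 0), ← h z]
      congr 3
      funext k
      by_cases hk : k = j
      · subst hk
        rw [Function.update_self, Function.update_self]
      · rw [Function.update_of_ne hk, Function.update_of_ne fun h => hk (Fin.succ_injective _ h)]

namespace LData

variable {G : Type*} [Group G] {D : Type*} [NormedRing D] [NormedAlgebra ℂ D] {A : LData G D}

theorem wt_update {m : ℕ} (w : Fin (m + 1) → A.Lt) (i : Fin (m + 1)) (p : Fin (m + 1) → G) :
    ∃ c d : D, ∀ a : A.Lt, wt (Function.update w i a) p = A.tr (c * a.1 (stp A.x p i) * d) := by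
  obtain ⟨c, d, h⟩ := ofFn_update (fun l => (w l).1 (stp A.x p l)) i
  refine ⟨c, d, fun a => ?_⟩
  rw [← h]
  unfold wt
  congr 3
  funext k
  by_cases hk : k = i
  · subst hk
    rw [Function.update_self, Function.update_self]
  · rw [Function.update_of_ne hk, Function.update_of_ne hk]

theorem wt_update_add {m : ℕ} (w : Fin (m + 1) → A.Lt) (i : Fin (m + 1)) (a b : A.Lt)
    (p : Fin (m + 1) → G) : wt (Function.update w i (a + b)) p =
      wt (Function.update w i a) p + wt (Function.update w i b) p := by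
  obtain ⟨c, d, h⟩ := wt_update w i p
  rw [h, h, h, ← map_add]
  congr 1
  have : (a + b).1 (stp A.x p i) = a.1 (stp A.x p i) + b.1 (stp A.x p i) := rfl
  rw [this, mul_add, add_mul]

theorem wt_update_neg {m : ℕ} (w : Fin (m + 1) → A.Lt) (i : Fin (m + 1)) (a : A.Lt)
    (p : Fin (m + 1) → G) : wt (Function.update w i (-a)) p = - wt (Function.update w i a) p := by
  obtain ⟨c, d, h⟩ := wt_update w i p
  rw [h, h, ← map_neg]
  congr 1
  have : (-a).1 (stp A.x p i) = -a.1 (stp A.x p i) := rfl
  rw [this, mul_neg, neg_mul]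

theorem P_update_add {m : ℕ} (w : Fin (m + 1) → A.Lt) (i : Fin (m + 1)) (a b : A.Lt)
    {F : (Fin (m + 1) → G) → ℝ} (hF : A.toD.Good F) : P (Function.update w i (a + b)) F =
      P (Function.update w i a) F + P (Function.update w i b) F := by
  unfold P
  rw [← (P_summable _ hF).tsum_add (P_summable _ hF)]
  refine tsum_congr fun p => ?_
  rw [wt_update_add, mul_add]

theorem P_update_neg {m : ℕ} (w : Fin (m + 1) → A.Lt) (i : Fin (m + 1)) (a : A.Lt)
    {F : (Fin (m + 1) → G) → ℝ} : P (Function.update w i (-a)) F =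
      - P (Function.update w i a) F := by
  unfold P
  rw [← tsum_neg]
  refine tsum_congr fun p => ?_
  rw [wt_update_neg, mul_neg]

/-- contraction of two letters whose product is minus their sum -/
theorem P_ct {m : ℕ} (j : Fin (m + 1)) (w : Fin (m + 2) → A.Lt)
    (h : cv (w j.castSucc) (w j.succ) = -(w j.castSucc + w j.succ))
    {F : (Fin (m + 1) → G) → ℝ} (hF : A.toD.Good F) :
    P (ct j w) F = -(P (fun i => w (j.castSucc.succAbove i)) F +
      P (fun i => w (j.succ.succAbove i)) F) := by
  have h1 : ∀ k : Fin (m + 1), (k : ℕ) < j → j.castSucc.succAbove k = k.castSucc ∧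
      j.succ.succAbove k = k.castSucc := by
    intro k hk
    constructor
    · exact Fin.succAbove_of_castSucc_lt _ _ (Fin.castSucc_lt_castSucc_iff.2 (Fin.lt_def.2 hk))
    · refine Fin.succAbove_of_castSucc_lt _ _ ?_
      simp only [Fin.lt_def, Fin.val_castSucc, Fin.val_succ]
      omega
  have h2 : ∀ k : Fin (m + 1), (j : ℕ) < k → j.castSucc.succAbove k = k.succ ∧
      j.succ.succAbove k = k.succ := by
    intro k hk
    constructor
    · refine Fin.succAbove_of_le_castSucc _ _ ?_
      simp only [Fin.le_def, Fin.val_castSucc]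
      omega
    · refine Fin.succAbove_of_le_castSucc _ _ ?_
      simp only [Fin.le_def, Fin.val_castSucc, Fin.val_succ]
      omega
  have h3 : j.castSucc.succAbove j = j.succ := Fin.succAbove_castSucc_self j
  have h4 : j.succ.succAbove j = j.castSucc := Fin.succAbove_succ_self j
  set w0 : Fin (m + 1) → A.Lt := fun i => w (j.succ.succAbove i) with hw0
  have e1 : ct j w = Function.update w0 j (-(w j.castSucc + w j.succ)) := by
    funext k
    rcases lt_trichotomy (k : ℕ) (j : ℕ) with hk | hk | hk
    · rw [ct_of_lt w hk, Function.update_of_ne (fun h => absurd (congrArg Fin.val h) hk.ne), hw0]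
      simp only [(h1 k hk).2]
    · have hk' : k = j := Fin.ext hk
      subst hk'
      rw [ct_of_eq, Function.update_self, h]
    · rw [ct_of_gt w hk, Function.update_of_ne (fun h => absurd (congrArg Fin.val h) hk.ne'), hw0]
      simp only [(h2 k hk).2]
  have e2 : (fun i => w (j.castSucc.succAbove i)) = Function.update w0 j (w j.succ) := by
    funext k
    rcases lt_trichotomy (k : ℕ) (j : ℕ) with hk | hk | hk
    · rw [Function.update_of_ne (fun h => absurd (congrArg Fin.val h) hk.ne), hw0]
      simp only [(h1 k hk).1, (h1 k hk).2]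
    · have hk' : k = j := Fin.ext hk
      subst hk'
      rw [Function.update_self, h3]
    · rw [Function.update_of_ne (fun h => absurd (congrArg Fin.val h) hk.ne'), hw0]
      simp only [(h2 k hk).1, (h2 k hk).2]
  have e3 : w0 = Function.update w0 j (w j.castSucc) := by
    rw [← h4]
    exact (Function.update_eq_self j w0).symm
  rw [e1, e2, P_update_neg, P_update_add _ _ _ _ hF]
  conv_rhs => rw [e3]
  rw [Function.update_idem]
  ring

variable [CompleteSpace D]

/-- deletion of vertices different from the first one -/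
theorem P_tel {m : ℕ} (w : Fin (m + 2) → A.Lt)
    (h : ∀ j : Fin (m + 1), cv (w j.castSucc) (w j.succ) = -(w j.castSucc + w j.succ))
    {F : (Fin (m + 1) → G) → ℝ} (hF : A.toD.Good F) :
    ∑ j : Fin (m + 1), (-1 : ℂ) ^ (j : ℕ) *
        P w (fun p : Fin (m + 2) → G => F fun i => p (j.succ.succAbove i)) =
      -(P (fun i => w i.succ) F - (-1) ^ (m + 1) * P (fun i => w i.castSucc) F) := by
  have h1 := tel_fin (m + 1) fun y => P (fun i => w (y.succAbove i)) F
  have h2 : (fun i : Fin (m + 1) => w ((0 : Fin (m + 2)).succAbove i)) = fun i => w i.succ := by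
    funext i
    rw [Fin.succAbove_zero]
  have h3 : (fun i : Fin (m + 1) => w ((Fin.last (m + 1)).succAbove i)) =
      fun i => w i.castSucc := by
    funext i
    rw [Fin.succAbove_last]
  rw [h2, h3] at h1
  rw [← h1, ← Finset.sum_neg_distrib]
  refine Finset.sum_congr rfl fun j _ => ?_
  rw [P_del j w hF, P_ct j w (h j) hF]
  ring

/-! ### Alternating words -/

/-- the alternating sequence of two letters -/
def al (a b : A.Lt) (i : ℕ) : A.Lt := if Even i then a else b

omit [CompleteSpace D] in
theorem al_succ (a b : A.Lt) (i : ℕ) : al a b (i + 1) = al b a i := by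
  unfold al
  by_cases h : Even i
  · rw [if_neg (Nat.not_even_iff_odd.2 h.add_one), if_pos h]
  · rw [if_pos (Nat.not_even_iff_odd.1 h).add_one, if_neg h]

omit [CompleteSpace D] in
theorem al_add_two (a b : A.Lt) (i : ℕ) : al a b (i + 2) = al a b i := by
  rw [al_succ, al_succ]

/-- `a` and `b` are inverse to each other, up to the unit -/
def Inv (a b : A.Lt) : Prop := cv a b = -(a + b) ∧ cv b a = -(a + b)

omit [CompleteSpace D] in
theorem Inv.al {a b : A.Lt} (h : Inv a b) (i : ℕ) :
    cv (al a b i) (al a b (i + 1)) = -(al a b i + al a b (i + 1)) := by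
  unfold LData.al
  by_cases hi : Even i
  · rw [if_pos hi, if_neg (Nat.not_even_iff_odd.2 hi.add_one), h.1]
  · rw [if_neg hi, if_pos (Nat.not_even_iff_odd.1 hi).add_one, h.2, add_comm]

omit [CompleteSpace D] in
theorem Inv.symm {a b : A.Lt} (h : Inv a b) : Inv b a := by
  refine ⟨?_, ?_⟩
  · rw [h.2, add_comm]
  · rw [h.1, add_comm]

/-- the alternating word -/
def aw (a b : A.Lt) (n : ℕ) (i : Fin n) : A.Lt := al a b i

omit [CompleteSpace D] in
theorem aw_rot {m : ℕ} (hm : Odd m) (a b : A.Lt) (i : Fin (m + 1)) :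
    aw a b (m + 1) (finRotate (m + 1) i) = aw b a (m + 1) i := by
  unfold aw
  refine Fin.lastCases ?_ (fun l => ?_) i
  · rw [finRotate_last, Fin.val_zero, Fin.val_last]
    unfold al
    rw [if_pos (by simp), if_neg (Nat.not_even_iff_odd.2 hm)]
  · rw [coe_finRotate_of_ne_last (Fin.castSucc_lt_last l).ne, al_succ]

/-- the antisymmetric pairing with the alternating word -/
def T (a b : A.Lt) {m : ℕ} (F : (Fin (m + 1) → G) → ℝ) : ℂ :=
  P (aw a b (m + 1)) F - P (aw b a (m + 1)) F

omit [CompleteSpace D] in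
theorem T_sum (a b : A.Lt) {m : ℕ} {ι : Type*} (S : Finset ι) {F : ι → (Fin (m + 1) → G) → ℝ}
    (hF : ∀ i, A.toD.Good (F i)) : T a b (fun p => ∑ i ∈ S, F i p) = ∑ i ∈ S, T a b (F i) := by
  unfold T
  rw [P_sum _ S hF, P_sum _ S hF, Finset.sum_sub_distrib]

omit [CompleteSpace D] in
theorem T_smul (a b : A.Lt) {m : ℕ} (c : ℝ) {F : (Fin (m + 1) → G) → ℝ} :
    T a b (fun p => c * F p) = c * T a b F := by
  unfold T
  rw [P_smul, P_smul, mul_sub]

omit [CompleteSpace D] in
theorem T_add (a b : A.Lt) {m : ℕ} {F F' : (Fin (m + 1) → G) → ℝ} (hF : A.toD.Good F)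
    (hF' : A.toD.Good F') : T a b (fun p => F p + F' p) = T a b F + T a b F' := by
  unfold T
  rw [P_add _ hF hF', P_add _ hF hF']
  ring

omit [CompleteSpace D] in
theorem T_zero (a b : A.Lt) {m : ℕ} : T a b (fun _ : Fin (m + 1) → G => 0) = 0 := by
  unfold T
  rw [P_zero, P_zero, sub_zero]

omit [CompleteSpace D] in
theorem T_shf {m : ℕ} (hm : Odd m) (a b : A.Lt) {F : (Fin (m + 1) → G) → ℝ}
    (hF : CInv A.x F) : T a b (fun p => F (shf A.x p)) = -T a b F := by
  unfold T
  rw [P_shf _ hF, P_shf _ hF]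
  simp only [aw_rot hm]
  change P (aw b a (m + 1)) F - P (aw a b (m + 1)) F = _
  ring

omit [CompleteSpace D] in
/-- the value on cyclic functions -/
theorem T_cyc {m : ℕ} (hm : Odd m) (a b : A.Lt) {F : (Fin (m + 1) → G) → ℝ}
    (hF : CInv A.x F) (h : ∀ p, F (shf A.x p) = -F p) : T a b F = 2 * P (aw a b (m + 1)) F := by
  have h1 := P_shf (aw a b (m + 1)) hF
  simp only [h, aw_rot hm] at h1
  rw [P_neg] at h1
  change _ = P (aw b a (m + 1)) F at h1
  unfold T
  rw [← h1]
  ring

/-- the coboundary without deletion of the first vertex -/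
def bp {n : ℕ} (F : (Fin n → G) → ℝ) (p : Fin (n + 1) → G) : ℝ :=
  ∑ j : Fin n, (-1) ^ (j : ℕ) * F fun i => p (j.succ.succAbove i)

theorem P_bp {m : ℕ} (w : Fin (m + 2) → A.Lt)
    (h : ∀ j : Fin (m + 1), cv (w j.castSucc) (w j.succ) = -(w j.castSucc + w j.succ))
    {F : (Fin (m + 1) → G) → ℝ} (hF : A.toD.Good F) :
    P w (bp F) = -(P (fun i => w i.succ) F - (-1) ^ (m + 1) * P (fun i => w i.castSucc) F) := by
  rw [← P_tel w h hF]
  unfold bp
  rw [P_sum w Finset.univ (F := fun (j : Fin (m + 1)) (p : Fin (m + 2) → G) =>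
    (-1 : ℝ) ^ (j : ℕ) * F fun i => p (j.succ.succAbove i))
    (fun j => (hF.comp j.succ.succAbove).smul _)]
  refine Finset.sum_congr rfl fun j _ => ?_
  rw [P_smul]
  push_cast
  rfl

/-- the first vanishing result -/
theorem T_bp {m : ℕ} (hm : Even m) {a b : A.Lt} (h : Inv a b) {F : (Fin (m + 1) → G) → ℝ}
    (hF : A.toD.Good F) : T a b (bp F : (Fin (m + 2) → G) → ℝ) = 0 := by
  unfold T
  rw [P_bp _ (fun j => ?_) hF, P_bp _ (fun j => ?_) hF]
  · have h1 : ∀ c d : A.Lt, (fun i : Fin (m + 1) => aw c d (m + 2) i.succ) = aw d c (m + 1) := by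
      intro c d
      funext i
      unfold aw
      rw [Fin.val_succ, al_succ]
    have h2 : ∀ c d : A.Lt, (fun i : Fin (m + 1) => aw c d (m + 2) i.castSucc) =
        aw c d (m + 1) := by
      intro c d
      funext i
      rfl
    simp only [h1, h2, hm.add_one.neg_one_pow]
    ring
  · exact h.symm.al _
  · exact h.al _

/-! ### Deletion of two vertices -/

/-- closed cyclic functions on an even number of points -/
structure Cyc {m : ℕ} (A : LData G D) (F : (Fin (m + 1) → G) → ℝ) : Prop where
  good : A.toD.Good F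
  cyc : ∀ p, F (shf A.x p) = -F p
  clo : ∀ p, cb F p = 0

/-- the value at an alternating word with a doubled letter -/
theorem P_double {m : ℕ} (hm : Odd m) {a b : A.Lt} (h : Inv a b) {F : (Fin (m + 1) → G) → ℝ}
    (hF : Cyc A F) (i : Fin (m + 1)) (v : Fin (m + 2) → A.Lt)
    (hv1 : ∀ k : Fin (m + 2), (k : ℕ) ≤ i → v k = al a b k)
    (hv2 : ∀ k : Fin (m + 2), (i : ℕ) < k → v k = al a b (k + 1)) :
    P (ct i v) F = -2 * P (aw a b (m + 1)) F := by
  set r : Fin (m + 2) → ℂ := fun y => P (fun k => v (y.succAbove k)) F with hr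
  -- the deletion of the first vertex
  have h0 : P v (fun p : Fin (m + 2) → G => F fun k => p k.succ) =
      -(r 0) + r (Fin.last (m + 1)) := by
    rw [P_del_zero v hF.good]
    set v' : Fin (m + 2) → A.Lt := fun l => v (finRotate (m + 2) l) with hv'
    have e1 : finRotate (m + 2) (Fin.last m).castSucc = Fin.last (m + 1) := by
      apply Fin.ext
      rw [coe_finRotate_of_ne_last (Fin.castSucc_lt_last _).ne]
      simp
    have e2 : finRotate (m + 2) (Fin.last m).succ = 0 := by
      rw [Fin.succ_last, finRotate_last]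
    have e3 : v (Fin.last (m + 1)) = b := by
      rw [hv2 _ (by rw [Fin.val_last]; exact i.isLt)]
      unfold al
      rw [if_neg]
      rw [Fin.val_last, Nat.not_even_iff_odd]
      exact (hm.add_one).add_one
    have e4 : v 0 = a := by
      rw [hv1 _ (by simp)]
      unfold al
      rw [if_pos (by simp)]
    have e5 : cv (v' (Fin.last m).castSucc) (v' (Fin.last m).succ) =
        -(v' (Fin.last m).castSucc + v' (Fin.last m).succ) := by
      simp only [hv', e1, e2, e3, e4]
      rw [h.2, add_comm]
    rw [P_ct _ _ e5 hF.good]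
    have e6 : (fun k => v' ((Fin.last m).succ.succAbove k)) =
        fun k => v ((0 : Fin (m + 2)).succAbove k) := by
      funext k
      simp only [hv', Fin.succ_last, Fin.succAbove_last, Fin.succAbove_zero]
      congr 1
      apply Fin.ext
      rw [coe_finRotate_of_ne_last (Fin.castSucc_lt_last _).ne]
      simp
    have e7 : (fun k => v' ((Fin.last m).castSucc.succAbove k)) =
        fun k => (fun l : Fin (m + 1) => v ((Fin.last (m + 1)).succAbove l))
          (finRotate (m + 1) k) := by
      funext k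
      simp only [hv', Fin.succAbove_last]
      congr 1
      refine Fin.lastCases ?_ (fun l => ?_) k
      · rw [Fin.succAbove_castSucc_self, Fin.succ_last, finRotate_last, finRotate_last]
        rfl
      · rw [Fin.succAbove_of_castSucc_lt _ _
          (Fin.castSucc_lt_castSucc_iff.2 (Fin.castSucc_lt_last l))]
        apply Fin.ext
        have e8 : ((finRotate (m + 1) l.castSucc : Fin (m + 1)) : ℕ) = l + 1 := by
          rw [coe_finRotate_of_ne_last (Fin.castSucc_lt_last l).ne]
          simp
        rw [coe_finRotate_of_ne_last (Fin.castSucc_lt_last _).ne, Fin.val_castSucc]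
        exact e8.symm
    have e8 := P_shf (fun l : Fin (m + 1) => v ((Fin.last (m + 1)).succAbove l)) hF.good.inv
    have e9 : (fun p => F (shf A.x p)) = fun p => -F p := funext fun p => hF.cyc p
    rw [e9, P_neg] at e8
    rw [e6, e7, ← e8]
    simp only [hr]
    ring
  -- the coboundary vanishes
  have h1 : P v (fun p : Fin (m + 2) → G => F fun k => p k.succ) +
      ∑ l : Fin (m + 1), (-1 : ℂ) ^ ((l : ℕ) + 1) * P (ct l v) F = 0 := by
    have e1 : (fun p : Fin (m + 2) → G => cb F p) = fun _ => 0 := funext fun p => hF.clo p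
    have e2 := congrArg (P v) e1
    rw [P_zero] at e2
    unfold cb at e2
    rw [P_sum v Finset.univ (F := fun (j : Fin (m + 2)) (p : Fin (m + 2) → G) =>
      (-1 : ℝ) ^ (j : ℕ) * F fun i => p (j.succAbove i))
      (fun j => (hF.good.comp j.succAbove).smul _)] at e2
    rw [Fin.sum_univ_succ] at e2
    simp only [P_smul, Fin.val_zero, pow_zero, Fin.zero_succAbove, Fin.val_succ] at e2
    rw [← e2]
    congr 1
    · push_cast
      rw [one_mul]
    · refine Finset.sum_congr rfl fun l _ => ?_
      rw [← P_del l v hF.good]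
      push_cast
      rfl
  -- contraction of different letters
  have h2 : ∀ l : Fin (m + 1), l ≠ i → P (ct l v) F = -(r l.castSucc + r l.succ) := by
    intro l hl
    refine P_ct l v ?_ hF.good
    rcases lt_or_gt_of_ne (fun h => hl (Fin.ext h) : (l : ℕ) ≠ i) with h3 | h3
    · rw [hv1 l.castSucc (by simpa using h3.le), hv1 l.succ (by simpa using h3)]
      simp only [Fin.val_castSucc, Fin.val_succ]
      exact h.al _
    · rw [hv2 l.castSucc (by simpa using h3), hv2 l.succ (by rw [Fin.val_succ]; omega)]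
      simp only [Fin.val_castSucc, Fin.val_succ]
      exact h.al _
  have h3 : ∑ l : Fin (m + 1), (-1 : ℂ) ^ ((l : ℕ) + 1) * P (ct l v) F =
      (r 0 - (-1) ^ (m + 1) * r (Fin.last (m + 1))) -
        (-1) ^ (i : ℕ) * (P (ct i v) F + (r i.castSucc + r i.succ)) := by
    rw [← tel_fin (m + 1) r, ← Finset.add_sum_erase _ _ (Finset.mem_univ i),
      ← Finset.add_sum_erase _ (fun j : Fin (m + 1) =>
        (-1 : ℂ) ^ (j : ℕ) * (r j.castSucc + r j.succ)) (Finset.mem_univ i)]
    have e1 : ∑ l ∈ Finset.univ.erase i, (-1 : ℂ) ^ ((l : ℕ) + 1) * P (ct l v) F =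
        ∑ l ∈ Finset.univ.erase i, (-1 : ℂ) ^ (l : ℕ) * (r l.castSucc + r l.succ) := by
      refine Finset.sum_congr rfl fun l hl => ?_
      rw [h2 l (Finset.ne_of_mem_erase hl), pow_succ]
      ring
    rw [e1, pow_succ]
    ring
  rw [h0, h3, hm.add_one.neg_one_pow] at h1
  have h4 : ∀ y : Fin (m + 2), (y = i.castSucc ∨ y = i.succ) → r y = P (aw a b (m + 1)) F := by
    intro y hy
    simp only [hr]
    congr 1
    funext k
    unfold aw
    rcases lt_trichotomy (k : ℕ) (i : ℕ) with hk | hk | hk
    · have e1 : y.succAbove k = k.castSucc := by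
        refine Fin.succAbove_of_castSucc_lt _ _ ?_
        rcases hy with rfl | rfl <;> simp only [Fin.lt_def, Fin.val_castSucc, Fin.val_succ] <;> omega
      rw [e1, hv1 _ (by simpa using hk.le)]
      simp
    · have hk' : k = i := Fin.ext hk
      subst hk'
      rcases hy with rfl | rfl
      · rw [Fin.succAbove_castSucc_self, hv2 _ (by simp), Fin.val_succ, al_add_two]
      · rw [Fin.succAbove_succ_self, hv1 _ (by simp)]
        simp
    · have e1 : y.succAbove k = k.succ := by
        refine Fin.succAbove_of_le_castSucc _ _ ?_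
        rcases hy with rfl | rfl <;> simp only [Fin.le_def, Fin.val_castSucc, Fin.val_succ] <;> omega
      rw [e1, hv2 _ (by rw [Fin.val_succ]; omega), Fin.val_succ, al_add_two]
  rw [h4 _ (Or.inl rfl), h4 _ (Or.inr rfl)] at h1
  have h5 : (-1 : ℂ) ^ (i : ℕ) * (P (ct i v) F +
      (P (aw a b (m + 1)) F + P (aw a b (m + 1)) F)) = 0 := by
    linear_combination -h1
  have h6 := (mul_eq_zero.1 h5).resolve_left (pow_ne_zero _ (by norm_num))
  linear_combination h6

/-- the sum over the deletions of two vertices different from the first one -/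
def s2 {n : ℕ} (F : (Fin (n + 1) → G) → ℝ) (p : Fin (n + 3) → G) : ℝ :=
  ∑ j : Fin (n + 2), ∑ i : Fin (n + 1), if (i : ℕ) < j then
    (-1) ^ ((i : ℕ) + j) * F fun l => p (j.succ.succAbove (i.succ.succAbove l)) else 0

/-- the effect of the periodicity operator -/
theorem P_s2 {m : ℕ} (hm : Odd m) {a b : A.Lt} (h : Inv a b) {F : (Fin (m + 1) → G) → ℝ}
    (hF : Cyc A F) :
    P (aw a b (m + 3)) (s2 F) = -(2 * (m : ℂ) + 4) * P (aw a b (m + 1)) F := by
  set w : Fin (m + 3) → A.Lt := aw a b (m + 3) with hw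
  -- the partial pairings
  set r : Fin (m + 1) → Fin (m + 3) → ℂ := fun i y =>
    P (fun k => w (y.succAbove k)) (fun p : Fin (m + 2) → G => F fun l => p (i.succ.succAbove l))
    with hr
  have hg : ∀ i : Fin (m + 1), A.toD.Good fun p : Fin (m + 2) → G =>
      F fun l => p (i.succ.succAbove l) := fun i => hF.good.comp i.succ.succAbove
  have h1 : P w (s2 F) = ∑ i : Fin (m + 1), ∑ j : Fin (m + 2), if (i : ℕ) < j then
      (-1 : ℂ) ^ ((i : ℕ) + j) * -(r i j.castSucc + r i j.succ) else 0 := by
    unfold s2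
    have hgood : ∀ (j : Fin (m + 2)) (i : Fin (m + 1)), A.toD.Good fun p : Fin (m + 3) → G =>
        if (i : ℕ) < j then (-1) ^ ((i : ℕ) + j) *
          F fun l => p (j.succ.succAbove (i.succ.succAbove l)) else 0 := by
      intro j i
      split_ifs
      · exact ((hg i).comp j.succ.succAbove).smul _
      · exact DData.Good.const 0
    rw [P_sum w Finset.univ (F := fun (j : Fin (m + 2)) (p : Fin (m + 3) → G) =>
      ∑ i : Fin (m + 1), if (i : ℕ) < j then (-1) ^ ((i : ℕ) + j) *
          F fun l => p (j.succ.succAbove (i.succ.succAbove l)) else 0)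
      (fun j => DData.Good.sum _ (hgood j)), Finset.sum_comm]
    refine Finset.sum_congr rfl fun j _ => ?_
    rw [P_sum w Finset.univ (hgood j)]
    refine Finset.sum_congr rfl fun i _ => ?_
    split_ifs
    · rw [P_smul, P_del j w (hg i), P_ct j w (h.al _) (hg i)]
      push_cast
      rfl
    · exact P_zero w
  have h2 : ∀ i : Fin (m + 1), ∑ j : Fin (m + 2), (if (i : ℕ) < j then
      (-1 : ℂ) ^ ((i : ℕ) + j) * -(r i j.castSucc + r i j.succ) else 0) =
      r i i.succ.castSucc - (-1) ^ (i : ℕ) * r i (Fin.last (m + 2)) := by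
    intro i
    have e1 := tel_part (m + 2) (r i) i (by omega)
    have e2 : (⟨(i : ℕ) + 1, Nat.succ_lt_succ (by omega)⟩ : Fin (m + 3)) = i.succ.castSucc := rfl
    rw [e2] at e1
    have e3 : ∑ j : Fin (m + 2), (if (i : ℕ) < j then
        (-1 : ℂ) ^ ((i : ℕ) + j) * -(r i j.castSucc + r i j.succ) else 0) =
        -(-1) ^ (i : ℕ) * ∑ j : Fin (m + 2), (if (i : ℕ) < j then
          (-1 : ℂ) ^ (j : ℕ) * (r i j.castSucc + r i j.succ) else 0) := by
      rw [Finset.mul_sum]
      refine Finset.sum_congr rfl fun j _ => ?_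
      split_ifs
      · rw [pow_add]; ring
      · ring
    have e4 : (-1 : ℂ) ^ (i : ℕ) * (-1 : ℂ) ^ (i : ℕ) = 1 := by
      rw [← pow_add, Even.neg_one_pow ⟨_, rfl⟩]
    have e5 : (-1 : ℂ) ^ (m + 2) = -1 := (hm.add_one.add_one).neg_one_pow
    rw [e3, e1, e5, pow_succ]
    linear_combination r i i.succ.castSucc * e4
  -- the two remaining sums
  have h3 : ∀ i : Fin (m + 1), r i i.succ.castSucc = -2 * P (aw a b (m + 1)) F := by
    intro i
    simp only [hr]
    rw [P_del i _ hF.good]
    refine P_double hm h hF i _ (fun k hk => ?_) fun k hk => ?_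
    · have e1 : i.succ.castSucc.succAbove k = k.castSucc := by
        refine Fin.succAbove_of_castSucc_lt _ _ ?_
        simp only [Fin.lt_def, Fin.val_castSucc, Fin.val_succ]
        omega
      rw [e1]
      rfl
    · have e1 : i.succ.castSucc.succAbove k = k.succ := by
        refine Fin.succAbove_of_le_castSucc _ _ ?_
        simp only [Fin.le_def, Fin.val_castSucc, Fin.val_succ]
        omega
      rw [e1]
      simp only [hw]
      unfold aw
      rw [Fin.val_succ]
  have h4 : ∑ i : Fin (m + 1), (-1 : ℂ) ^ (i : ℕ) * r i (Fin.last (m + 2)) =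
      2 * P (aw a b (m + 1)) F := by
    have e1 : ∀ i : Fin (m + 1), r i (Fin.last (m + 2)) = P (aw a b (m + 2))
        (fun p : Fin (m + 2) → G => F fun l => p (i.succ.succAbove l)) := by
      intro i
      simp only [hr, Fin.succAbove_last]
      rfl
    simp only [e1]
    rw [P_tel (aw a b (m + 2)) (fun j => h.al _) hF.good]
    have e2 : (fun i : Fin (m + 1) => aw a b (m + 2) i.succ) = aw b a (m + 1) := by
      funext i
      unfold aw
      rw [Fin.val_succ, al_succ]
    have e3 : (fun i : Fin (m + 1) => aw a b (m + 2) i.castSucc) = aw a b (m + 1) := by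
      funext i
      rfl
    have e4 := P_shf (aw a b (m + 1)) hF.good.inv
    have e5 : (fun p => F (shf A.x p)) = fun p => -F p := funext fun p => hF.cyc p
    rw [e5, P_neg] at e4
    simp only [aw_rot hm] at e4
    change _ = P (aw b a (m + 1)) F at e4
    rw [e2, e3, ← e4, hm.add_one.neg_one_pow]
    ring
  rw [h1, Finset.sum_congr rfl fun i _ => h2 i, Finset.sum_sub_distrib, h4,
    Finset.sum_congr rfl fun i _ => h3 i, Finset.sum_const, Finset.card_univ, Fintype.card_fin,
    nsmul_eq_mul]
  push_cast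
  ring

end LData

end

end Vale.Agent.P184.Odd
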