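import Mathlib
import Vale.Agent.P184.R2.O3

/-!
# Shuffle products of cochains
-/

namespace Vale.Agent.P184.Odd

noncomputable section

/-! ### Splitting off the first point -/

section Split

variable {n : ℕ}

/-- the embedding missing the first point -/
def se (n : ℕ) : Fin n ↪o Fin (n + 1) := Fin.succOrderEmb n

theorem se_apply (i : Fin n) : se n i = i.succ := rfl

/-- the set of positive positions -/
def up0 (s : Finset (Fin n)) : Finset (Fin (n + 1)) := s.map (se n).toEmbedding

/-- the set with the first point -/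
def in0 (s : Finset (Fin n)) : Finset (Fin (n + 1)) := insert 0 (up0 s)

theorem zero_notMem_up0 (s : Finset (Fin n)) : (0 : Fin (n + 1)) ∉ up0 s := by
  unfold up0
  rw [Finset.mem_map]
  rintro ⟨i, _, h⟩
  exact Fin.succ_ne_zero i h

theorem card_up0 (s : Finset (Fin n)) : (up0 s).card = s.card := Finset.card_map _

theorem card_in0 (s : Finset (Fin n)) : (in0 s).card = s.card + 1 := by
  unfold in0
  rw [Finset.card_insert_of_notMem (zero_notMem_up0 s), card_up0]

theorem succ_mem_up0 {s : Finset (Fin n)} {i : Fin n} : i.succ ∈ up0 s ↔ i ∈ s := by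
  unfold up0
  rw [Finset.mem_map]
  constructor
  · rintro ⟨j, hj, h⟩
    rwa [← Fin.succ_injective _ h]
  · exact fun h => ⟨i, h, rfl⟩

theorem succ_mem_in0 {s : Finset (Fin n)} {i : Fin n} : i.succ ∈ in0 s ↔ i ∈ s := by
  unfold in0
  rw [Finset.mem_insert, succ_mem_up0]
  exact or_iff_right (Fin.succ_ne_zero i)

theorem zero_mem_in0 (s : Finset (Fin n)) : (0 : Fin (n + 1)) ∈ in0 s :=
  Finset.mem_insert_self _ _

theorem compl_up0 (s : Finset (Fin n)) : Finset.univ \ up0 s = in0 (Finset.univ \ s) := by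
  ext k
  refine Fin.cases ?_ (fun i => ?_) k
  · simp only [Finset.mem_sdiff, Finset.mem_univ, true_and, zero_notMem_up0, not_false_eq_true,
      zero_mem_in0]
  · simp only [Finset.mem_sdiff, Finset.mem_univ, true_and, succ_mem_up0, succ_mem_in0]

theorem compl_in0 (s : Finset (Fin n)) : Finset.univ \ in0 s = up0 (Finset.univ \ s) := by
  ext k
  refine Fin.cases ?_ (fun i => ?_) k
  · simp only [Finset.mem_sdiff, Finset.mem_univ, true_and, zero_notMem_up0, not_true_eq_false,
      zero_mem_in0]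
  · simp only [Finset.mem_sdiff, Finset.mem_univ, true_and, succ_mem_up0, succ_mem_in0]

theorem up0_injective : Function.Injective (up0 : Finset (Fin n) → Finset (Fin (n + 1))) :=
  Finset.map_injective _

theorem in0_injective : Function.Injective (in0 : Finset (Fin n) → Finset (Fin (n + 1))) := by
  intro s t h
  ext i
  rw [← succ_mem_in0, h, succ_mem_in0]

theorem exists_up0 {s : Finset (Fin (n + 1))} (h : 0 ∉ s) : ∃ t, up0 t = s := by
  refine ⟨Finset.univ.filter fun i => i.succ ∈ s, ?_⟩
  ext k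
  refine Fin.cases ?_ (fun i => ?_) k
  · exact iff_of_false (zero_notMem_up0 _) h
  · rw [succ_mem_up0, Finset.mem_filter]
    simp

theorem exists_in0 {s : Finset (Fin (n + 1))} (h : 0 ∈ s) : ∃ t, in0 t = s := by
  refine ⟨Finset.univ.filter fun i => i.succ ∈ s, ?_⟩
  ext k
  refine Fin.cases ?_ (fun i => ?_) k
  · exact iff_of_true (zero_mem_in0 _) h
  · rw [succ_mem_in0, Finset.mem_filter]
    simp

theorem sg_up0_up0 (s t : Finset (Fin n)) : sg (up0 s) (up0 t) = sg s t := sg_map _ s t

theorem sg_up0_in0 (s t : Finset (Fin n)) : sg (up0 s) (in0 t) = (-1) ^ s.card * sg s t := by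
  have h : in0 t = {0} ∪ up0 t := rfl
  rw [h, sg_union_right (Finset.disjoint_singleton_left.2 (zero_notMem_up0 t)), sg_up0_up0]
  congr 1
  unfold sg
  rw [← card_up0 s, ← Finset.prod_const]
  refine Finset.prod_congr rfl fun i hi => ?_
  rw [Finset.prod_singleton, if_pos]
  exact Fin.pos_of_ne_zero fun h => zero_notMem_up0 s (h ▸ hi)

theorem sg_in0_up0 (s t : Finset (Fin n)) : sg (in0 s) (up0 t) = sg s t := by
  have h : in0 s = {0} ∪ up0 s := rfl
  rw [h, sg_union_left (Finset.disjoint_singleton_left.2 (zero_notMem_up0 s)), sg_up0_up0]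
  have h2 : sg {(0 : Fin (n + 1))} (up0 t) = 1 := by
    unfold sg
    rw [Finset.prod_singleton]
    exact Finset.prod_eq_one fun j _ => if_neg (Nat.not_lt_zero _)
  rw [h2, one_mul]

/-- sums over the sets without the first point -/
theorem sum_notMem_zero (X : Finset (Fin (n + 1)) → ℝ) :
    ∑ s, (if (0 : Fin (n + 1)) ∈ s then 0 else X s) = ∑ t, X (up0 t) := by
  symm
  refine Finset.sum_of_injOn up0 up0_injective.injOn (fun _ _ => Finset.mem_coe.2
    (Finset.mem_univ _)) ?_ ?_
  · intro s _ hs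
    by_cases h : (0 : Fin (n + 1)) ∈ s
    · rw [if_pos h]
    · obtain ⟨t, rfl⟩ := exists_up0 h
      exact absurd ⟨t, Finset.mem_coe.2 (Finset.mem_univ _), rfl⟩ hs
  · intro t _
    rw [if_neg (zero_notMem_up0 t)]

/-- sums over the sets with the first point -/
theorem sum_mem_zero (X : Finset (Fin (n + 1)) → ℝ) :
    ∑ s, (if (0 : Fin (n + 1)) ∈ s then X s else 0) = ∑ t, X (in0 t) := by
  symm
  refine Finset.sum_of_injOn in0 in0_injective.injOn (fun _ _ => Finset.mem_coe.2
    (Finset.mem_univ _)) ?_ ?_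
  · intro s _ hs
    by_cases h : (0 : Fin (n + 1)) ∈ s
    · obtain ⟨t, rfl⟩ := exists_in0 h
      exact absurd ⟨t, Finset.mem_coe.2 (Finset.mem_univ _), rfl⟩ hs
    · rw [if_neg h]
  · intro t _
    rw [if_pos (zero_mem_in0 t)]

/-- the value of a product at the full set -/
theorem gm_univ {m : ℕ} (f g : Finset (Fin m) → ℝ) :
    gm f g Finset.univ = ∑ s, sg s (Finset.univ \ s) * f s * g (Finset.univ \ s) := by
  unfold gm
  rw [Finset.powerset_univ]

/-- the part of a product without the first point -/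
theorem gm_notMem {k : ℕ} {f : Finset (Fin (n + 1)) → ℝ} (hf : Hom k f)
    (g : Finset (Fin (n + 1)) → ℝ) :
    ∑ s, (if (0 : Fin (n + 1)) ∈ s then 0 else
      sg s (Finset.univ \ s) * f s * g (Finset.univ \ s)) =
      (-1) ^ k * gm (fun s => f (up0 s)) (fun s => g (in0 s)) Finset.univ := by
  rw [sum_notMem_zero fun s => sg s (Finset.univ \ s) * f s * g (Finset.univ \ s), gm_univ,
    Finset.mul_sum]
  refine Finset.sum_congr rfl fun t _ => ?_
  rw [compl_up0, sg_up0_in0]
  by_cases h : t.card = k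
  · rw [h]; ring
  · rw [hf (up0 t) (by rwa [card_up0])]; ring

/-- the part of a product with the first point -/
theorem gm_mem (f g : Finset (Fin (n + 1)) → ℝ) :
    ∑ s, (if (0 : Fin (n + 1)) ∈ s then
      sg s (Finset.univ \ s) * f s * g (Finset.univ \ s) else 0) =
      gm (fun s => f (in0 s)) (fun s => g (up0 s)) Finset.univ := by
  rw [sum_mem_zero fun s => sg s (Finset.univ \ s) * f s * g (Finset.univ \ s), gm_univ]
  refine Finset.sum_congr rfl fun t _ => ?_
  rw [compl_in0, sg_in0_up0]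

theorem gm_split {k : ℕ} {f : Finset (Fin (n + 1)) → ℝ} (hf : Hom k f)
    (g : Finset (Fin (n + 1)) → ℝ) :
    gm f g Finset.univ = gm (fun s => f (in0 s)) (fun s => g (up0 s)) Finset.univ +
      (-1) ^ k * gm (fun s => f (up0 s)) (fun s => g (in0 s)) Finset.univ := by
  rw [← gm_mem, ← gm_notMem hf, gm_univ, ← Finset.sum_add_distrib]
  refine Finset.sum_congr rfl fun s _ => ?_
  split_ifs <;> ring

end Split

/-! ### Evaluation with a fixed first point -/

section Based

variable {G : Type*} {n : ℕ}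

/-- evaluation at the first point and the points with labels in a set -/
def bs {m : ℕ} (F : (Fin (m + 1) → G) → ℝ) (p : Fin (n + 1) → G) : Finset (Fin n) → ℝ :=
  fv (fun q => F (Fin.cons (p 0) q)) fun i => p i.succ

/-- evaluation at the points with labels in a set, without the first point -/
def pl {m : ℕ} (F : (Fin m → G) → ℝ) (p : Fin (n + 1) → G) : Finset (Fin n) → ℝ :=
  fv F fun i => p i.succ

theorem fv_up0 {m : ℕ} (F : (Fin m → G) → ℝ) (p : Fin (n + 1) → G) (s : Finset (Fin n)) :
    fv F p (up0 s) = pl F p s := (fv_map (se n) F p s).symm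

theorem emb_in0_zero {m : ℕ} {s : Finset (Fin n)} (h : s.card = m) (h' : (in0 s).card = m + 1) :
    ∀ i, (in0 s).orderEmbOfFin h' i =
      (Fin.cons 0 (fun i => (s.orderEmbOfFin h i).succ) : Fin (m + 1) → Fin (n + 1)) i := by
  intro i
  refine (congrFun (Finset.orderEmbOfFin_unique h' (f := Fin.cons 0
    (fun i => (s.orderEmbOfFin h i).succ)) (fun i => ?_) (fun i j hij => ?_)) i).symm
  · refine Fin.cases ?_ (fun k => ?_) i
    · exact zero_mem_in0 s
    · rw [Fin.cons_succ, succ_mem_in0]
      exact Finset.orderEmbOfFin_mem s h k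
  · obtain ⟨l, rfl⟩ := Fin.exists_succ_eq.2 (Fin.ne_zero_of_lt hij)
    rw [Fin.cons_succ]
    refine Fin.cases (motive := fun i => i < l.succ → (Fin.cons 0
      (fun i => (s.orderEmbOfFin h i).succ) : Fin (m + 1) → Fin (n + 1)) i <
        (s.orderEmbOfFin h l).succ) (fun _ => ?_) (fun k hk => ?_) i hij
    · rw [Fin.cons_zero]
      exact Fin.succ_pos _
    · rw [Fin.cons_succ, Fin.succ_lt_succ_iff]
      exact (s.orderEmbOfFin h).lt_iff_lt.2 (Fin.succ_lt_succ_iff.1 hk)

theorem fv_in0 {m : ℕ} (F : (Fin (m + 1) → G) → ℝ) (p : Fin (n + 1) → G) (s : Finset (Fin n)) :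
    fv F p (in0 s) = bs F p s := by
  unfold bs
  by_cases h : s.card = m
  · have h' : (in0 s).card = m + 1 := by rw [card_in0, h]
    rw [fv_eq F p h', fv_eq _ _ h]
    congr 1
    funext i
    rw [emb_in0_zero h h']
    refine Fin.cases ?_ (fun k => ?_) i
    · rw [Fin.cons_zero, Fin.cons_zero]
    · rw [Fin.cons_succ, Fin.cons_succ]
  · rw [fv_hom F p _ (by rw [card_in0]; omega), fv_hom _ _ _ h]

theorem bs_hom {m : ℕ} (F : (Fin (m + 1) → G) → ℝ) (p : Fin (n + 1) → G) : Hom m (bs F p) :=
  fv_hom _ _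

theorem bs_univ {m : ℕ} (F : (Fin (m + 1) → G) → ℝ) (p : Fin (m + 1) → G) :
    bs F p Finset.univ = F p := by
  unfold bs
  rw [fv_univ]
  congr 1
  funext i
  refine Fin.cases ?_ (fun k => ?_) i
  · rw [Fin.cons_zero]
  · rw [Fin.cons_succ]

/-- deletion of a point different from the first one -/
theorem bs_del {m : ℕ} (F : (Fin (m + 1) → G) → ℝ) (p : Fin (n + 2) → G) (j : Fin (n + 1))
    (s : Finset (Fin n)) : bs F (fun i => p (j.succ.succAbove i)) s =
      bs F p (s.map (Fin.succAboveOrderEmb j).toEmbedding) := by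
  unfold bs
  rw [← fv_map (Fin.succAboveOrderEmb j)]
  simp only [Fin.succ_succAbove_zero, Fin.succ_succAbove_succ, Fin.succAboveOrderEmb_apply]

theorem cb_cons {m : ℕ} (F : (Fin (m + 1) → G) → ℝ) (x : G) (q : Fin (m + 1) → G) :
    cb (fun q : Fin m → G => F (Fin.cons x q)) q = F q - cb F (Fin.cons x q) := by
  unfold cb
  rw [Fin.sum_univ_succ (n := m + 1)]
  simp only [Fin.val_zero, pow_zero, one_mul, Fin.zero_succAbove, Fin.cons_succ, Fin.val_succ,
    pow_succ, mul_neg, mul_one, neg_mul, Finset.sum_neg_distrib]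
  have h : ∀ j : Fin (m + 1), (fun i => (Fin.cons x q : Fin (m + 2) → G) (j.succ.succAbove i)) =
      Fin.cons x fun i => q (j.succAbove i) := by
    intro j
    funext i
    refine Fin.cases ?_ (fun k => ?_) i
    · rw [Fin.succ_succAbove_zero, Fin.cons_zero, Fin.cons_zero]
    · rw [Fin.succ_succAbove_succ, Fin.cons_succ, Fin.cons_succ]
  simp only [h]
  ring

theorem gm_io_one_bs {m : ℕ} (F : (Fin (m + 1) → G) → ℝ) (c : ℝ) (hc : ∀ p, cb F p = c)
    (p : Fin (n + 1) → G) (u : Finset (Fin n)) :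
    gm (io 1) (bs F p) u = pl F p u - c * io (m + 1) u := by
  unfold bs
  rw [gm_io_one_fv]
  have h : (cb fun q : Fin m → G => F (Fin.cons (p 0) q)) = fun q => F q - c := by
    funext q
    rw [cb_cons, hc]
  rw [h]
  unfold pl
  by_cases hu : u.card = m + 1
  · rw [fv_eq _ _ hu, fv_eq _ _ hu, io, if_pos hu, mul_one]
  · rw [fv_hom _ _ _ hu, fv_hom _ _ _ hu, io, if_neg hu]
    ring

/-- the truncated coboundary of a product -/
theorem bp_gm {m k : ℕ} (F : (Fin (m + 1) → G) → ℝ) (F' : (Fin (k + 1) → G) → ℝ)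
    (p : Fin (n + 2) → G) :
    (∑ j : Fin (n + 1), (-1 : ℝ) ^ (j : ℕ) *
      gm (bs F fun i => p (j.succ.succAbove i)) (bs F' fun i => p (j.succ.succAbove i))
        Finset.univ) = gm (io 1) (gm (bs F p) (bs F' p)) Finset.univ := by
  rw [gm_io_one_left]
  refine Finset.sum_congr rfl fun j _ => ?_
  have h1 : (Finset.univ : Finset (Fin n)).map (Fin.succAboveOrderEmb j).toEmbedding =
      Finset.univ.erase j := by
    ext k
    simp only [Finset.mem_map, Finset.mem_univ, true_and, Finset.mem_erase, and_true]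
    constructor
    · rintro ⟨l, rfl⟩
      exact Fin.succAbove_ne j l
    · intro h
      obtain ⟨l, hl⟩ := Fin.exists_succAbove_eq h
      exact ⟨l, hl⟩
  have h2 : sg {j} (Finset.univ.erase j) = (-1) ^ (j : ℕ) := by
    have h3 : (Finset.univ : Finset (Fin (n + 1))).card = n + 1 := by simp
    have h4 := sg_singleton h3 j
    have h5 : (Finset.univ : Finset (Fin (n + 1))).orderEmbOfFin h3 j = j :=
      congrFun (Finset.orderEmbOfFin_unique h3 (f := fun i => i) (fun i => Finset.mem_univ _)
        (fun i j hij => hij)).symm j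
    rwa [h5] at h4
  rw [h2, ← h1, gm_map]
  congr 2
  · funext s
    exact bs_del F p j s
  · funext s
    exact bs_del F' p j s

end Based

end

end Vale.Agent.P184.Odd
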