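import Mathlib
import Vale.Agent.P184.R2.O4

/-!
# Vanishing of the odd pairing
-/

namespace Vale.Agent.P184.Odd

noncomputable section

/-! ### Rotations and signs -/

section Rot

theorem sg_self {α β : Type*} [LinearOrder α] [LinearOrder β] {s : Finset α} {t : Finset β}
    (h : s.card = t.card) : sg s s = sg t t := by
  have h1 : ∀ {γ : Type _} [LinearOrder γ] (u : Finset γ) (k : ℕ) (hu : u.card = k),
      sg u u = sg (Finset.univ : Finset (Fin k)) Finset.univ := by
    intro γ _ u k hu
    have h2 := sg_map (u.orderEmbOfFin hu) Finset.univ Finset.univ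
    rwa [Finset.map_orderEmbOfFin_univ u hu] at h2
  have h2 : ∀ {γ : Type _} [LinearOrder γ] (u : Finset γ) (k : ℕ) (hu : u.card = k),
      sg u u = sg (Finset.univ : Finset (Fin k)) Finset.univ := by
    intro γ _ u k hu
    have h2 := sg_map (u.orderEmbOfFin hu) Finset.univ Finset.univ
    rwa [Finset.map_orderEmbOfFin_univ u hu] at h2
  rw [h1 s _ h, h2 t _ rfl]

theorem sg_univ {n : ℕ} (s : Finset (Fin n)) : sg s Finset.univ = ∏ i ∈ s, (-1 : ℝ) ^ (i : ℕ) := by
  unfold sg
  refine Finset.prod_congr rfl fun i _ => ?_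
  rw [Finset.prod_ite, Finset.prod_const, Finset.prod_const_one, mul_one]
  congr 1
  have h3 : (Finset.univ.filter fun j : Fin n => j < i) = Finset.Iio i := by
    ext j; simp
  rw [h3, Fin.card_Iio]

theorem sg_compl {n : ℕ} (s : Finset (Fin n)) :
    sg s (Finset.univ \ s) = sg s Finset.univ * sg s s := by
  have h1 : s ∪ (Finset.univ \ s) = Finset.univ := Finset.union_sdiff_of_subset
    (Finset.subset_univ s)
  conv_rhs => rw [← h1]
  rw [sg_union_right Finset.disjoint_sdiff]
  linear_combination -(sg s (Finset.univ \ s)) * sg_sq s s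

theorem sg_rt {n : ℕ} (hn : Odd n) {s : Finset (Fin (n + 1))} (hs : Even s.card) :
    sg (rt s) (Finset.univ \ rt s) = sg s (Finset.univ \ s) := by
  rw [sg_compl, sg_compl, sg_self (card_rt s)]
  congr 1
  rw [sg_univ, sg_univ]
  conv_rhs => rw [← map_rt s, Finset.prod_map]
  have h1 : ∀ k : Fin (n + 1), (-1 : ℝ) ^ (((finRotate (n + 1)).toEmbedding k : Fin (n + 1)) : ℕ) =
      -1 * (-1) ^ (k : ℕ) := by
    intro k
    rw [Equiv.coe_toEmbedding]
    refine Fin.lastCases ?_ (fun l => ?_) k
    · rw [finRotate_last, Fin.val_last, hn.neg_one_pow]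
      norm_num
    · rw [coe_finRotate_of_ne_last (Fin.castSucc_lt_last l).ne, pow_succ]
      ring
  rw [Finset.prod_congr rfl fun k _ => h1 k, Finset.prod_mul_distrib, Finset.prod_const, card_rt,
    hs.neg_one_pow, one_mul]

theorem compl_rt {n : ℕ} (s : Finset (Fin (n + 1))) :
    Finset.univ \ rt s = rt (Finset.univ \ s) := by
  ext k
  simp only [Finset.mem_sdiff, Finset.mem_univ, true_and, mem_rt]

/-- the bijection given by the rotation -/
def rtE (n : ℕ) : Finset (Fin (n + 1)) ≃ Finset (Fin (n + 1)) :=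
  Equiv.finsetCongr (finRotate (n + 1)).symm

theorem rtE_apply {n : ℕ} (s : Finset (Fin (n + 1))) : rtE n s = rt s := by
  ext k
  rw [mem_rt]
  unfold rtE
  rw [Equiv.finsetCongr_apply, Finset.mem_map_equiv, Equiv.symm_symm]

theorem fv_rt_mem {G : Type*} [Group G] (x : G) {n m : ℕ} (F : (Fin (m + 1) → G) → ℝ)
    (hF : ∀ p, F (shf x p) = -F p) (p : Fin (n + 1) → G) {s : Finset (Fin (n + 1))}
    (h0 : 0 ∈ s) : fv F (shf x p) (rt s) = -fv F p s := by
  by_cases h : s.card = m + 1
  · have h' : (rt s).card = m + 1 := (card_rt s).trans h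
    rw [fv_eq F _ h', fv_eq F _ h, ← hF]
    congr 1
    funext i
    rw [← em_eq h', shf_em_mem x h h0 p i]
    simp only [em_eq h]
  · rw [fv_hom F _ _ (by rwa [card_rt]), fv_hom F _ _ h, neg_zero]

theorem fv_rt_notMem {G : Type*} [Group G] (x : G) {n m : ℕ} (F : (Fin m → G) → ℝ)
    (p : Fin (n + 1) → G) {s : Finset (Fin (n + 1))}
    (h0 : 0 ∉ s) : fv F (shf x p) (rt s) = fv F p s := by
  by_cases h : s.card = m
  · have h' : (rt s).card = m := (card_rt s).trans h
    rw [fv_eq F _ h', fv_eq F _ h]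
    congr 1
    funext i
    rw [← em_eq h', shf_em_notMem x h h0 p i, em_eq h]
  · rw [fv_hom F _ _ (by rwa [card_rt]), fv_hom F _ _ h]

end Rot

theorem Hom.gm {α : Type*} [LinearOrder α] {k l : ℕ} {f g : Finset α → ℝ} (hf : Hom k f)
    (hg : Hom l g) : Hom (k + l) (gm f g) := by
  intro u hu
  unfold Odd.gm
  refine Finset.sum_eq_zero fun s hs => ?_
  have h1 := Finset.mem_powerset.1 hs
  by_cases h : s.card = k
  · rw [hg (u \ s), mul_zero]
    rw [Finset.card_sdiff_of_subset h1]
    have := Finset.card_le_card h1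
    omega
  · rw [hf s h, mul_zero, zero_mul]

theorem io_hom {α : Type*} (b : ℕ) : Hom b (io b : Finset α → ℝ) := by
  intro s hs
  unfold io
  rw [if_neg hs]

namespace LData

variable {G : Type*} [Group G] {D : Type*} [NormedRing D] [NormedAlgebra ℂ D] {A : LData G D}

/-! ### Admissible functions -/

theorem good_fv {m n : ℕ} {F : (Fin m → G) → ℝ} (hF : A.toD.Good F) (s : Finset (Fin n)) :
    A.toD.Good fun p : Fin n → G => fv F p s := by
  by_cases h : s.card = m
  · have h1 : (fun p : Fin n → G => fv F p s) = fun p => F fun i => p (s.orderEmbOfFin h i) :=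
      funext fun p => fv_eq F p h
    rw [h1]
    exact hF.comp _
  · have h1 : (fun p : Fin n → G => fv F p s) = fun _ => 0 := funext fun p => fv_hom F p s h
    rw [h1]
    exact DData.Good.const 0

theorem good_bs {m n : ℕ} {F : (Fin (m + 1) → G) → ℝ} (hF : A.toD.Good F) (s : Finset (Fin n)) :
    A.toD.Good fun p : Fin (n + 1) → G => bs F p s := by
  simp only [← fv_in0]
  exact good_fv hF _

theorem good_pl {m n : ℕ} {F : (Fin m → G) → ℝ} (hF : A.toD.Good F) (s : Finset (Fin n)) :
    A.toD.Good fun p : Fin (n + 1) → G => pl F p s := by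
  simp only [← fv_up0]
  exact good_fv hF _

theorem good_gm {n : ℕ} {α : Type*} [LinearOrder α] {f g : (Fin n → G) → Finset α → ℝ}
    (hf : ∀ s, A.toD.Good fun p => f p s) (hg : ∀ s, A.toD.Good fun p => g p s) (u : Finset α) :
    A.toD.Good fun p => gm (f p) (g p) u :=
  DData.Good.sum _ fun s => ((DData.Good.const (sg s (u \ s))).mul (hf s)).mul (hg (u \ s))

variable [CompleteSpace D]

omit [Group G] in
/-- closed functions have no products with the functions of odd degree -/
theorem gm_pl_io {m n : ℕ} {F : (Fin (m + 1) → G) → ℝ} (hF : ∀ p, cb F p = 0) {c : ℕ}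
    (hc : Odd c) (p : Fin (n + 1) → G) (u : Finset (Fin n)) : gm (pl F p) (io c) u = 0 := by
  have h1 : gm (pl F p) (io c) u = gm (gm (io 1) (bs F p)) (io c) u := by
    refine gm_congr (fun s _ => ?_) fun s _ => rfl
    rw [gm_io_one_bs F 0 hF, zero_mul, sub_zero]
  have h2 : gm (gm (io 1) (bs F p)) (io c) u =
      gm (gm (bs F p) (io 1)) (fun s => (-1) ^ m * io c s) u := by
    unfold gm
    refine Finset.sum_congr rfl fun s _ => ?_
    have := io_one_comm (bs_hom F p) s
    unfold gm at this
    rw [this]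
    ring
  have h3 : gm (bs F p) (gm (io 1) (io c)) u = gm (bs F p) (fun _ => 0) u :=
    gm_congr (fun s _ => rfl) fun s _ => io_one_io_odd hc s
  rw [h1, h2, gm_smul_right, gm_assoc, h3, gm_zero_right, mul_zero]

/-! ### The periodicity operator -/

/-- the periodicity operator on cochains -/
def sp {m : ℕ} (F : (Fin (m + 1) → G) → ℝ) (p : Fin (m + 3) → G) : ℝ :=
  gm (bs F p) (io 2) Finset.univ

omit [Group G] in
theorem sp_full {m : ℕ} {F : (Fin (m + 1) → G) → ℝ} (hF : ∀ p, cb F p = 0)
    (p : Fin (m + 3) → G) : gm (fv F p) (io 2) Finset.univ = sp F p := by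
  rw [gm_split (fv_hom F p)]
  have h1 : (fun s : Finset (Fin (m + 2)) => io 2 (up0 s)) = io 2 := by
    funext s
    unfold io
    rw [card_up0]
  have h2 : (fun s : Finset (Fin (m + 2)) => io 2 (in0 s)) = io 1 := by
    funext s
    unfold io
    rw [card_in0]
    by_cases h : s.card = 1
    · rw [if_pos (by omega), if_pos h]
    · rw [if_neg (by omega), if_neg h]
  have h3 : (fun s : Finset (Fin (m + 2)) => fv F p (in0 s)) = bs F p :=
    funext fun s => fv_in0 F p s
  have h4 : (fun s : Finset (Fin (m + 2)) => fv F p (up0 s)) = pl F p :=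
    funext fun s => fv_up0 F p s
  rw [h1, h2, h3, h4, gm_pl_io hF odd_one, mul_zero, add_zero]
  rfl

omit [Group G] in
theorem bs_sp {m n : ℕ} (F : (Fin (m + 1) → G) → ℝ) (p : Fin (n + 1) → G)
    (s : Finset (Fin n)) : bs (sp F) p s = gm (bs F p) (io 2) s := by
  by_cases h : s.card = m + 2
  · have h1 : bs (sp F) p s = sp F (Fin.cons (p 0) fun i => p (s.orderEmbOfFin h i).succ) := by
      unfold bs
      rw [fv_eq _ _ h]
    rw [h1]
    unfold sp
    conv_rhs => rw [← Finset.map_orderEmbOfFin_univ s h]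
    rw [gm_map]
    refine gm_congr (fun t _ => ?_) fun t _ => (io_map _ 2 t).symm
    unfold bs
    rw [← fv_map]
    simp only [Fin.cons_zero, Fin.cons_succ]
  · rw [bs_hom (sp F) p s h, (bs_hom F p).gm (io_hom 2) s h]

omit [Group G] in
theorem fv_sp {m n : ℕ} {F : (Fin (m + 1) → G) → ℝ} (hF : ∀ p, cb F p = 0) (p : Fin n → G)
    (s : Finset (Fin n)) : fv (sp F) p s = gm (fv F p) (io 2) s := by
  by_cases h : s.card = m + 3
  · rw [fv_eq _ _ h, ← sp_full hF]
    conv_rhs => rw [← Finset.map_orderEmbOfFin_univ s h]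
    rw [gm_map]
    refine gm_congr (fun t _ => ?_) fun t _ => (io_map _ 2 t).symm
    rw [← fv_map]
  · rw [fv_hom (sp F) p s h, (fv_hom F p).gm (io_hom 2) s h]

theorem Cyc.sp {m : ℕ} (hm : Odd m) {F : (Fin (m + 1) → G) → ℝ} (hF : Cyc A F) :
    Cyc A (m := m + 2) (sp F) := by
  constructor
  · exact good_gm (g := fun _ => io 2) (good_bs hF.good) (fun s => DData.Good.const _) _
  · intro p
    rw [← sp_full hF.clo, gm_univ, ← (rtE (m + 2)).sum_comp]
    have h1 : ∀ s : Finset (Fin (m + 3)), sg (rtE (m + 2) s) (Finset.univ \ rtE (m + 2) s) *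
        fv F (shf A.x p) (rtE (m + 2) s) * io 2 (Finset.univ \ rtE (m + 2) s) =
        (if 0 ∈ s then 0 else sg s (Finset.univ \ s) * fv F p s * io 2 (Finset.univ \ s)) -
        (if 0 ∈ s then sg s (Finset.univ \ s) * fv F p s * io 2 (Finset.univ \ s) else 0) := by
      intro s
      rw [rtE_apply]
      by_cases h : s.card = m + 1
      · have h2 : io 2 (Finset.univ \ rt s) = io 2 (Finset.univ \ s) := by
          unfold io
          rw [compl_rt, card_rt]
        have h3 : Even s.card := by rw [h]; exact hm.add_one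
        rw [sg_rt hm.add_one.add_one h3, h2]
        by_cases h0 : 0 ∈ s
        · rw [if_pos h0, if_pos h0, fv_rt_mem A.x F hF.cyc p h0]
          ring
        · rw [if_neg h0, if_neg h0, fv_rt_notMem A.x F p h0]
          ring
      · rw [fv_hom F _ _ (by rwa [card_rt]), fv_hom F p _ h]
        split_ifs <;> ring
    rw [Finset.sum_congr rfl fun s _ => h1 s, Finset.sum_sub_distrib, gm_notMem (fv_hom F p),
      gm_mem]
    have h1 : (fun s : Finset (Fin (m + 2)) => io 2 (up0 s)) = io 2 := by
      funext s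
      unfold io
      rw [card_up0]
    have h2 : (fun s : Finset (Fin (m + 2)) => io 2 (in0 s)) = io 1 := by
      funext s
      unfold io
      rw [card_in0]
      by_cases h : s.card = 1
      · rw [if_pos (by omega), if_pos h]
      · rw [if_neg (by omega), if_neg h]
    have h3 : (fun s : Finset (Fin (m + 2)) => fv F p (in0 s)) = bs F p :=
      funext fun s => fv_in0 F p s
    have h4 : (fun s : Finset (Fin (m + 2)) => fv F p (up0 s)) = pl F p :=
      funext fun s => fv_up0 F p s
    rw [h1, h2, h3, h4, gm_pl_io hF.clo odd_one, mul_zero, zero_sub]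
    rfl
  · intro p
    rw [← fv_univ (cb (Odd.LData.sp F)) p, ← gm_io_one_fv]
    have h1 : ∀ u : Finset (Fin (m + 4)), gm (io 1) (fv (Odd.LData.sp F) p) u =
        gm (io 1) (gm (fv F p) (io 2)) u := fun u =>
      gm_congr (fun s _ => rfl) fun s _ => fv_sp hF.clo p s
    have h2 : ∀ u : Finset (Fin (m + 4)), gm (gm (io 1) (fv F p)) (io 2) u =
        gm (fun _ => 0) (io 2) u := by
      intro u
      refine gm_congr (fun s _ => ?_) fun s _ => rfl
      rw [gm_io_one_fv]
      by_cases h : s.card = m + 2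
      · rw [fv_eq _ _ h, hF.clo]
      · exact fv_hom _ _ s h
    rw [h1, ← gm_assoc, h2, gm_zero_left]

end LData

end

end Vale.Agent.P184.Odd
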