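import Mathlib
import Vale.Agent.P184.R2.O5

/-!
# Vanishing of the odd pairing, continued
-/

namespace Vale.Agent.P184.Odd

noncomputable section

section Two

variable {G : Type*}

theorem sg_pair {n : ℕ} {i j : Fin n} (h : i < j) :
    sg (Finset.univ \ {i, j}) {i, j} = -(-1) ^ ((i : ℕ) + j) := by
  set E : Finset (Fin n) := {i, j} with hE
  have hc : E.card = 2 := Finset.card_pair h.ne
  have h1 : E ∪ (Finset.univ \ E) = Finset.univ :=
    Finset.union_sdiff_of_subset (Finset.subset_univ E)
  have h2 : Disjoint E (Finset.univ \ E) := Finset.disjoint_sdiff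
  rw [sg_comm' h2.symm, hc, mul_comm (Finset.univ \ E).card 2, pow_mul, neg_one_sq, one_pow,
    one_mul]
  have h3 : E = {i} ∪ {j} := rfl
  have h4 : sg E (Finset.univ \ E) = sg {i} (Finset.univ \ E) * sg {j} (Finset.univ \ E) := by
    conv_lhs => rw [h3]
    rw [sg_union_left (Finset.disjoint_singleton.2 h.ne), ← h3]
  have h5 : ∀ y : Fin n, (-1 : ℝ) ^ (y : ℕ) = sg {y} E * sg {y} (Finset.univ \ E) := by
    intro y
    rw [← sg_union_right h2, h1, sg_univ, Finset.prod_singleton]
  have h6 : sg {i} E = 1 := by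
    unfold sg
    rw [Finset.prod_singleton, hE, Finset.prod_pair h.ne, if_neg (lt_irrefl _),
      if_neg h.not_gt, mul_one]
  have h7 : sg {j} E = -1 := by
    unfold sg
    rw [Finset.prod_singleton, hE, Finset.prod_pair h.ne, if_pos h, if_neg (lt_irrefl _), mul_one]
  have h8 := h5 i
  have h9 := h5 j
  rw [h6, one_mul] at h8
  rw [h7] at h9
  rw [h4, pow_add, h8, h9]
  ring

theorem bs_pair {m : ℕ} (F : (Fin (m + 1) → G) → ℝ) (p : Fin (m + 3) → G) (j : Fin (m + 2))
    (i : Fin (m + 1)) (h : i.castSucc < j) : bs F p (Finset.univ \ {i.castSucc, j}) =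
      F fun l => p (j.succ.succAbove (i.succ.succAbove l)) := by
  have h1 : (Finset.univ \ {i.castSucc, j} : Finset (Fin (m + 2))) =
      (((Finset.univ : Finset (Fin m)).map (Fin.succAboveOrderEmb i).toEmbedding).map
        (Fin.succAboveOrderEmb j).toEmbedding) := by
    have h2 : j.succAbove i = i.castSucc := Fin.succAbove_of_castSucc_lt j i h
    ext k
    simp only [Finset.mem_sdiff, Finset.mem_univ, true_and, Finset.mem_insert,
      Finset.mem_singleton, Finset.mem_map]
    constructor
    · intro h3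
      push Not at h3
      obtain ⟨l, hl⟩ := Fin.exists_succAbove_eq h3.2
      have h4 : l ≠ i := by
        rintro rfl
        exact h3.1 (hl.symm.trans h2)
      obtain ⟨l', hl'⟩ := Fin.exists_succAbove_eq h4
      exact ⟨l, ⟨l', hl'⟩, hl⟩
    · rintro ⟨l, ⟨l', hl'⟩, hl⟩ h3
      change i.succAbove l' = l at hl'
      change j.succAbove l = k at hl
      rcases h3 with h3 | h3
      · rw [← h2, ← hl] at h3
        have h4 := Fin.succAbove_right_injective h3
        exact Fin.succAbove_ne i l' (hl'.trans h4)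
      · exact Fin.succAbove_ne j l (hl.trans h3)
  rw [h1, ← bs_del, ← bs_del, bs_univ]

theorem s2_eq {m : ℕ} (F : (Fin (m + 1) → G) → ℝ) (p : Fin (m + 3) → G) :
    LData.s2 F p = -LData.sp F p := by
  unfold LData.s2 LData.sp
  rw [gm_univ, ← Finset.sum_neg_distrib, ← Fintype.sum_prod_type'
    (f := fun (j : Fin (m + 2)) (i : Fin (m + 1)) => if (i : ℕ) < j then
    (-1) ^ ((i : ℕ) + j) * F fun l => p (j.succ.succAbove (i.succ.succAbove l)) else 0),
    ← Finset.sum_filter]
  refine Finset.sum_of_injOn (fun z : Fin (m + 2) × Fin (m + 1) =>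
    Finset.univ \ {z.2.castSucc, z.1}) ?_ (fun _ _ => Finset.mem_coe.2 (Finset.mem_univ _)) ?_ ?_
  · rintro ⟨j, i⟩ hz ⟨j', i'⟩ hz' h
    simp only [Finset.coe_filter, Finset.mem_univ, true_and, Set.mem_ofPred_eq] at hz hz'
    simp only at h
    have h1 : ({i.castSucc, j} : Finset (Fin (m + 2))) = {i'.castSucc, j'} := by
      rw [← Finset.compl_eq_univ_sdiff, ← Finset.compl_eq_univ_sdiff] at h
      exact compl_injective h
    have h2 : j ∈ ({i'.castSucc, j'} : Finset (Fin (m + 2))) := by
      rw [← h1]; simp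
    have h3 : j' ∈ ({i.castSucc, j} : Finset (Fin (m + 2))) := by
      rw [h1]; simp
    have h4 : i.castSucc ∈ ({i'.castSucc, j'} : Finset (Fin (m + 2))) := by
      rw [← h1]; simp
    simp only [Finset.mem_insert, Finset.mem_singleton, Fin.ext_iff, Fin.val_castSucc] at h2 h3 h4
    have h5 : j = j' := Fin.ext (by omega)
    have h6 : i = i' := Fin.ext (by omega)
    rw [h5, h6]
  · intro s _ hs
    by_cases h : (Finset.univ \ s).card = 2
    · exfalso
      obtain ⟨x, y, hxy, h1⟩ := Finset.card_eq_two.1 h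
      have h2 : s = Finset.univ \ {x, y} := by
        rw [← h1, Finset.sdiff_sdiff_eq_self (Finset.subset_univ s)]
      have key : ∀ x y : Fin (m + 2), x < y → s ≠ Finset.univ \ {x, y} := by
        intro x y hxy h2
        have h3 : x ≠ Fin.last (m + 1) := fun h3 => absurd (Fin.le_last y) (by
          rw [← h3]; exact hxy.not_ge)
        obtain ⟨i, rfl⟩ := Fin.exists_castSucc_eq.2 h3
        refine hs ⟨(y, i), ?_, h2.symm⟩
        simp only [Finset.coe_filter, Finset.mem_univ, true_and, Set.mem_ofPred_eq]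
        simpa [Fin.lt_def] using hxy
      rcases lt_or_gt_of_ne hxy with h3 | h3
      · exact key x y h3 h2
      · exact key y x h3 (by rw [h2, Finset.pair_comm])
    · unfold io
      rw [if_neg h, mul_zero, neg_zero]
  · rintro ⟨j, i⟩ hz
    simp only [Finset.mem_filter, Finset.mem_univ, true_and] at hz
    have hij : i.castSucc < j := by simpa [Fin.lt_def] using hz
    simp only
    have h1 : (Finset.univ \ (Finset.univ \ {i.castSucc, j}) : Finset (Fin (m + 2))) =
        {i.castSucc, j} := Finset.sdiff_sdiff_eq_self (Finset.subset_univ _)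
    rw [h1, sg_pair hij, bs_pair F p j i hij]
    unfold io
    rw [Finset.card_pair hij.ne, if_pos rfl, Fin.val_castSucc]
    ring

end Two

namespace LData

variable {G : Type*} [Group G] {D : Type*} [NormedRing D] [NormedAlgebra ℂ D] {A : LData G D}
  [CompleteSpace D]

/-- the effect of the periodicity operator -/
theorem P_sp {m : ℕ} (hm : Odd m) {a b : A.Lt} (h : Inv a b) {F : (Fin (m + 1) → G) → ℝ}
    (hF : Cyc A F) :
    P (aw a b (m + 3)) (sp F) = (2 * (m : ℂ) + 4) * P (aw a b (m + 1)) F := by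
  have h1 := P_s2 hm h hF
  have h2 : (s2 F : (Fin (m + 3) → G) → ℝ) = fun p => -sp F p := funext fun p => s2_eq F p
  rw [h2, P_neg] at h1
  linear_combination -h1

/-- the pairing with the iterated periodicity operator -/
theorem T_io (j : ℕ) : ∀ (m N : ℕ) (_ : N = m + 2 * j) (_ : Odd m) {a b : A.Lt} (_ : Inv a b)
    {F : (Fin (m + 1) → G) → ℝ} (_ : Cyc A F), ∃ c : ℂ, c ≠ 0 ∧
    T a b (fun p : Fin (N + 1) → G => gm (bs F p) (io (2 * j)) (Finset.univ : Finset (Fin N))) =
      c * P (aw a b (m + 1)) F := by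
  induction j with
  | zero =>
    intro m N hN hm a b h F hF
    obtain rfl : N = m := by omega
    refine ⟨2, two_ne_zero, ?_⟩
    rw [← T_cyc hm a b hF.good.inv hF.cyc]
    congr 1
    funext p
    unfold gm
    rw [Finset.sum_eq_single Finset.univ]
    · have h1 : (Finset.univ \ Finset.univ : Finset (Fin N)) = ∅ := Finset.sdiff_self _
      rw [h1, bs_univ]
      unfold io sg
      simp
    · intro s _ hs
      have h1 : (Finset.univ \ s).card ≠ 2 * 0 := by
        intro h2
        apply hs
        have h3 := Finset.card_eq_zero.1 (h2.trans (by ring))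
        exact Finset.eq_univ_of_forall fun k => by
          by_contra h4
          have : k ∈ Finset.univ \ s := by simp [h4]
          rw [h3] at this
          exact absurd this (Finset.notMem_empty k)
      unfold io
      rw [if_neg h1, mul_zero]
    · intro h1
      exact absurd (Finset.mem_powerset.2 (Finset.subset_univ _)) h1
  | succ j ih =>
    intro m N hN hm a b h F hF
    have hm2 : Odd (m + 2) := hm.add_even even_two
    obtain ⟨c, hc, h1⟩ := ih (m + 2) N (by omega) hm2 h (hF.sp hm)
    have hj : ((j : ℂ) + 1) ≠ 0 := by exact_mod_cast Nat.succ_ne_zero j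
    have hm4 : (2 * (m : ℂ) + 4) ≠ 0 := by
      have : (2 * (m : ℂ) + 4) = ((2 * m + 4 : ℕ) : ℂ) := by push_cast; rfl
      rw [this, Nat.cast_ne_zero]
      omega
    refine ⟨c * (2 * (m : ℂ) + 4) / ((j : ℂ) + 1), div_ne_zero (mul_ne_zero hc hm4) hj, ?_⟩
    have h2 : (fun p : Fin (N + 1) → G => gm (bs (sp F) p) (io (2 * j))
        (Finset.univ : Finset (Fin N))) = fun p => ((j : ℝ) + 1) *
          gm (bs F p) (io (2 * (j + 1))) (Finset.univ : Finset (Fin N)) := by
      funext p
      have e1 : gm (bs (sp F) p) (io (2 * j)) (Finset.univ : Finset (Fin N)) =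
          gm (gm (bs F p) (io 2)) (io (2 * j)) Finset.univ :=
        gm_congr (fun s _ => bs_sp F p s) fun s _ => rfl
      have e2 : gm (bs F p) (gm (io 2) (io (2 * j))) (Finset.univ : Finset (Fin N)) =
          gm (bs F p) (fun s => ((j : ℝ) + 1) * io (2 * (j + 1)) s) Finset.univ :=
        gm_congr (fun s _ => rfl) fun s _ => io_two_io s
      rw [e1, gm_assoc, e2, gm_smul_right]
    rw [h2, T_smul, P_sp hm h hF] at h1
    push_cast at h1
    field_simp
    linear_combination h1

/-! ### The vanishing theorem -/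

section Vanish

variable {m k : ℕ} {F : (Fin (m + 1) → G) → ℝ} {ψ : (Fin (k + 1) → G) → ℝ}

/-- the word of a set -/
def wd (F : (Fin (m + 1) → G) → ℝ) (ψ : (Fin (k + 1) → G) → ℝ) {N : ℕ} (s : Finset (Fin N))
    (p : Fin N → G) : ℝ := fv F p s * fv ψ p (Finset.univ \ s)

omit [CompleteSpace D] in
theorem wd_good (hF : A.toD.Good F) (hψ : A.toD.Good ψ) {N : ℕ} (s : Finset (Fin N)) :
    A.toD.Good (wd F ψ s) := (good_fv hF s).mul (good_fv hψ _)

/-- the signed pairings of the words -/
def Yv (a b : A.Lt) (F : (Fin (m + 1) → G) → ℝ) (ψ : (Fin (k + 1) → G) → ℝ) {N : ℕ}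
    (s : Finset (Fin (N + 1))) : ℂ := (sg s (Finset.univ \ s) : ℂ) * T a b (wd F ψ s)

omit [CompleteSpace D] in
theorem Yv_rt (hm : Odd m) (hk : Odd k) {N : ℕ} (hN : N = m + k + 1) (a b : A.Lt)
    (hF : A.toD.Good F) (hψ : A.toD.Good ψ) (hF1 : ∀ p, F (shf A.x p) = -F p)
    (hψ1 : ∀ p, ψ (shf A.x p) = -ψ p) (s : Finset (Fin (N + 1))) :
    Yv a b F ψ (rt s) = Yv a b F ψ s := by
  unfold Yv
  by_cases hs : s.card = m + 1
  · have hN' : Odd N := by
      rw [hN]
      exact (hm.add_odd hk).add_one
    rw [sg_rt hN' (by rw [hs]; exact hm.add_one)]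
    congr 1
    have h1 := T_shf hN' a b (wd_good hF hψ (rt s)).inv
    have h2 : (fun p : Fin (N + 1) → G => wd F ψ (rt s) (shf A.x p)) =
        fun p => (-1) * wd F ψ s p := by
      funext p
      unfold wd
      rw [compl_rt]
      by_cases h0 : 0 ∈ s
      · have h3 : 0 ∉ Finset.univ \ s := fun h => (Finset.mem_sdiff.1 h).2 h0
        rw [fv_rt_mem A.x F hF1 p h0, fv_rt_notMem A.x ψ p h3]
        ring
      · have h3 : 0 ∈ Finset.univ \ s := Finset.mem_sdiff.2 ⟨Finset.mem_univ _, h0⟩
        rw [fv_rt_notMem A.x F p h0, fv_rt_mem A.x ψ hψ1 p h3]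
        ring
    change T a b (fun p : Fin (N + 1) → G => wd F ψ (rt s) (shf A.x p)) = _ at h1
    rw [h2, T_smul] at h1
    push_cast at h1
    linear_combination h1
  · have h1 : wd F ψ s = fun _ => 0 := by
      funext p
      unfold wd
      rw [fv_hom F p s hs, zero_mul]
    have h2 : wd F ψ (rt s) = fun _ => 0 := by
      funext p
      unfold wd
      rw [fv_hom F p _ (by rwa [card_rt]), zero_mul]
    rw [h1, h2, T_zero, mul_zero, mul_zero]

omit [CompleteSpace D] in
/-- a rotation invariant function whose sum over the sets avoiding `0` vanishes has sum `0` -/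
theorem sum_zero_of_rt {N c : ℕ} (hc : c < N + 1) (Y : Finset (Fin (N + 1)) → ℂ)
    (hY : ∀ s, Y (rt s) = Y s) (hY0 : ∀ s, s.card ≠ c → Y s = 0)
    (h0 : ∑ s, (if (0 : Fin (N + 1)) ∈ s then 0 else Y s) = 0) : ∑ s, Y s = 0 := by
  set w : Fin (N + 1) → ℂ := fun k => ∑ s, if k ∈ s then 0 else Y s with hw
  have hrot : ∀ k, w (finRotate (N + 1) k) = w k := by
    intro k
    simp only [hw]
    rw [← (rtE N).sum_comp fun s => if k ∈ s then 0 else Y s]
    refine Finset.sum_congr rfl fun s _ => ?_
    rw [rtE_apply, hY]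
    simp only [mem_rt]
  have hw0 : ∀ k, w k = 0 := by
    intro k
    refine Fin.induction h0 (fun l ih => ?_) k
    rw [← ih, ← hrot l.castSucc]
    congr 1
    apply Fin.ext
    rw [coe_finRotate_of_ne_last (Fin.castSucc_lt_last l).ne]
    simp
  have h1 : ∑ k, w k = (N + 1 - c) * ∑ s, Y s := by
    simp only [hw]
    rw [Finset.sum_comm, Finset.mul_sum]
    refine Finset.sum_congr rfl fun s _ => ?_
    by_cases hs : s.card = c
    · have h2 : ∑ k : Fin (N + 1), (if k ∈ s then 0 else Y s) =
          ∑ k ∈ Finset.univ \ s, Y s := by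
        rw [← Finset.sum_filter_add_sum_filter_not Finset.univ (fun k => k ∈ s)]
        rw [Finset.sum_eq_zero (s := Finset.univ.filter fun k => k ∈ s), zero_add]
        · refine Finset.sum_congr ?_ fun k hk => ?_
          · ext k; simp
          · exact if_neg (Finset.mem_sdiff.1 hk).2
        · intro k hk
          rw [if_pos (Finset.mem_filter.1 hk).2]
      rw [h2, Finset.sum_const, Finset.card_sdiff_of_subset (Finset.subset_univ s),
        Finset.card_univ, Fintype.card_fin, hs, nsmul_eq_mul, Nat.cast_sub hc.le]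
      push_cast
      rfl
    · rw [hY0 s hs, mul_zero]
      exact Finset.sum_eq_zero fun k _ => by split_ifs <;> rfl
  simp only [hw0, Finset.sum_const_zero] at h1
  have h2 : ((N : ℂ) + 1 - c) ≠ 0 := by
    have : ((N : ℂ) + 1 - c) = ((N + 1 - c : ℕ) : ℂ) := by
      rw [Nat.cast_sub hc.le]; push_cast; rfl
    rw [this, Nat.cast_ne_zero]
    omega
  exact (mul_eq_zero.1 h1.symm).resolve_left h2

/-- the key relations -/
theorem T_io_zero (hm : Odd m) (hk : Odd k) {a b : A.Lt} (h : Inv a b) (hF : Cyc A F)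
    (hψ : A.toD.Good ψ) (hψ1 : ∀ p, ψ (shf A.x p) = -ψ p) (hψ0 : ∀ p, cb ψ p = 1) :
    T a b (fun p : Fin (m + k + 2) → G =>
      gm (bs F p) (io (k + 1)) (Finset.univ : Finset (Fin (m + k + 1)))) = 0 := by
  have hmk : Even (m + k) := hm.add_odd hk
  -- the shuffle product
  set U : (Fin (m + k + 1) → G) → ℝ := fun p =>
    gm (bs F p) (bs ψ p) (Finset.univ : Finset (Fin (m + k))) with hU
  have hUg : A.toD.Good U := good_gm (good_bs hF.good) (good_bs hψ) _
  have h0 := T_bp hmk h hUg
  have h1 : (bp U : (Fin (m + k + 2) → G) → ℝ) =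
      fun p => gm (io 1) (gm (bs F p) (bs ψ p)) Finset.univ := by
    funext p
    exact bp_gm F ψ p
  -- first form
  have h2 : (bp U : (Fin (m + k + 2) → G) → ℝ) =
      fun p => gm (pl F p) (bs ψ p) (Finset.univ : Finset (Fin (m + k + 1))) := by
    rw [h1]
    funext p
    rw [← gm_assoc]
    refine gm_congr (fun s _ => ?_) fun s _ => rfl
    rw [gm_io_one_bs F 0 hF.clo, zero_mul, sub_zero]
  -- second form
  have h3 : (bp U : (Fin (m + k + 2) → G) → ℝ) = fun p => (-1) *
      (gm (bs F p) (pl ψ p) (Finset.univ : Finset (Fin (m + k + 1))) + (-1) *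
        gm (bs F p) (io (k + 1)) (Finset.univ : Finset (Fin (m + k + 1)))) := by
    rw [h1]
    funext p
    have e1 : gm (gm (io 1) (bs F p)) (bs ψ p) (Finset.univ : Finset (Fin (m + k + 1))) =
        gm (gm (bs F p) (io 1)) (fun s => (-1) ^ m * bs ψ p s) Finset.univ := by
      unfold gm
      refine Finset.sum_congr rfl fun s _ => ?_
      have := io_one_comm (bs_hom F p) s
      unfold gm at this
      rw [this]
      ring
    have e2 : gm (bs F p) (gm (io 1) (bs ψ p)) (Finset.univ : Finset (Fin (m + k + 1))) =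
        gm (bs F p) (fun s => pl ψ p s - io (k + 1) s) Finset.univ := by
      refine gm_congr (fun s _ => rfl) fun s _ => ?_
      rw [gm_io_one_bs ψ 1 hψ0, one_mul]
    rw [← gm_assoc, e1, gm_smul_right, gm_assoc, e2, gm_sub_right, hm.neg_one_pow]
    ring
  have g1 : A.toD.Good fun p : Fin (m + k + 2) → G =>
      gm (bs F p) (pl ψ p) (Finset.univ : Finset (Fin (m + k + 1))) :=
    good_gm (good_bs hF.good) (good_pl hψ) _
  have g2 : A.toD.Good fun p : Fin (m + k + 2) → G =>
      gm (bs F p) (io (k + 1)) (Finset.univ : Finset (Fin (m + k + 1))) :=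
    good_gm (g := fun _ => io (k + 1)) (good_bs hF.good) (fun s => DData.Good.const _) _
  -- the sum over the sets avoiding zero
  have hY0 : ∑ s : Finset (Fin (m + k + 2)), (if (0 : Fin (m + k + 2)) ∈ s then 0
      else Yv a b F ψ s) = 0 := by
    have e1 : (fun p : Fin (m + k + 2) → G => ∑ s : Finset (Fin (m + k + 2)),
        (if (0 : Fin (m + k + 2)) ∈ s then 0 else
          sg s (Finset.univ \ s) * fv F p s * fv ψ p (Finset.univ \ s))) = bp U := by
      rw [h2]
      funext p
      rw [gm_notMem (fv_hom F p), hm.add_one.neg_one_pow, one_mul]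
      simp only [fv_up0, fv_in0]
    have e2 : ∀ s : Finset (Fin (m + k + 2)), A.toD.Good fun p : Fin (m + k + 2) → G =>
        (if (0 : Fin (m + k + 2)) ∈ s then 0 else
          sg s (Finset.univ \ s) * fv F p s * fv ψ p (Finset.univ \ s)) := by
      intro s
      split_ifs
      · exact DData.Good.const 0
      · exact ((good_fv hF.good s).smul _).mul (good_fv hψ _)
    have e3 := T_sum a b Finset.univ e2
    rw [e1, h0] at e3
    refine Eq.trans (Finset.sum_congr rfl fun s _ => ?_) e3.symm
    unfold Yv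
    split_ifs
    · exact (T_zero a b).symm
    · rw [← T_smul]
      congr 1
      funext p
      unfold wd
      ring
  have hYs : ∑ s : Finset (Fin (m + k + 2)), Yv a b F ψ s = 0 := by
    refine sum_zero_of_rt (N := m + k + 1) (c := m + 1) (by omega) (Yv a b F ψ)
      (Yv_rt hm hk rfl a b hF.good hψ hF.cyc hψ1) (fun s hs => ?_) hY0
    have e1 : wd F ψ s = fun _ => 0 := by
      funext p
      unfold wd
      rw [fv_hom F p s hs, zero_mul]
    unfold Yv
    rw [e1, T_zero, mul_zero]
  -- the sum over the sets containing zero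
  have hY1 : T a b (fun p : Fin (m + k + 2) → G =>
      gm (bs F p) (pl ψ p) (Finset.univ : Finset (Fin (m + k + 1)))) = 0 := by
    have e1 : (fun p : Fin (m + k + 2) → G => ∑ s : Finset (Fin (m + k + 2)),
        (if (0 : Fin (m + k + 2)) ∈ s then
          sg s (Finset.univ \ s) * fv F p s * fv ψ p (Finset.univ \ s) else 0)) =
        fun p => gm (bs F p) (pl ψ p) (Finset.univ : Finset (Fin (m + k + 1))) := by
      funext p
      rw [gm_mem]
      simp only [fv_up0, fv_in0]
    have e2 : ∀ s : Finset (Fin (m + k + 2)), A.toD.Good fun p : Fin (m + k + 2) → G =>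
        (if (0 : Fin (m + k + 2)) ∈ s then
          sg s (Finset.univ \ s) * fv F p s * fv ψ p (Finset.univ \ s) else 0) := by
      intro s
      split_ifs
      · exact ((good_fv hF.good s).smul _).mul (good_fv hψ _)
      · exact DData.Good.const 0
    have e3 := T_sum a b Finset.univ e2
    rw [e1] at e3
    rw [e3]
    have e4 : ∀ s : Finset (Fin (m + k + 2)), T a b (fun p : Fin (m + k + 2) → G =>
        (if (0 : Fin (m + k + 2)) ∈ s then
          sg s (Finset.univ \ s) * fv F p s * fv ψ p (Finset.univ \ s) else 0)) =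
        Yv a b F ψ s - (if (0 : Fin (m + k + 2)) ∈ s then 0 else Yv a b F ψ s) := by
      intro s
      split_ifs
      · unfold Yv
        rw [← T_smul, sub_zero]
        congr 1
        funext p
        unfold wd
        ring
      · rw [T_zero, sub_self]
    rw [Finset.sum_congr rfl fun s _ => e4 s, Finset.sum_sub_distrib, hYs, hY0, sub_zero]
  rw [h3, T_smul, T_add a b g1 (g2.smul _), T_smul, hY1] at h0
  push_cast at h0
  linear_combination h0

/-- The pairing of closed cyclic functions with alternating words vanishes. -/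
theorem P_zero_of_cyc (hm : Odd m) (hk : Odd k) {a b : A.Lt} (h : Inv a b) (hF : Cyc A F)
    (hψ : A.toD.Good ψ) (hψ1 : ∀ p, ψ (shf A.x p) = -ψ p) (hψ0 : ∀ p, cb ψ p = 1) :
    P (aw a b (m + 1)) F = 0 := by
  have h1 := T_io_zero hm hk h hF hψ hψ1 hψ0
  obtain ⟨j, hj⟩ : ∃ j, k + 1 = 2 * j := by
    obtain ⟨r, hr⟩ := hk
    exact ⟨r + 1, by omega⟩
  obtain ⟨c, hc, h2⟩ := T_io j m (m + k + 1) (by omega) hm h hF
  rw [← hj] at h2
  rw [h2] at h1
  exact (mul_eq_zero.1 h1).resolve_left hc

end Vanish

end LData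

end

end Vale.Agent.P184.Odd
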