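import Mathlib
import Vale.Agent.P184.R2.ADefs
import Vale.Agent.P184.R2.O6

/-!
# The odd pairing in inhomogeneous form
-/

namespace Vale.Agent.P184.Odd

noncomputable section

open Vale.Agent.P184.A (Mat InL1 mul unit IsInv hob CyclicCocycle Subexp ExpDecay PairZero OddAt)

variable {G : Type*} [Group G] {x : G}

section Steps

/-- the homogeneous form of a cyclic cocycle of odd degree is closed -/
theorem cob_odd {m : ℕ} (hm : Odd m) {φ : (Fin (m + 1) → G) → ℂ} (hφ : CyclicCocycle x m φ)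
    (p : Fin (m + 2) → G) :
    ∑ j : Fin (m + 2), (-1 : ℂ) ^ (j : ℕ) * φ (stp x fun i => p (j.succAbove i)) = 0 := by
  obtain ⟨_, h2, h3⟩ := hφ
  have h4 := h3 (stp x p)
  unfold hob at h4
  rw [Fin.sum_univ_succ]
  simp only [Fin.val_zero, pow_zero, one_mul, Fin.zero_succAbove, Fin.val_succ, stp_del,
    stp_del_zero, h2, hm.neg_one_pow]
  rw [hm.add_one.neg_one_pow] at h4
  have h6 : ∑ j : Fin (m + 1), (-1 : ℂ) ^ ((j : ℕ) + 1) *
      φ (j.castSucc.contractNth (· * ·) (stp x p)) =
      - ∑ j : Fin (m + 1), (-1 : ℂ) ^ (j : ℕ) *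
        φ (j.castSucc.contractNth (· * ·) (stp x p)) := by
    rw [← Finset.sum_neg_distrib]
    refine Finset.sum_congr rfl fun j _ => ?_
    rw [pow_succ]
    ring
  rw [h6]
  linear_combination -h4

end Steps

namespace LData

variable {D : Type*} [NormedRing D] [NormedAlgebra ℂ D]

/-- the pairing over the group in terms of the sum over the orbits -/
theorem hasSum_P (A : LData G D) {m : ℕ} (w : Fin (m + 1) → A.Lt)
    {φ : (Fin (m + 1) → G) → ℂ} (hs : ∀ g, ¬ IsConj A.x (List.ofFn g).prod → φ g = 0)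
    (hφ : ∀ ε : ℝ, 0 < ε → ∃ C : ℝ, ∀ g, ‖φ g‖ ≤ C * Real.exp (ε * ∑ i, A.L (g i))) :
    HasSum (fun g => φ g * A.tr (List.ofFn fun k => (w k).1 (g k)).prod)
      (P w (fun p => (φ (stp A.x p)).re) + P w (fun p => (φ (stp A.x p)).im) * Complex.I) := by
  rw [← (stp_injective A.x).hasSum_iff]
  · have h1 := (P_summable w (good_part A.toD hφ Complex.re Complex.abs_re_le_norm)).hasSum
    have h2 := (P_summable w (good_part A.toD hφ Complex.im Complex.abs_im_le_norm)).hasSum
    have h3 := h1.add (h2.mul_right Complex.I)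
    refine (congrArg (fun f => HasSum f (P w (fun p => (φ (stp A.x p)).re) +
      P w (fun p => (φ (stp A.x p)).im) * Complex.I)) (funext fun a => ?_)).mpr h3
    simp only [Function.comp_apply]
    unfold wt
    conv_lhs => rw [← Complex.re_add_im (φ (stp A.x (Orb.rep A.x a)))]
    change _ = (((φ (stp A.x (Orb.rep A.x a))).re : ℝ) : ℂ) * _ +
      (((φ (stp A.x (Orb.rep A.x a))).im : ℝ) : ℂ) * _ * Complex.I
    ring
  · intro g hg
    rw [hs g, zero_mul]
    intro h
    obtain ⟨a, ha⟩ := exists_orb g h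
    exact hg ⟨a, ha⟩

end LData

section Final

attribute [local instance] Matrix.linftyOpNormedRing Matrix.linftyOpNormedAlgebra

/-- the convolution of matrix valued functions in terms of entries -/
theorem toFn_mul {q : ℕ} {u v : Mat G q} (hu : InL1 u) (hv : InL1 v) (k : G) :
    ∑' h, toFn u h * toFn v (h⁻¹ * k) = toFn (mul u v) k := by
  have hus : Summable fun g => ‖toFn u g‖ :=
    Summable.of_nonneg_of_le (fun _ => norm_nonneg _) (fun g => mat_norm_le (toFn u g))
      (summable_sum fun i _ => summable_sum fun j _ => hu i j)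
  have hvs : Summable fun g => ‖toFn v g‖ :=
    Summable.of_nonneg_of_le (fun _ => norm_nonneg _) (fun g => mat_norm_le (toFn v g))
      (summable_sum fun i _ => summable_sum fun j _ => hv i j)
  have hs : Summable fun h => toFn u h * toFn v (h⁻¹ * k) := by
    refine Summable.of_norm_bounded (hus.mul_right (∑' g, ‖toFn v g‖)) fun h => ?_
    refine (norm_mul_le _ _).trans (mul_le_mul_of_nonneg_left ?_ (norm_nonneg _))
    exact hvs.le_tsum _ fun _ _ => norm_nonneg _
  ext i j
  rw [entry_tsum hs]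
  have h1 : ∀ h, (toFn u h * toFn v (h⁻¹ * k)) i j = ∑ l, u i l h * v l j (h⁻¹ * k) := by
    intro h
    rw [Matrix.mul_apply]; rfl
  rw [tsum_congr h1, Summable.tsum_finsetSum]
  · rfl
  · intro l _
    refine Summable.of_norm_bounded ((hu i l).mul_right (∑' g, ‖v l j g‖)) fun h => ?_
    rw [norm_mul]
    refine mul_le_mul_of_nonneg_left ?_ (norm_nonneg _)
    exact (hv l j).le_tsum _ fun _ _ => norm_nonneg _

open Classical in
theorem toFn_unit (q : ℕ) (g : G) : toFn (unit G q) g = if g = 1 then 1 else 0 := by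
  ext i j
  change unit G q i j g = _
  unfold unit
  by_cases h1 : i = j ∧ g = 1
  · rw [if_pos h1, if_pos h1.2, h1.1, Matrix.one_apply_eq]
  · rw [if_neg h1]
    by_cases h2 : g = 1
    · rw [if_pos h2, Matrix.one_apply_ne fun h => h1 ⟨h, h2⟩]
    · rw [if_neg h2]
      rfl

omit [Group G] in
theorem toFn_sub {q : ℕ} (u v : Mat G q) (g : G) : toFn (u - v) g = toFn u g - toFn v g := rfl

theorem decay_mono {q : ℕ} {a : Mat G q} {L : G → ℝ} (hL : IsLength L) {ε ε' : ℝ} (h : ε' ≤ ε)
    (ha : ∀ i j, Summable fun g => ‖a i j g‖ * Real.exp (ε * L g)) (i j : Fin q) :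
    Summable fun g => ‖a i j g‖ * Real.exp (ε' * L g) := by
  refine Summable.of_nonneg_of_le (fun g => by positivity) (fun g => ?_) (ha i j)
  refine mul_le_mul_of_nonneg_left (Real.exp_le_exp.2 ?_) (norm_nonneg _)
  exact mul_le_mul_of_nonneg_right h (hL.nonneg g)

theorem unit_decay {q : ℕ} (L : G → ℝ) (ε : ℝ) (i j : Fin q) :
    Summable fun g => ‖unit G q i j g‖ * Real.exp (ε * L g) := by
  refine summable_of_ne_finset_zero (s := {1}) fun g hg => ?_
  have h1 : g ≠ 1 := fun h => hg (Finset.mem_singleton.2 h)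
  have h2 : unit G q i j g = 0 := if_neg fun h => h1 h.2
  rw [h2, norm_zero, zero_mul]

omit [Group G] in
theorem sub_decay {q : ℕ} {a b : Mat G q} {L : G → ℝ} {ε : ℝ}
    (ha : ∀ i j, Summable fun g => ‖a i j g‖ * Real.exp (ε * L g))
    (hb : ∀ i j, Summable fun g => ‖b i j g‖ * Real.exp (ε * L g)) (i j : Fin q) :
    Summable fun g => ‖(a - b) i j g‖ * Real.exp (ε * L g) := by
  refine Summable.of_nonneg_of_le (fun g => by positivity) (fun g => ?_) ((ha i j).add (hb i j))
  rw [← add_mul]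
  exact mul_le_mul_of_nonneg_right (norm_sub_le _ _) (Real.exp_pos _).le

theorem inL1_of_decay {q : ℕ} {a : Mat G q} {L : G → ℝ} (hL : IsLength L) {ε : ℝ} (hε : 0 ≤ ε)
    (ha : ∀ i j, Summable fun g => ‖a i j g‖ * Real.exp (ε * L g)) : InL1 a := by
  intro i j
  refine Summable.of_nonneg_of_le (fun _ => norm_nonneg _) (fun g => ?_) (ha i j)
  exact le_mul_of_one_le_right (norm_nonneg _) (Real.one_le_exp (mul_nonneg hε (hL.nonneg g)))


namespace LData

theorem cv_sub_left {D : Type*} [NormedRing D] [NormedAlgebra ℂ D] [CompleteSpace D]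
    {A : LData G D} (a a' b : A.Lt) : cv (a - a') b = cv a b - cv a' b := by
  apply Subtype.ext
  funext k
  change ∑' h, (a - a').1 h * b.1 (h⁻¹ * k) = (∑' h, a.1 h * b.1 (h⁻¹ * k)) -
    ∑' h, a'.1 h * b.1 (h⁻¹ * k)
  rw [← (cv_summable a b k).tsum_sub (cv_summable a' b k)]
  refine tsum_congr fun h => ?_
  have : (a - a').1 h = a.1 h - a'.1 h := rfl
  rw [this, sub_mul]

theorem cv_sub_right {D : Type*} [NormedRing D] [NormedAlgebra ℂ D] [CompleteSpace D]
    {A : LData G D} (a b b' : A.Lt) : cv a (b - b') = cv a b - cv a b' := by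
  apply Subtype.ext
  funext k
  change ∑' h, a.1 h * (b - b').1 (h⁻¹ * k) = (∑' h, a.1 h * b.1 (h⁻¹ * k)) -
    ∑' h, a.1 h * b'.1 (h⁻¹ * k)
  rw [← (cv_summable a b k).tsum_sub (cv_summable a b' k)]
  refine tsum_congr fun h => ?_
  have : (b - b').1 (h⁻¹ * k) = b.1 (h⁻¹ * k) - b'.1 (h⁻¹ * k) := rfl
  rw [this, mul_sub]

open Classical in
theorem cv_unit_left {D : Type*} [NormedRing D] [NormedAlgebra ℂ D]
    {A : LData G D} (e b : A.Lt) (he : ∀ g, e.1 g = if g = 1 then 1 else 0) : cv e b = b := by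
  apply Subtype.ext
  funext k
  change ∑' h, e.1 h * b.1 (h⁻¹ * k) = b.1 k
  rw [tsum_eq_single 1]
  · rw [he, if_pos rfl, one_mul, inv_one, one_mul]
  · intro g hg
    rw [he, if_neg hg, zero_mul]

open Classical in
theorem cv_unit_right {D : Type*} [NormedRing D] [NormedAlgebra ℂ D]
    {A : LData G D} (e a : A.Lt) (he : ∀ g, e.1 g = if g = 1 then 1 else 0) : cv a e = a := by
  apply Subtype.ext
  funext k
  change ∑' h, a.1 h * e.1 (h⁻¹ * k) = a.1 k
  rw [tsum_eq_single k]
  · rw [he, inv_mul_cancel, if_pos rfl, mul_one]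
  · intro g hg
    rw [he, if_neg, mul_zero]
    intro h
    exact hg (inv_mul_eq_one.1 h)

open Classical in
/-- an inverse pair gives letters which are inverse up to the unit -/
theorem inv_of_unit {D : Type*} [NormedRing D] [NormedAlgebra ℂ D] [CompleteSpace D]
    {A : LData G D} (e u v : A.Lt) (he : ∀ g, e.1 g = if g = 1 then 1 else 0)
    (h1 : cv u v = e) (h2 : cv v u = e) : Inv (v - e) (u - e) := by
  constructor
  · rw [cv_sub_left, cv_sub_right, cv_sub_right, h2, cv_unit_left e u he, cv_unit_right e v he,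
      cv_unit_right e e he]
    abel
  · rw [cv_sub_left, cv_sub_right, cv_sub_right, h1, cv_unit_left e v he, cv_unit_right e u he,
      cv_unit_right e e he]
    abel

end LData

/-- If a power of the periodicity operator annihilates the trace at `x`, then the cyclic cocycles
of odd degree localised at `x` pair to zero with the invertible matrices. -/
theorem oddAt_of_cyc {L : G → ℝ} (hL : IsLength L) {n : ℕ} (hn : 0 < n)
    {ψ : (Fin (2 * n) → G) → ℝ} (hψ1 : CInv x ψ) (hψ2 : SubExp x L ψ) (hψ3 : CycAnti x ψ)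
    (hψ4 : ∀ p, DData.cob ψ p = 1) : OddAt L x := by
  intro m φ hφ hφg q u v huv hu hv
  obtain ⟨ε₁, hε₁, hu⟩ := hu
  obtain ⟨ε₂, hε₂, hv⟩ := hv
  let A : LData G (Matrix (Fin q) (Fin q) ℂ) :=
    { x := x
      tr := mtr q
      L := L
      eps := min ε₁ ε₂
      htr := mtr_comm q
      hL := hL
      heps := lt_min hε₁ hε₂ }
  have hu' := fun i j => decay_mono hL (min_le_left ε₁ ε₂) hu i j
  have hv' := fun i j => decay_mono hL (min_le_right ε₁ ε₂) hv i j
  let uL : A.Lt := ⟨toFn u, toFn_decay hu'⟩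
  let vL : A.Lt := ⟨toFn v, toFn_decay hv'⟩
  let eL : A.Lt := ⟨toFn (unit G q), toFn_decay fun i j => unit_decay L _ i j⟩
  have huI : InL1 u := huv.1
  have hvI : InL1 v := huv.2.1
  have h1 : LData.cv uL vL = eL := by
    apply Subtype.ext
    funext k
    change ∑' h, toFn u h * toFn v (h⁻¹ * k) = toFn (unit G q) k
    rw [toFn_mul huI hvI, huv.2.2.1]
  have h2 : LData.cv vL uL = eL := by
    apply Subtype.ext
    funext k
    change ∑' h, toFn v h * toFn u (h⁻¹ * k) = toFn (unit G q) k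
    rw [toFn_mul hvI huI, huv.2.2.2]
  have hInv : LData.Inv (vL - eL) (uL - eL) :=
    LData.inv_of_unit eL uL vL (toFn_unit q) h1 h2
  obtain ⟨k, rfl⟩ : ∃ k, n = k + 1 := ⟨n - 1, by omega⟩
  have hm : Odd (2 * m + 1) := ⟨m, rfl⟩
  have key : ∀ r : ℂ → ℝ, (∀ z, |r z| ≤ ‖z‖) → (∀ (n : ℕ) z, r ((-1 : ℂ) ^ n * z) =
      (-1 : ℝ) ^ n * r z) → (∀ z w, r (z + w) = r z + r w) →
      LData.P (LData.aw (vL - eL) (uL - eL) (2 * m + 1 + 1))
        (fun p : Fin (2 * m + 1 + 1) → G => r (φ (stp x p))) = 0 := by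
    intro r hr1 hr2 hr3
    refine LData.P_zero_of_cyc (k := 2 * k + 1) hm ⟨k, rfl⟩ hInv
      ⟨good_part A.toD hφg r hr1, fun p => ?_, fun p => ?_⟩ (ψ := ψ) ⟨hψ1, hψ2⟩
      (cycAnti_iff.1 hψ3) hψ4
    · have e1 : stp x (shf x p) = fun i => stp x p (finRotate (2 * m + 1 + 1) i) :=
        funext fun i => stp_shf x p i
      change r (φ (stp x (shf x p))) = -r (φ (stp x p))
      rw [e1, hφ.2.1, hr2, hm.neg_one_pow, neg_one_mul]
    · have e1 := cob_odd hm hφ p
      unfold cb
      have e2 : ∀ z w : ℂ, z = w → r z = r w := fun z w h => by rw [h]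
      have e3 := e2 _ _ e1
      have e0 : r 0 = 0 := by
        have := hr3 0 0
        rw [add_zero] at this
        linarith only [this]
      have e4 := map_sum (AddMonoidHom.mk' r hr3) (fun j : Fin (2 * m + 1 + 2) =>
        (-1 : ℂ) ^ (j : ℕ) * φ (stp x fun i => p (j.succAbove i))) Finset.univ
      simp only [AddMonoidHom.mk'_apply] at e4
      rw [e4, e0] at e3
      simp only [hr2] at e3
      exact e3
  have g1 := key Complex.re Complex.abs_re_le_norm neg_one_pow_mul_re Complex.add_re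
  have g2 := key Complex.im Complex.abs_im_le_norm neg_one_pow_mul_im Complex.add_im
  have g3 := LData.hasSum_P A (LData.aw (vL - eL) (uL - eL) (2 * m + 1 + 1)) hφ.1 hφg
  rw [g1, g2, zero_mul, add_zero] at g3
  unfold PairZero
  refine (congrArg (fun f => HasSum f (0 : ℂ)) (funext fun g => ?_)).mpr g3
  congr 3
  congr 1
  funext i
  unfold LData.aw LData.al
  by_cases hi : Even (i : ℕ)
  · rw [if_pos hi]
    simp only [if_pos hi]
    rfl
  · rw [if_neg hi]
    simp only [if_neg hi]
    rfl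

end Final

end

end Vale.Agent.P184.Odd
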