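import Vale.Agent.P184.Bdl.B5
import Vale.Agent.P184.R2.ADefs

/-!
# Classes in `K_1(ℓ¹(G))` are represented by invertible matrices with exponential decay
-/

noncomputable section
open scoped Topology

namespace Vale.Agent.P184.A

open Vale.Agent.P184

section Conv

variable {G : Type*} [Group G] {D : Type*} [NormedRing D] [NormedAlgebra ℂ D]

omit [NormedAlgebra ℂ D] in
/-- Truncation of a function to a finite set. -/
theorem exists_finTrunc (U : G → D) (hU : Summable fun g => ‖U g‖) (δ : ℝ) (hδ : 0 < δ) :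
    ∃ (S : Finset G) (a : G → D), (∀ g ∉ S, a g = 0) ∧ (Summable fun g => ‖a g‖) ∧
      (Summable fun g => ‖a g - U g‖) ∧
      (∑' g, ‖a g - U g‖ < δ) ∧ ∑' g, ‖a g‖ ≤ ∑' g, ‖U g‖ := by
  classical
  obtain ⟨S0, hS0⟩ : ∃ S0 : Finset G, (∑' g, ‖U g‖) - δ < ∑ g ∈ S0, ‖U g‖ := by
    have h1 := hU.hasSum.eventually (lt_mem_nhds (show (∑' g, ‖U g‖) - δ < ∑' g, ‖U g‖ by linarith))
    obtain ⟨S0, hS0⟩ := Filter.eventually_atTop.mp h1
    exact ⟨S0, hS0 S0 le_rfl⟩
  set a : G → D := fun g => if g ∈ S0 then U g else 0 with ha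
  have ha_le : ∀ g, ‖a g‖ ≤ ‖U g‖ := by
    intro g
    simp only [ha]
    split_ifs
    · exact le_rfl
    · rw [norm_zero]; exact norm_nonneg _
  have has : Summable fun g => ‖a g‖ :=
    Summable.of_nonneg_of_le (fun _ => norm_nonneg _) ha_le hU
  have h1 : ∀ g, ‖a g - U g‖ = ‖U g‖ - ‖a g‖ := by
    intro g
    simp only [ha]
    split_ifs
    · simp only [sub_self, norm_zero]
    · simp
  refine ⟨S0, a, fun g hg => by simp [ha, hg], has, ?_, ?_, has.tsum_le_tsum ha_le hU⟩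
  · simp only [h1]
    exact hU.sub has
  · simp only [h1]
    rw [hU.tsum_sub has, tsum_eq_sum (s := S0) (f := fun g => ‖a g‖)]
    · have h2 : ∑ g ∈ S0, ‖a g‖ = ∑ g ∈ S0, ‖U g‖ :=
        Finset.sum_congr rfl fun g hg => by simp [ha, hg]
      rw [h2]; linarith
    · intro g hg
      simp only [ha, hg, ↓reduceIte, norm_zero]

open Classical in
/-- the unit of the convolution algebra -/
def cone (G : Type*) [Group G] (D : Type*) [NormedRing D] (g : G) : D := if g = 1 then 1 else 0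

variable [CompleteSpace D]

/-- The convolution of summable functions as an element of `ℓ¹`. -/
theorem conv_sub_le {U V a b : G → D} (hU : Summable fun g => ‖U g‖) (hV : Summable fun g => ‖V g‖)
    (ha : Summable fun g => ‖a g‖) (hb : Summable fun g => ‖b g‖) :
    (Summable fun k => ‖(∑' h, a h * b (h⁻¹ * k)) - ∑' h, U h * V (h⁻¹ * k)‖) ∧
    ∑' k, ‖(∑' h, a h * b (h⁻¹ * k)) - ∑' h, U h * V (h⁻¹ * k)‖ ≤
      (∑' g, ‖a g - U g‖) * (∑' g, ‖b g‖) + (∑' g, ‖U g‖) * ∑' g, ‖b g - V g‖ := by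
  let A : CrossedData G D :=
    trivData (0 : D →L[ℂ] ℂ) (fun _ _ => rfl) (fun _ => False) (fun _ _ h => h)
  have hA : ∀ g a, A.act g a = a := fun g a => rfl
  set vU := L1.mk U hU
  set vV := L1.mk V hV
  set va := L1.mk a ha
  set vb := L1.mk b hb
  set X : L1 G D := theta A (MonoidHom.id G) va vb - theta A (MonoidHom.id G) vU vV with hX
  have hXco : ∀ k, X.co k = (∑' h, a h * b (h⁻¹ * k)) - ∑' h, U h * V (h⁻¹ * k) := by
    intro k
    change (theta A (MonoidHom.id G) va vb).co k - (theta A (MonoidHom.id G) vU vV).co k = _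
    rw [theta_co A hA, theta_co A hA]
    rfl
  have hXn : ‖X‖ = ∑' k, ‖(∑' h, a h * b (h⁻¹ * k)) - ∑' h, U h * V (h⁻¹ * k)‖ := by
    rw [L1.norm_eq]
    exact tsum_congr fun k => by rw [hXco]
  refine ⟨?_, ?_⟩
  · have := X.summable_norm
    simpa only [hXco] using this
  · rw [← hXn]
    have h1 : X = theta A (MonoidHom.id G) (va - vU) vb + theta A (MonoidHom.id G) vU (vb - vV) := by
      rw [hX, map_sub, map_sub, sub_apply]
      abel
    have h2 : ‖va - vU‖ = ∑' g, ‖a g - U g‖ := by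
      rw [L1.norm_eq]; rfl
    have h3 : ‖vb - vV‖ = ∑' g, ‖b g - V g‖ := by
      rw [L1.norm_eq]; rfl
    have h4 : ‖vb‖ = ∑' g, ‖b g‖ := by
      rw [L1.norm_eq]; rfl
    have h5 : ‖vU‖ = ∑' g, ‖U g‖ := by
      rw [L1.norm_eq]; rfl
    rw [h1, ← h2, ← h3, ← h4, ← h5]
    refine (norm_add_le _ _).trans (add_le_add ?_ ?_)
    · refine ((theta A (MonoidHom.id G) (va - vU)).le_opNorm vb).trans ?_
      exact mul_le_mul_of_nonneg_right (theta_norm A _ _) (norm_nonneg _)
    · refine ((theta A (MonoidHom.id G) vU).le_opNorm (vb - vV)).trans ?_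
      exact mul_le_mul_of_nonneg_right (theta_norm A _ _) (norm_nonneg _)

/-- Associativity of the convolution. -/
theorem conv_assoc {U V W : G → D} (hU : Summable fun g => ‖U g‖) (hV : Summable fun g => ‖V g‖)
    (hW : Summable fun g => ‖W g‖) (k : G) :
    ∑' h, U h * (∑' l, V l * W (l⁻¹ * (h⁻¹ * k))) =
      ∑' h, (∑' l, U l * V (l⁻¹ * h)) * W (h⁻¹ * k) := by
  let A : CrossedData G D :=
    trivData (0 : D →L[ℂ] ℂ) (fun _ _ => rfl) (fun _ => False) (fun _ _ h => h)
  have hA : ∀ g a, A.act g a = a := fun g a => rfl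
  set vU := L1.mk U hU
  set vV := L1.mk V hV
  set vW := L1.mk W hW
  -- the operator of the convolution is the product of the operators
  have h1 : theta A (MonoidHom.id G) (theta A (MonoidHom.id G) vU vV) =
      theta A (MonoidHom.id G) vU * theta A (MonoidHom.id G) vV := by
    have h2 : theta A (MonoidHom.id G) vU * theta A (MonoidHom.id G) vV ∈ A.clos :=
      A.mul_mem_clos (theta_mem A _ _) (theta_mem A _ _)
    have h3 := Psi_id A h2
    rw [Psi_apply] at h3
    rw [← h3]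
    congr 1
    change _ = theta A (MonoidHom.id G) vU (theta A (MonoidHom.id G) vV CrossedData.del)
    rw [theta_del A hA]
  have h2 : (theta A (MonoidHom.id G) vU (theta A (MonoidHom.id G) vV vW)).co k =
      (theta A (MonoidHom.id G) (theta A (MonoidHom.id G) vU vV) vW).co k := by
    rw [h1]; rfl
  rw [theta_co A hA, theta_co A hA] at h2
  have h3 : ∀ x, (theta A (MonoidHom.id G) vV vW).co x = ∑' l, V l * W (l⁻¹ * x) := fun x => by
    rw [theta_co A hA]; rfl
  have h4 : ∀ x, (theta A (MonoidHom.id G) vU vV).co x = ∑' l, U l * V (l⁻¹ * x) := fun x => by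
    rw [theta_co A hA]; rfl
  simp only [h3, h4] at h2
  exact h2

omit [NormedAlgebra ℂ D] [CompleteSpace D] in
theorem cone_conv (U : G → D) (k : G) : ∑' h, cone G D h * U (h⁻¹ * k) = U k := by
  rw [tsum_eq_single 1]
  · simp [cone]
  · intro h hh
    simp [cone, hh]

variable [NormOneClass D]

open Classical in
/-- An invertible element of `ℓ¹(G; D)` is, up to a factor close to the unit, invertible in a
weighted algebra. -/
theorem exists_inv_decay (L : G → ℝ) (hL0 : ∀ g, 0 ≤ L g) (hL : ∀ g h, L (g * h) ≤ L g + L h)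
    {U V : G → D} (hU : Summable fun g => ‖U g‖) (hV : Summable fun g => ‖V g‖)
    (hUV : ∀ k, ∑' h, U h * V (h⁻¹ * k) = cone G D k)
    (hVU : ∀ k, ∑' h, V h * U (h⁻¹ * k) = cone G D k) {η : ℝ} (hη : 0 < η) :
    ∃ ε : ℝ, 0 < ε ∧ ∃ a b w : G → D, (Summable fun g => ‖a g‖ * Real.exp (ε * L g)) ∧
      (Summable fun g => ‖b g‖ * Real.exp (ε * L g)) ∧
      (∀ k, ∑' h, a h * b (h⁻¹ * k) = cone G D k) ∧
      (∀ k, ∑' h, b h * a (h⁻¹ * k) = cone G D k) ∧
      (Summable fun g => ‖w g‖) ∧ (∀ k, ∑' h, U h * w (h⁻¹ * k) = a k) ∧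
      (Summable fun g => ‖w g - cone G D g‖) ∧ ∑' g, ‖w g - cone G D g‖ < η := by
  have hnt : Nontrivial (L1 G D) := l1_nontrivial
  set N := (∑' g, ‖U g‖) + (∑' g, ‖V g‖) with hN
  have hNU : 0 ≤ ∑' g, ‖U g‖ := tsum_nonneg fun _ => norm_nonneg _
  have hNV : 0 ≤ ∑' g, ‖V g‖ := tsum_nonneg fun _ => norm_nonneg _
  set δ : ℝ := min 1 η / (8 * (N + 1)) with hδ
  have hN1 : 0 < N + 1 := by rw [hN]; linarith
  have hm0 : 0 < min 1 η := lt_min one_pos hη
  have hδ0 : 0 < δ := div_pos hm0 (by linarith)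
  have hδN : δ * N ≤ min 1 η / 8 := by
    rw [hδ, div_mul_eq_mul_div, div_le_div_iff₀ (by linarith) (by norm_num)]
    nlinarith
  obtain ⟨Sa, a, haS, has, hads, had, haN⟩ := exists_finTrunc U hU δ hδ0
  obtain ⟨Sb, b0, hbS, hbs, hbds, hbd, hbN⟩ := exists_finTrunc V hV δ hδ0
  -- the products `a * b0` and `b0 * a` are close to the unit
  have hab := (conv_sub_le hU hV has hbs)
  have hba := (conv_sub_le hV hU hbs has)
  have hbnd : ∀ {p q r s : ℝ}, p < δ → q ≤ s → r < δ → 0 ≤ q → 0 ≤ s → ∀ t, t + s = N → 0 ≤ t →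
      p * q + t * r ≤ min 1 η / 8 := by
    intro p q r s hp hq hr hq0 hs t ht ht0
    calc p * q + t * r ≤ δ * s + t * δ := add_le_add (mul_le_mul hp.le hq hq0 hδ0.le)
          (mul_le_mul_of_nonneg_left hr.le ht0)
      _ = δ * N := by rw [← ht]; ring
      _ ≤ _ := hδN
  have hab2 : ∑' k, ‖(∑' h, a h * b0 (h⁻¹ * k)) - ∑' h, U h * V (h⁻¹ * k)‖ ≤ min 1 η / 8 :=
    hab.2.trans (hbnd had hbN hbd (tsum_nonneg fun _ => norm_nonneg _) hNV _ rfl hNU)
  have hba2 : ∑' k, ‖(∑' h, b0 h * a (h⁻¹ * k)) - ∑' h, V h * U (h⁻¹ * k)‖ ≤ min 1 η / 8 :=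
    hba.2.trans (hbnd hbd haN had (tsum_nonneg fun _ => norm_nonneg _) hNU _
      (by rw [hN, add_comm]) hNV)
  -- the weight
  let S : Finset G := insert 1 (Sa ∪ Sb ∪ ((Sa ×ˢ Sb).image (fun p => p.1 * p.2)) ∪
    ((Sb ×ˢ Sa).image (fun p => p.1 * p.2)))
  set M := 1 + ∑ z ∈ S, L z with hM
  have hM0 : 0 < M := by
    have : 0 ≤ ∑ z ∈ S, L z := Finset.sum_nonneg fun z _ => hL0 z
    rw [hM]; linarith
  have hLM : ∀ z ∈ S, L z ≤ M := by
    intro z hz
    have h1 := Finset.single_le_sum (f := L) (fun z _ => hL0 z) hz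
    rw [hM]; linarith
  set ε := Real.log 2 / M with hε
  have hε0 : 0 < ε := div_pos (Real.log_pos (by norm_num)) hM0
  set u : G → ℝ := fun g => ε * L g with hu_def
  have hu : ∀ g h, u (g * h) ≤ u g + u h := by
    intro g h
    simp only [hu_def]
    rw [← mul_add]
    exact mul_le_mul_of_nonneg_left (hL g h) hε0.le
  have hu0 : ∀ g, 0 ≤ u g := fun g => mul_nonneg hε0.le (hL0 g)
  have hu2 : ∀ z ∈ S, Real.exp (u z) ≤ 2 := by
    intro z hz
    have h1 : u z ≤ Real.log 2 := by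
      simp only [hu_def]
      calc ε * L z ≤ ε * M := mul_le_mul_of_nonneg_left (hLM z hz) hε0.le
        _ = Real.log 2 := by rw [hε]; field_simp
    calc Real.exp (u z) ≤ Real.exp (Real.log 2) := Real.exp_le_exp.mpr h1
      _ = 2 := Real.exp_log (by norm_num)
  have h1S : (1 : G) ∈ S := Finset.mem_insert_self _ _
  have hSa : ∀ x ∈ Sa, x ∈ S := fun x hx => Finset.mem_insert_of_mem
    (Finset.mem_union_left _ (Finset.mem_union_left _ (Finset.mem_union_left _ hx)))
  have hSb : ∀ x ∈ Sb, x ∈ S := fun x hx => Finset.mem_insert_of_mem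
    (Finset.mem_union_left _ (Finset.mem_union_left _ (Finset.mem_union_right _ hx)))
  have hSab : ∀ x ∈ Sa, ∀ y ∈ Sb, x * y ∈ S := fun x hx y hy => Finset.mem_insert_of_mem
    (Finset.mem_union_left _ (Finset.mem_union_right _ (Finset.mem_image.mpr
      ⟨(x, y), Finset.mem_product.mpr ⟨hx, hy⟩, rfl⟩)))
  have hSba : ∀ x ∈ Sb, ∀ y ∈ Sa, x * y ∈ S := fun x hx y hy => Finset.mem_insert_of_mem
    (Finset.mem_union_right _ (Finset.mem_image.mpr
      ⟨(x, y), Finset.mem_product.mpr ⟨hx, hy⟩, rfl⟩))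
  have hpw1 : pw u hu (1 : G) (1 : D) = 1 := by
    refine CrossedData.op_ext fun v k => ?_
    rw [pw_co, inv_one, one_mul, one_mul, sub_self, ex_zero, one_smul]
    rfl
  -- products of finite sums of elementary operators
  have hprod : ∀ (S1 S2 : Finset G) (f g : G → D), (∀ x ∉ S2, g x = 0) →
      (∀ x ∈ S1, ∀ y ∈ S2, x * y ∈ S) →
      (∑ x ∈ S1, pw u hu x (f x)) * (∑ y ∈ S2, pw u hu y (g y)) =
        ∑ z ∈ S, pw u hu z (∑ x ∈ S1, f x * g (x⁻¹ * z)) := by
    intro S1 S2 f g hg hS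
    have h2 : ∀ z, pw u hu z (∑ x ∈ S1, f x * g (x⁻¹ * z)) =
        ∑ x ∈ S1, pw u hu z (f x * g (x⁻¹ * z)) := fun z =>
      map_sum (pwL u hu z) (fun x => f x * g (x⁻¹ * z)) S1
    simp only [h2]
    rw [Finset.sum_comm, Finset.sum_mul]
    refine Finset.sum_congr rfl fun x hx => ?_
    rw [Finset.mul_sum]
    have h3 : ∑ y ∈ S2, pw u hu x (f x) * pw u hu y (g y) =
        ∑ y ∈ S2, pw u hu (x * y) (f x * g (x⁻¹ * (x * y))) := by
      refine Finset.sum_congr rfl fun y hy => ?_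
      rw [pw_mul, inv_mul_cancel_left]
    rw [h3]
    have h4 : ∑ y ∈ S2, pw u hu (x * y) (f x * g (x⁻¹ * (x * y))) =
        ∑ z ∈ S2.image (fun y => x * y), pw u hu z (f x * g (x⁻¹ * z)) := by
      rw [Finset.sum_image]
      intro y _ y' _ h
      exact mul_left_cancel h
    rw [h4]
    refine Finset.sum_subset ?_ ?_
    · intro z hz
      obtain ⟨y, hy, rfl⟩ := Finset.mem_image.mp hz
      exact hS x hx y hy
    · intro z _ hz
      have h5 : x⁻¹ * z ∉ S2 := fun h => hz (Finset.mem_image.mpr ⟨x⁻¹ * z, h, by group⟩)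
      rw [hg _ h5, mul_zero]
      exact (pwL u hu z).map_zero
  have hone : (1 : L1 G D →L[ℂ] L1 G D) = ∑ z ∈ S, pw u hu z (cone G D z) := by
    rw [Finset.sum_eq_single_of_mem 1 h1S]
    · simp [cone, hpw1]
    · intro z _ hz
      simp only [cone, hz, ↓reduceIte]
      exact (pwL u hu z).map_zero
  have hnear : ∀ (S1 S2 : Finset G) (f g : G → D), (∀ x ∉ S1, f x = 0) → (∀ x ∉ S2, g x = 0) →
      (∀ x ∈ S1, ∀ y ∈ S2, x * y ∈ S) →
      (Summable fun k => ‖(∑' h, f h * g (h⁻¹ * k)) - cone G D k‖) →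
      ∑' k, ‖(∑' h, f h * g (h⁻¹ * k)) - cone G D k‖ ≤ min 1 η / 8 →
      ‖1 - (∑ x ∈ S1, pw u hu x (f x)) * (∑ y ∈ S2, pw u hu y (g y))‖ < 1 := by
    intro S1 S2 f g hf hg hS hs hle
    rw [hprod S1 S2 f g hg hS, hone, ← Finset.sum_sub_distrib]
    have h1 : ∀ z, pw u hu z (cone G D z) - pw u hu z (∑ x ∈ S1, f x * g (x⁻¹ * z)) =
        pw u hu z (cone G D z - ∑ x ∈ S1, f x * g (x⁻¹ * z)) := fun z =>
      ((pwL u hu z).map_sub _ _).symm
    simp only [h1]
    have h2 : ∀ z, ∑ x ∈ S1, f x * g (x⁻¹ * z) = ∑' h, f h * g (h⁻¹ * z) := by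
      intro z
      rw [tsum_eq_sum (s := S1)]
      intro x hx
      rw [hf x hx, zero_mul]
    refine (norm_sum_le _ _).trans_lt ?_
    have h3 : ∑ z ∈ S, ‖pw u hu z (cone G D z - ∑ x ∈ S1, f x * g (x⁻¹ * z))‖ ≤
        ∑ z ∈ S, 2 * ‖(∑' h, f h * g (h⁻¹ * z)) - cone G D z‖ := by
      refine Finset.sum_le_sum fun z hz => (pw_norm u hu z _).trans ?_
      rw [h2, norm_sub_rev]
      exact mul_le_mul_of_nonneg_right (hu2 z hz) (norm_nonneg _)
    refine h3.trans_lt ?_
    rw [← Finset.mul_sum]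
    have h4 := hs.sum_le_tsum S fun _ _ => norm_nonneg _
    have h5 : min 1 η ≤ 1 := min_le_left _ _
    linarith
  set pa := ∑ x ∈ Sa, pw u hu x (a x) with hpa
  set pb := ∑ x ∈ Sb, pw u hu x (b0 x) with hpb
  have hpa_mem : pa ∈ wclos u hu := Submodule.sum_mem _ fun x _ => pw_mem u hu _ _
  have hpb_mem : pb ∈ wclos u hu := Submodule.sum_mem _ fun x _ => pw_mem u hu _ _
  have hone_mem : (1 : L1 G D →L[ℂ] L1 G D) ∈ wclos u hu := by
    rw [← hpw1]; exact pw_mem u hu _ _
  simp only [hUV] at hab2 hab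
  simp only [hVU] at hba2 hba
  have hn1 : ‖1 - pa * pb‖ < 1 := hnear Sa Sb a b0 haS hbS hSab hab.1 hab2
  have hn2 : ‖1 - pb * pa‖ < 1 := hnear Sb Sa b0 a hbS haS hSba hba.1 hba2
  -- inverses in the weighted algebra
  have hinv : ∀ z : L1 G D →L[ℂ] L1 G D, z ∈ wclos u hu → ‖1 - z‖ < 1 →
      ∃ t ∈ wclos u hu, z * t = 1 ∧ t * z = 1 := by
    intro z hz hzn
    set t := 1 - z with ht
    have htm : t ∈ wclos u hu := Submodule.sub_mem _ hone_mem hz
    have hpow : ∀ n : ℕ, t ^ n ∈ wclos u hu := by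
      intro n
      induction n with
      | zero => rw [pow_zero]; exact hone_mem
      | succ n ih => rw [pow_succ]; exact mul_mem_wclos u hu ih htm
    have hts : Summable fun n : ℕ => t ^ n := summable_geometric_of_norm_lt_one hzn
    refine ⟨∑' n : ℕ, t ^ n, (wclos_closed u hu).mem_of_tendsto hts.hasSum
      (Filter.Eventually.of_forall fun F => Submodule.sum_mem _ fun n _ => hpow n), ?_, ?_⟩
    · have := mul_neg_geom_series t hzn
      rwa [ht, sub_sub_cancel] at this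
    · have := geom_series_mul_neg t hzn
      rwa [ht, sub_sub_cancel] at this
  obtain ⟨t1, ht1m, ht1, -⟩ := hinv _ (mul_mem_wclos u hu hpa_mem hpb_mem) hn1
  obtain ⟨t2, ht2m, -, ht2⟩ := hinv _ (mul_mem_wclos u hu hpb_mem hpa_mem) hn2
  set B := pb * t1 with hB
  have hBm : B ∈ wclos u hu := mul_mem_wclos u hu hpb_mem ht1m
  have hB1 : pa * B = 1 := by rw [hB, ← mul_assoc]; exact ht1
  have hB2 : B * pa = 1 := by
    have h1 : t2 * pb * pa = 1 := by rw [mul_assoc]; exact ht2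
    have h2 : t2 * pb = B := by
      calc t2 * pb = t2 * pb * (pa * B) := by rw [hB1, mul_one]
        _ = (t2 * pb * pa) * B := by noncomm_ring
        _ = B := by rw [h1, one_mul]
    rw [← h2]; exact h1
  have hcfa : ∀ k, cf u pa k = a k := by
    intro k
    have h1 : ∀ T : Finset G, cf u (∑ x ∈ T, pw u hu x (a x)) k =
        ∑ x ∈ T, if k = x then a x else 0 := by
      intro T
      induction T using Finset.induction_on with
      | empty => rw [Finset.sum_empty, Finset.sum_empty, cf_zero]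
      | insert c T hc ih =>
        rw [Finset.sum_insert hc, Finset.sum_insert hc, cf_add, ih, cf_pw]
    rw [hpa, h1, Finset.sum_ite_eq]
    split_ifs with h2
    · rfl
    · exact (haS k h2).symm
  have hcf1 : ∀ k, cf u (1 : L1 G D →L[ℂ] L1 G D) k = cone G D k := by
    intro k
    rw [← hpw1, cf_pw]
    rfl
  have hweight : ∀ X : L1 G D →L[ℂ] L1 G D,
      Summable fun k => ‖cf u X k‖ * Real.exp (ε * L k) := by
    intro X
    have h1 : ∀ k, ‖cf u X k‖ * Real.exp (ε * L k) =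
        Real.exp (u 1) * ‖(X CrossedData.del).co k‖ := fun k => cf_norm u X k
    simp only [h1]
    exact (X CrossedData.del).summable_norm.mul_left _
  -- the factor `w`
  have hws : Summable fun k => ‖∑' h, V h * a (h⁻¹ * k)‖ := by
    have := (conv_sub_le (U := fun _ => (0 : D)) (V := fun _ => (0 : D)) (by simp) (by simp)
      hV has).1
    simpa using this
  have hwd := conv_sub_le hV hU hV has
  simp only [hVU] at hwd
  refine ⟨ε, hε0, a, cf u B, fun k => ∑' h, V h * a (h⁻¹ * k), ?_, hweight B, ?_, ?_, hws, ?_,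
    hwd.1, ?_⟩
  · have := hweight pa
    simpa only [hcfa] using this
  · intro k
    have := cf_mul u hu hpa_mem B k
    rw [hB1, hcf1] at this
    simp only [hcfa] at this
    exact this.symm
  · intro k
    have := cf_mul u hu hBm pa k
    rw [hB2, hcf1] at this
    simp only [hcfa] at this
    exact this.symm
  · intro k
    rw [conv_assoc hU hV has]
    simp only [hUV]
    exact cone_conv a k
  · refine hwd.2.trans_lt ?_
    have h1 : ∑' g, ‖V g - V g‖ = 0 := by simp
    rw [h1, zero_mul, zero_add]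
    have h2 : (∑' g, ‖V g‖) * ∑' g, ‖a g - U g‖ ≤ N * δ := by
      refine mul_le_mul (by rw [hN]; linarith) had.le (tsum_nonneg fun _ => norm_nonneg _) ?_
      rw [hN]; linarith
    have h3 : min 1 η ≤ η := min_le_right _ _
    rw [mul_comm] at hδN
    linarith

end Conv

section Mat

attribute [local instance] Matrix.linftyOpNormedRing Matrix.linftyOpNormedAlgebra

variable {G : Type*} [Group G]

omit [Group G] in
theorem toFn_summable' {q : ℕ} {a : Mat G q} (ha : InL1 a) : Summable fun g => ‖toFn a g‖ := by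
  refine Summable.of_nonneg_of_le (fun _ => norm_nonneg _) (fun g => mat_norm_le (toFn a g)) ?_
  exact summable_sum fun i _ => summable_sum fun j _ => ha i j

theorem toFn_mul {q : ℕ} {a b : Mat G q} (ha : InL1 a) (hb : InL1 b) (k : G) :
    ∑' h, toFn a h * toFn b (h⁻¹ * k) = toFn (mul a b) k := by
  ext i j
  have hs : Summable fun h => toFn a h * toFn b (h⁻¹ * k) := by
    refine Summable.of_norm_bounded ((toFn_summable' ha).mul_right (∑' g, ‖toFn b g‖)) fun h => ?_
    refine (norm_mul_le _ _).trans (mul_le_mul_of_nonneg_left ?_ (norm_nonneg _))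
    exact (toFn_summable' hb).le_tsum _ fun _ _ => norm_nonneg _
  rw [entry_tsum hs]
  have h1 : ∀ h, (toFn a h * toFn b (h⁻¹ * k)) i j = ∑ l, a i l h * b l j (h⁻¹ * k) := by
    intro h
    rw [Matrix.mul_apply]; rfl
  rw [tsum_congr h1, Summable.tsum_finsetSum]
  · rfl
  · intro l _
    refine Summable.of_norm_bounded ((ha i l).mul_right (∑' g, ‖b l j g‖)) fun h => ?_
    rw [norm_mul]
    refine mul_le_mul_of_nonneg_left ?_ (norm_nonneg _)
    exact (hb l j).le_tsum _ fun _ _ => norm_nonneg _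

theorem toFn_unit (q : ℕ) (g : G) :
    toFn (unit G q) g = cone G (Matrix (Fin q) (Fin q) ℂ) g := by
  ext i j
  by_cases hg : g = 1
  · by_cases hij : i = j
    · subst hij
      simp [toFn, unit, cone, hg]
    · simp [toFn, unit, cone, hg, hij]
  · simp [toFn, unit, cone, hg]

/-- the matrix of functions associated with a matrix valued function -/
def ofFn {q : ℕ} (E : G → Matrix (Fin q) (Fin q) ℂ) : Mat G q := Matrix.of fun i j => fun g => E g i j

omit [Group G] in
theorem toFn_ofFn {q : ℕ} (E : G → Matrix (Fin q) (Fin q) ℂ) (g : G) : toFn (ofFn E) g = E g := rfl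

omit [Group G] in
theorem mat_ext {q : ℕ} {a b : Mat G q} (h : ∀ g, toFn a g = toFn b g) : a = b := by
  funext i j g
  have := congrFun (congrFun (h g) i) j
  exact this

omit [Group G] in
theorem inL1_ofFn {q : ℕ} {E : G → Matrix (Fin q) (Fin q) ℂ} (hE : Summable fun g => ‖E g‖) :
    InL1 (ofFn E) := fun i j =>
  Summable.of_nonneg_of_le (fun _ => norm_nonneg _) (fun g => norm_entry_le (E g) i j) hE

omit [Group G] in
theorem expDecay_ofFn {q : ℕ} {E : G → Matrix (Fin q) (Fin q) ℂ} {L : G → ℝ} {ε : ℝ} (hε : 0 < ε)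
    (hE : Summable fun g => ‖E g‖ * Real.exp (ε * L g)) : ExpDecay L (ofFn E) :=
  ⟨ε, hε, fun i j => Summable.of_nonneg_of_le (fun g => by positivity)
    (fun g => mul_le_mul_of_nonneg_right (norm_entry_le (E g) i j) (Real.exp_pos _).le) hE⟩

theorem mul_ofFn {q : ℕ} {E F : G → Matrix (Fin q) (Fin q) ℂ} (hE : Summable fun g => ‖E g‖)
    (hF : Summable fun g => ‖F g‖) : mul (ofFn E) (ofFn F) = ofFn fun k => ∑' h, E h * F (h⁻¹ * k) := by
  refine mat_ext fun g => ?_
  rw [← toFn_mul (inL1_ofFn hE) (inL1_ofFn hF)]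
  rfl

/-- Every class in `K_1(ℓ¹(G))` is represented by an invertible matrix which decays exponentially
together with its inverse. -/
theorem exists_rep (L : G → ℝ) (hL0 : ∀ g, 0 ≤ L g) (hL : ∀ g h, L (g * h) ≤ L g + L h) {q : ℕ}
    (u u' : Mat G q) (hu : IsInv u u') :
    ∃ v v' w : Mat G q, IsInv v v' ∧ ExpDecay L v ∧ ExpDecay L v' ∧ InL1 w ∧ v = mul u w ∧
      ∑ i, ∑ j, ∑' g, ‖(w - unit G q) i j g‖ < 1 := by
  obtain ⟨h1, h2, h3, h4⟩ := hu
  rcases Nat.eq_zero_or_pos q with hq | hq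
  · subst hq
    exact ⟨u, u', u, ⟨h1, h2, h3, h4⟩, ⟨1, one_pos, fun i => i.elim0⟩,
      ⟨1, one_pos, fun i => i.elim0⟩, fun i => i.elim0, funext fun i => i.elim0, by simp⟩
  have hne : Nonempty (Fin q) := ⟨⟨0, hq⟩⟩
  have hη : (0 : ℝ) < 1 / (q * q + 1) := by positivity
  obtain ⟨ε, hε, a, b, w, haw, hbw, hab, hba, hws, hUw, hwd, hwη⟩ :=
    exists_inv_decay L hL0 hL (toFn_summable' h1) (toFn_summable' h2)
      (fun k => (toFn_mul h1 h2 k).trans (by rw [h3, toFn_unit]))
      (fun k => (toFn_mul h2 h1 k).trans (by rw [h4, toFn_unit])) hη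
  have hexp : ∀ g, 1 ≤ Real.exp (ε * L g) := fun g => Real.one_le_exp (mul_nonneg hε.le (hL0 g))
  have has : Summable fun g => ‖a g‖ := Summable.of_nonneg_of_le (fun _ => norm_nonneg _)
    (fun g => le_mul_of_one_le_right (norm_nonneg _) (hexp g)) haw
  have hbs : Summable fun g => ‖b g‖ := Summable.of_nonneg_of_le (fun _ => norm_nonneg _)
    (fun g => le_mul_of_one_le_right (norm_nonneg _) (hexp g)) hbw
  refine ⟨ofFn a, ofFn b, ofFn w, ⟨inL1_ofFn has, inL1_ofFn hbs, ?_, ?_⟩, expDecay_ofFn hε haw,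
    expDecay_ofFn hε hbw, inL1_ofFn hws, ?_, ?_⟩
  · rw [mul_ofFn has hbs]
    refine mat_ext fun g => ?_
    rw [toFn_ofFn, toFn_unit]
    exact hab g
  · rw [mul_ofFn hbs has]
    refine mat_ext fun g => ?_
    rw [toFn_ofFn, toFn_unit]
    exact hba g
  · refine mat_ext fun g => ?_
    rw [← toFn_mul h1 (inL1_ofFn hws), toFn_ofFn]
    exact (hUw g).symm
  · have h5 : ∀ i j : Fin q, ∑' g, ‖(ofFn w - unit G q) i j g‖ ≤
        ∑' g, ‖w g - cone G (Matrix (Fin q) (Fin q) ℂ) g‖ := by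
      intro i j
      have h6 : ∀ g, ‖(ofFn w - unit G q) i j g‖ ≤
          ‖w g - cone G (Matrix (Fin q) (Fin q) ℂ) g‖ := by
        intro g
        have h7 : (ofFn w - unit G q) i j g = (w g - cone G (Matrix (Fin q) (Fin q) ℂ) g) i j := by
          rw [← toFn_unit]
          rfl
        rw [h7]
        exact norm_entry_le _ i j
      exact (Summable.of_nonneg_of_le (fun _ => norm_nonneg _) h6 hwd).tsum_le_tsum h6 hwd
    calc ∑ i, ∑ j, ∑' g, ‖(ofFn w - unit G q) i j g‖
        ≤ ∑ _i : Fin q, ∑ _j : Fin q, ∑' g, ‖w g - cone G (Matrix (Fin q) (Fin q) ℂ) g‖ :=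
          Finset.sum_le_sum fun i _ => Finset.sum_le_sum fun j _ => h5 i j
      _ = (q * q) * ∑' g, ‖w g - cone G (Matrix (Fin q) (Fin q) ℂ) g‖ := by
          simp only [Finset.sum_const, Finset.card_univ, Fintype.card_fin, nsmul_eq_mul]
          ring
      _ ≤ (q * q) * (1 / (q * q + 1)) :=
          mul_le_mul_of_nonneg_left hwη.le (by positivity)
      _ < 1 := by
          rw [mul_one_div, div_lt_one (by positivity)]
          linarith

end Mat

end Vale.Agent.P184.A
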