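import Mathlib
import Vale.Agent.P184.Bdl.B5

/-!
# The combinatorial lemma with error terms, and the pairing with cochains which are not closed
-/

noncomputable section

namespace Vale.Agent.P184

open Finset

/-- The combinatorial lemma, with the error term. -/
theorem comb_const {N a : ℕ} (hN : Even N) (ha : Odd a) (hlt : a < N + 1) :
    ∃ c : ℂ, ∀ (Y : Finset (Fin (N + 1)) → ℂ) (z : ℂ),
    (∀ s : Finset (Fin (N + 1)), s.card = a → Y (rt s) = Y s) →
    (∀ s : Finset (Fin (N + 2)), s.card = a →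
      ∑ j ∈ sᶜ, (-1 : ℂ) ^ (j : ℕ) * Y (dl j s) = -(eta s * z)) →
    z = c * ∑ s ∈ powersetCard (a + 1) (univ : Finset (Fin (N + 2))),
      (∑ k ∈ sᶜ, (-1 : ℂ) ^ (k : ℕ)) * ∑ i ∈ s, (-1 : ℂ) ^ (i : ℕ) * Y (dl i s) := by
  obtain ⟨M, hM⟩ : ∃ M, N + 2 = 2 * M := by
    obtain ⟨r, hr⟩ := hN
    exact ⟨r + 1, by omega⟩
  obtain ⟨m, rfl⟩ := ha
  set a := 2 * m + 1 with haa
  have hK := sum_eta_mul (M := M) (m := m) (by omega)
  set K : ℂ := (2 * M - 2 * m) * ((-1) ^ m * (M.choose m : ℂ)) with hKd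
  have hK0 : K ≠ 0 := by
    refine mul_ne_zero ?_ (mul_ne_zero (pow_ne_zero _ (by norm_num)) ?_)
    · have : (2 * (M : ℂ) - 2 * m) = ((2 * M - 2 * m : ℕ) : ℂ) := by
        rw [Nat.cast_sub (by omega)]; push_cast; rfl
      rw [this, Nat.cast_ne_zero]
      omega
    · rw [Nat.cast_ne_zero]
      exact (Nat.choose_pos (by omega)).ne'
  set κ : ℂ := ∑ k : Fin (N + 1), (if Even (k : ℕ) then (-2 : ℂ) else 0) with hκ
  have hκ0 : κ ≠ 0 := by
    rw [hκ, ← Finset.sum_filter, Finset.sum_const, nsmul_eq_mul]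
    refine mul_ne_zero ?_ (by norm_num)
    rw [Nat.cast_ne_zero]
    refine (Finset.card_pos.2 ⟨0, ?_⟩).ne'
    simp only [mem_filter, mem_univ, Fin.coe_ofNat_eq_mod, Nat.zero_mod, Even.zero, and_self]
  have hna : ((N : ℂ) + 1 - a) ≠ 0 := by
    have : ((N : ℂ) + 1 - a) = ((N + 1 - a : ℕ) : ℂ) := by
      rw [Nat.cast_sub hlt.le]; push_cast; rfl
    rw [this, Nat.cast_ne_zero]
    omega
  -- the constant
  refine ⟨-(K⁻¹) * (κ * ((N + 1) / (N + 1 - a) * κ⁻¹ - κ⁻¹)), fun Y z hC hD => ?_⟩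
  set P := powersetCard a (univ : Finset (Fin (N + 1))) with hP
  set ρ := ∑ s ∈ powersetCard (a + 1) (univ : Finset (Fin (N + 2))),
      (∑ k ∈ sᶜ, (-1 : ℂ) ^ (k : ℕ)) * ∑ i ∈ s, (-1 : ℂ) ^ (i : ℕ) * Y (dl i s) with hρ
  -- the sums over the sets not containing `k`
  set w : Fin (N + 1) → ℂ := fun k => ∑ t ∈ P, if k ∈ t then 0 else Y t with hw
  have hrot : ∀ k, w (finRotate (N + 1) k) = w k := by
    intro k
    simp only [hw]
    refine Finset.sum_bij' (fun s _ => rt s)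
      (fun s _ => s.map (finRotate (N + 1)).toEmbedding) ?_ ?_ ?_ ?_ ?_
    · intro s hs
      rw [hP, Finset.mem_powersetCard] at hs ⊢
      exact ⟨Finset.subset_univ _, by rw [card_rt, hs.2]⟩
    · intro s hs
      rw [hP, Finset.mem_powersetCard] at hs ⊢
      exact ⟨Finset.subset_univ _, by rw [Finset.card_map, hs.2]⟩
    · intro s _
      ext j
      rw [Finset.mem_map_equiv, mem_rt, Equiv.apply_symm_apply]
    · intro s _
      ext j
      rw [mem_rt, Finset.mem_map_equiv, Equiv.symm_apply_apply]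
    · intro s hs
      rw [hP, Finset.mem_powersetCard] at hs
      rw [hC s hs.2]
      simp only [mem_rt]
  have hw0 : ∀ k, w k = w 0 := by
    intro k
    refine Fin.induction rfl (fun l ih => ?_) k
    rw [← ih, ← hrot l.castSucc]
    congr 1
    apply Fin.ext
    rw [coe_finRotate_of_ne_last (Fin.castSucc_lt_last l).ne]
    simp
  -- first weight
  have hA : ∑ k : Fin (N + 1), (if Even (k : ℕ) then (-2 : ℂ) else 0) * w k = ρ := by
    have h1 : ∑ s ∈ powersetCard (a + 1) (univ : Finset (Fin (N + 2))), ∑ i ∈ s,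
        (∑ k ∈ sᶜ, (-1 : ℂ) ^ (k : ℕ)) * ((-1 : ℂ) ^ (i : ℕ) * Y (dl i s)) = ρ := by
      rw [hρ]
      refine Finset.sum_congr rfl fun s hs => ?_
      rw [← Finset.mul_sum]
    rw [sum_mem (a := a) fun s i => (∑ k ∈ sᶜ, (-1 : ℂ) ^ (k : ℕ)) *
      ((-1 : ℂ) ^ (i : ℕ) * Y (dl i s))] at h1
    refine Eq.trans ?_ h1
    simp only [hw, Finset.mul_sum]
    rw [Finset.sum_comm]
    refine Finset.sum_congr rfl fun t _ => ?_
    have h2 : ∀ i : Fin (N + 2), ∑ k ∈ (insert i (up i t))ᶜ, (-1 : ℂ) ^ (k : ℕ) =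
        ∑ k ∈ tᶜ, (-1 : ℂ) ^ ((i.succAbove k : Fin (N + 2)) : ℕ) := by
      intro i
      have h3 : (insert i (up i t))ᶜ = (tᶜ).map i.succAboveEmb := by
        ext k
        rcases Fin.eq_self_or_eq_succAbove i k with rfl | ⟨l, rfl⟩
        · simp
        · rw [Finset.mem_compl, Finset.mem_insert, succAbove_mem_up]
          simp [Fin.succAbove_ne]
      rw [h3, Finset.sum_map]
      rfl
    simp only [dl_insert, dl_up, h2, Finset.sum_mul]
    rw [Finset.sum_comm (s := (Finset.univ : Finset (Fin (N + 2))))]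
    rw [← Finset.sum_compl_add_sum t (fun k : Fin (N + 1) => (if Even (k : ℕ) then (-2 : ℂ) else 0) *
      if k ∈ t then 0 else Y t), Finset.sum_eq_zero (s := t), add_zero]
    · refine Finset.sum_congr rfl fun k hk => ?_
      rw [if_neg (Finset.mem_compl.1 hk), ← sum_sign hN.add_one k, Finset.sum_mul]
      refine Finset.sum_congr rfl fun i _ => ?_
      ring
    · intro k hk
      rw [if_pos hk, mul_zero]
  have hw1 : ∀ k, w k = κ⁻¹ * ρ := by
    have h1 : κ * w 0 = ρ := by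
      rw [hκ, Finset.sum_mul]
      refine Eq.trans ?_ hA
      exact Finset.sum_congr rfl fun k _ => by rw [hw0 k]
    intro k
    rw [hw0, ← h1, inv_mul_cancel_left₀ hκ0]
  have hT : ∑ t ∈ P, Y t = (N + 1) / (N + 1 - a) * (κ⁻¹ * ρ) := by
    have h1 : ∑ k, w k = (N + 1 - a) * ∑ t ∈ P, Y t := by
      simp only [hw]
      rw [Finset.sum_comm, Finset.mul_sum]
      refine Finset.sum_congr rfl fun t ht => ?_
      rw [← Finset.sum_compl_add_sum t, Finset.sum_eq_zero (s := t), add_zero]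
      · rw [Finset.sum_congr rfl fun k hk => if_neg (Finset.mem_compl.1 hk), Finset.sum_const,
          Finset.card_compl, Fintype.card_fin, (Finset.mem_powersetCard.1 ht).2, nsmul_eq_mul,
          Nat.cast_sub hlt.le]
        push_cast
        rfl
      · intro k hk
        rw [if_pos hk]
    simp only [hw1, Finset.sum_const, Finset.card_univ, Fintype.card_fin, nsmul_eq_mul] at h1
    rw [div_mul_eq_mul_div, eq_div_iff hna]
    rw [mul_comm, ← h1]
    push_cast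
    ring
  -- second weight
  have hB : ∑ s ∈ powersetCard a (univ : Finset (Fin (N + 2))),
      (∑ k ∈ s, (-1 : ℂ) ^ (k : ℕ)) * -(eta s * z) =
      κ * ((N + 1) / (N + 1 - a) * (κ⁻¹ * ρ) - κ⁻¹ * ρ) := by
    have h1 : ∑ s ∈ powersetCard a (univ : Finset (Fin (N + 2))),
        (∑ k ∈ s, (-1 : ℂ) ^ (k : ℕ)) * -(eta s * z) =
        ∑ s ∈ powersetCard a (univ : Finset (Fin (N + 2))), ∑ j ∈ sᶜ,
        (∑ k ∈ s, (-1 : ℂ) ^ (k : ℕ)) * ((-1 : ℂ) ^ (j : ℕ) * Y (dl j s)) := by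
      refine Finset.sum_congr rfl fun s hs => ?_
      rw [← hD s (Finset.mem_powersetCard.1 hs).2, Finset.mul_sum]
    rw [h1, sum_not_mem fun s j => (∑ k ∈ s, (-1 : ℂ) ^ (k : ℕ)) *
      ((-1 : ℂ) ^ (j : ℕ) * Y (dl j s))]
    have h2 : ∀ t ∈ P, ∑ j : Fin (N + 2), (∑ k ∈ up j t, (-1 : ℂ) ^ (k : ℕ)) *
        ((-1 : ℂ) ^ (j : ℕ) * Y (dl j (up j t))) =
        ∑ k : Fin (N + 1), (if Even (k : ℕ) then (-2 : ℂ) else 0) *
          (Y t - if k ∈ t then 0 else Y t) := by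
      intro t _
      have h3 : ∀ j : Fin (N + 2), ∑ k ∈ up j t, (-1 : ℂ) ^ (k : ℕ) =
          ∑ k ∈ t, (-1 : ℂ) ^ ((j.succAbove k : Fin (N + 2)) : ℕ) := by
        intro j
        unfold up
        rw [Finset.sum_map]
        rfl
      simp only [dl_up, h3, Finset.sum_mul]
      rw [Finset.sum_comm, ← Finset.sum_add_sum_compl t, Finset.sum_eq_zero (s := tᶜ), add_zero]
      · refine Finset.sum_congr rfl fun k hk => ?_
        rw [if_pos hk, sub_zero, ← sum_sign hN.add_one k, Finset.sum_mul]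
        refine Finset.sum_congr rfl fun i _ => ?_
        ring
      · intro k hk
        rw [if_neg (Finset.mem_compl.1 hk), sub_self, mul_zero]
    rw [Finset.sum_congr rfl h2, Finset.sum_comm, hκ, Finset.sum_mul]
    refine Finset.sum_congr rfl fun k _ => ?_
    rw [← Finset.mul_sum, Finset.sum_sub_distrib, hT]
    have h4 := hw1 k
    simp only [hw] at h4
    rw [h4]
  have hB' : (∑ s ∈ powersetCard (2 * m + 1) (univ : Finset (Fin (N + 2))),
      eta s * ∑ k ∈ s, (-1 : ℂ) ^ (k : ℕ)) * z =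
      -(κ * ((N + 1) / (N + 1 - a) * (κ⁻¹ * ρ) - κ⁻¹ * ρ)) := by
    rw [Finset.sum_mul, ← hB, ← Finset.sum_neg_distrib]
    refine Finset.sum_congr rfl fun s _ => ?_
    ring
  rw [hM, hK] at hB'
  have h9 : z = K⁻¹ * (K * z) := (inv_mul_cancel_left₀ hK0 z).symm
  rw [h9, hB']
  ring

namespace DData

variable {G : Type*} [Group G] {D : Type*} [NormedRing D] [NormedAlgebra ℂ D] {A : DData G D}

variable [CompleteSpace D]

/-- relation (R) with the error term -/
theorem word_Re {M m k : ℕ} {F : (Fin m → G) → ℝ} {ψ : (Fin k → G) → ℝ} (hF : A.Good F)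
    (hψ : A.Good ψ) {s : Finset (Fin (M + 2))} (hs : s.card = m + 1)
    (hs' : sᶜ.card = k) :
    ∑ l : Fin (m + 1), (-1 : ℂ) ^ (l : ℕ) * A.pr (word F ψ (dl (em s l) s)) =
      A.pr (fun p : Fin (M + 2) → G => cob F (fun i => p (em s i)) * ψ fun i => p (em sᶜ i)) := by
  have h1 : (fun p : Fin (M + 2) → G => ∑ l : Fin (m + 1), (-1 : ℝ) ^ (l : ℕ) *
      word F ψ (dl (em s l) s) fun i => p ((em s l).succAbove i)) =
      fun p : Fin (M + 2) → G => cob F (fun i => p (em s i)) * ψ fun i => p (em sᶜ i) := by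
    funext p
    have h2 : ∀ l : Fin (m + 1), (-1 : ℝ) ^ (l : ℕ) *
        (word F ψ (dl (em s l) s) fun i => p ((em s l).succAbove i)) =
        ((-1 : ℝ) ^ (l : ℕ) * F fun i => p (em s (l.succAbove i))) * ψ fun i => p (em sᶜ i) := by
      intro l
      have hl : (em s l : Fin (M + 2)) ∉ sᶜ := fun h => Finset.mem_compl.1 h (em_mem hs l)
      unfold word
      simp only [dl_compl, ← em_dl_mem hs l, ← em_dl hs' hl]
      ring
    rw [Finset.sum_congr rfl fun l _ => h2 l, ← Finset.sum_mul]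
    rfl
  rw [← h1]
  rw [pr_sum Finset.univ (F := fun (l : Fin (m + 1)) (p : Fin (M + 2) → G) => (-1 : ℝ) ^ (l : ℕ) *
      word F ψ (dl (em s l) s) fun i => p ((em s l).succAbove i))
      (fun l => ((word_good hF hψ _).comp _).smul _)]
  refine Finset.sum_congr rfl fun l _ => ?_
  rw [pr_smul, pr_del (em s l) (word_good hF hψ _)]
  push_cast
  rfl

theorem word_Re' {M m k : ℕ} {F : (Fin m → G) → ℝ} {ψ : (Fin k → G) → ℝ} (hF : A.Good F)
    (hψ : A.Good ψ) {s : Finset (Fin (M + 2))} (hs : s.card = m + 1)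
    (hs' : sᶜ.card = k) :
    ∑ i ∈ s, (-1 : ℂ) ^ (i : ℕ) * (eta (dl i s) * A.pr (word F ψ (dl i s))) =
      (-1) ^ m * eta s *
      A.pr (fun p : Fin (M + 2) → G => cob F (fun i => p (em s i)) * ψ fun i => p (em sᶜ i)) := by
  have h0 := word_Re hF hψ hs hs'
  let g : Fin (M + 2) → ℂ := fun i => (-1) ^ m * eta s *
    ((-1 : ℂ) ^ (i : ℕ) * (eta (dl i s) * A.pr (word F ψ (dl i s))))
  have h2 : ∀ l : Fin (m + 1), (-1 : ℂ) ^ (l : ℕ) * A.pr (word F ψ (dl (em s l) s)) =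
      g (em s l) := by
    intro l
    rw [sign_mem hs l]
    ring
  have h1 := (sum_em hs g).symm.trans ((Finset.sum_congr rfl fun l _ => (h2 l).symm).trans h0)
  rw [show (∑ i ∈ s, g i) = (-1) ^ m * eta s * ∑ i ∈ s, (-1 : ℂ) ^ (i : ℕ) *
    (eta (dl i s) * A.pr (word F ψ (dl i s))) from (Finset.mul_sum _ _ _).symm] at h1
  have h3 : (-1 : ℂ) ^ m * eta s * ((-1 : ℂ) ^ m * eta s) = 1 := by
    have h4 := eta_sq s
    have h5 : (-1 : ℂ) ^ m * (-1) ^ m = 1 := by rw [← pow_add, Even.neg_one_pow ⟨_, rfl⟩]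
    linear_combination (-1 : ℂ) ^ m * (-1 : ℂ) ^ m * h4 + h5
  rw [← h1, ← mul_assoc, h3, one_mul]

/-- The pairing of a cyclic cochain, not necessarily closed, is expressed by its coboundary, if
there is a cyclic cochain with coboundary `1`. -/
theorem pr_eq_words (m k : ℕ) : ∃ c : Finset (Fin (2 * m + 2 * k + 2 + 2)) → ℂ,
    ∀ {G : Type*} [Group G] {D : Type*} [NormedRing D] [NormedAlgebra ℂ D] [CompleteSpace D]
    {A : DData G D} {F : (Fin (2 * m + 1) → G) → ℝ} (_ : A.Good F)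
    (_ : ∀ p, F (Vale.Agent.P184.shf A.x p) = F p)
    {ψ : (Fin (2 * k + 2) → G) → ℝ} (_ : A.Good ψ)
    (_ : ∀ p, ψ (Vale.Agent.P184.shf A.x p) = - ψ p)
    (_ : ∀ p, cob ψ p = 1), A.pr F =
      ∑ s ∈ powersetCard (2 * m + 2) (univ : Finset (Fin (2 * m + 2 * k + 2 + 2))), c s *
        A.pr (fun p : Fin (2 * m + 2 * k + 2 + 2) → G =>
          cob F (fun i => p (em s i)) * ψ fun i => p (em sᶜ i)) := by
  obtain ⟨c, hc⟩ := comb_const (N := 2 * m + 2 * k + 2) (a := 2 * m + 1) ⟨m + k + 1, by ring⟩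
    ⟨m, rfl⟩ (by omega)
  refine ⟨fun s => c * ((∑ k ∈ sᶜ, (-1 : ℂ) ^ (k : ℕ)) * ((-1) ^ (2 * m + 1) * eta s)),
    fun {G} _ {D} _ _ _ {A} {F} hF hF1 {ψ} hψ hψ1 hψ0 => ?_⟩
  have h := hc (fun s => eta s * A.pr (word F ψ s)) (A.pr F) ?_ ?_
  · refine h.trans ?_
    rw [Finset.mul_sum]
    refine Finset.sum_congr rfl fun s hs => ?_
    have hs1 : s.card = 2 * m + 1 + 1 := (Finset.mem_powersetCard.1 hs).2
    have hs' : sᶜ.card = 2 * k + 2 := by
      rw [Finset.card_compl, hs1, Fintype.card_fin]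
      omega
    rw [word_Re' (M := 2 * m + 2 * k + 2) hF hψ hs1 hs']
    ring
  · intro s hs
    have hs' : sᶜ.card = 2 * k + 1 + 1 := by
      rw [Finset.card_compl, hs, Fintype.card_fin]
      omega
    exact word_C (m := 2 * m) (k := 2 * k + 1) ⟨m + k + 1, by ring⟩ ⟨m, by ring⟩ hF hψ hF1 hψ1
      hs hs'
  · intro s hs
    have hs' : sᶜ.card = 2 * k + 2 + 1 := by
      rw [Finset.card_compl, hs, Fintype.card_fin]
      omega
    have h0 : A.pr (fun p : Fin (2 * m + 2 * k + 2 + 2) → G => F fun i => p (em s i)) = A.pr F :=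
      pr_em (m := 2 * m) hF (2 * k + 3) s hs
    rw [← h0]
    exact word_D' (M := 2 * m + 2 * k + 2) ⟨m + 2 * k + 2, by ring⟩ hF hψ hψ0 hs hs'

end DData

end Vale.Agent.P184

end
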