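import Mathlib
import Vale.Agent.P184.R2.ADefs

/-!
# Definitions: the Chern character in cyclic homology, localised at a conjugacy class
-/

namespace Vale.Agent.P184.A

variable {G : Type*} [Group G]

/-- The chain `c` decays exponentially with respect to `L`. -/
def ExpChain (L : G → ℝ) {n : ℕ} (c : (Fin n → G) → ℂ) : Prop :=
  ∃ ε : ℝ, 0 < ε ∧ Summable fun g => ‖c g‖ * Real.exp (ε * ∑ i, L (g i))

/-- The image of the chain `c` under the map `f`. -/
noncomputable def push {α β : Type*} (f : α → β) (c : α → ℂ) (b : β) : ℂ := ∑' a : {a // f a = b}, c a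

/-- The Hochschild boundary of the chain `c` of degree `n + 1`. -/
noncomputable def bdy {n : ℕ} (c : (Fin (n + 2) → G) → ℂ) (g : Fin (n + 1) → G) : ℂ :=
  ∑ j : Fin (n + 1), (-1) ^ (j : ℕ) * push (fun p => j.castSucc.contractNth (· * ·) p) c g +
    (-1) ^ (n + 1) * push (fun p : Fin (n + 2) → G =>
      (Fin.cons (p (Fin.last (n + 1)) * p 0) fun i => p i.castSucc.succ : Fin (n + 1) → G)) c g

/-- The cyclic operator on the chains of degree `n`. -/
def cyc {n : ℕ} (c : (Fin (n + 1) → G) → ℂ) (g : Fin (n + 1) → G) : ℂ :=
  (-1) ^ n * c fun i => g (finRotate (n + 1) i)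

/-- The chain `c` of degree `n` is a boundary in the cyclic complex (chains modulo the image of
`1 - cyc`, with the boundary map `bdy`) of chains which decay exponentially with respect to `L`
and are supported at the tuples whose product is conjugate to `x`. -/
def IsCycBdy (L : G → ℝ) (x : G) {n : ℕ} (c : (Fin (n + 1) → G) → ℂ) : Prop :=
  ∃ (b : (Fin (n + 2) → G) → ℂ) (a : (Fin (n + 1) → G) → ℂ), ExpChain L b ∧ ExpChain L a ∧
    (∀ g, ¬ IsConj x (List.ofFn g).prod → b g = 0) ∧
    (∀ g, ¬ IsConj x (List.ofFn g).prod → a g = 0) ∧ ∀ g, c g = bdy b g + (a g - cyc a g)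

open Classical in
/-- The component at the conjugacy class of `x` of the chain of degree `n` which is the image of
`a 0 ⊗ ... ⊗ a n` under the trace of matrices. -/
noncomputable def chern (x : G) {q : ℕ} (n : ℕ) (a : ℕ → Mat G q) (g : Fin (n + 1) → G) : ℂ :=
  if IsConj x (List.ofFn g).prod then
    (List.ofFn fun k : Fin (n + 1) => Matrix.of fun i j => a k i j (g k)).prod.trace else 0

/-- The components at `x` of the Chern characters of the idempotents which decay exponentially,
in all even degrees, are boundaries. -/
def EvenBdy (L : G → ℝ) (x : G) : Prop :=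
  ∀ (m q : ℕ) (e : Mat G q), IsIdem e → ExpDecay L e →
    IsCycBdy L x (chern x (2 * m) fun _ => e)

/-- The components at `x` of the Chern characters `tr ((u⁻¹ - 1) ⊗ (u - 1) ⊗ ... ⊗ (u - 1))` of the
invertible matrices `u` such that `u` and its inverse decay exponentially, in all odd degrees, are
boundaries. -/
def OddBdy (L : G → ℝ) (x : G) : Prop :=
  ∀ (m q : ℕ) (u v : Mat G q), IsInv u v → ExpDecay L u → ExpDecay L v →
    IsCycBdy L x (chern x (2 * m + 1) fun k => if Even k then v - unit G q else u - unit G q)

variable (G) in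
/-- The stronger form of the `ℓ¹`-Bass conjecture for `G`, in cyclic homology and in all degrees.
For a length function `L` dominating all others, like the word length of a finitely generated
group:
* the classes in `K_0(ℓ¹(G))` are represented by idempotents with exponential decay,
* the classes in `K_1(ℓ¹(G))` are represented by invertible matrices `v` such that `v` and its
  inverse `v'` decay exponentially (`v = u w` with `w` at distance less than `1` from the unit),
* the Chern characters of these representatives, in the cyclic homology of the algebra of the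
  functions with exponential decay, have component zero at the classes of the elements of
  infinite order. -/
def HomBass : Prop :=
  ∃ L : G → ℝ, IsLen L ∧ (∀ L', IsLen L' → ∃ c : ℝ, ∀ g, L' g ≤ c * L g) ∧
    (∀ (q : ℕ) (e : Mat G q), IsIdem e → ∃ f u v : Mat G q,
      IsIdem f ∧ ExpDecay L f ∧ InL1 u ∧ InL1 v ∧ mul u v = e ∧ mul v u = f) ∧
    (∀ (q : ℕ) (u u' : Mat G q), IsInv u u' → ∃ v v' w : Mat G q,
      IsInv v v' ∧ ExpDecay L v ∧ ExpDecay L v' ∧ InL1 w ∧ v = mul u w ∧
      ∑ i, ∑ j, ∑' g, ‖(w - unit G q) i j g‖ < 1) ∧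
    ∀ x : G, ¬ IsOfFinOrder x → EvenBdy L x ∧ OddBdy L x

end Vale.Agent.P184.A
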