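import Mathlib
import Vale.Agent.P184.Bdl.B5
import Vale.Agent.P184.R2.HDefs

/-!
# Images of chains, boundaries, and from the dual to the primal form
-/

noncomputable section

namespace Vale.Agent.P184.A

open Vale.Agent.P184

section Push

variable {α β : Type*} (f : α → β)

theorem push_summable {c : α → ℂ} {W : β → ℝ} (hW : ∀ b, 0 < W b)
    (hs : Summable fun a => ‖c a‖ * W (f a)) : Summable fun b => ‖push f c b‖ * W b := by
  have h1 := (Equiv.sigmaFiberEquiv f).summable_iff.2 hs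
  have h2 := h1.sigma
  have h3 : ∀ b, Summable fun a : {a // f a = b} => ‖c a‖ := by
    intro b
    have h4 := h1.sigma_factor b
    have h5 : (fun a : {a // f a = b} => ((fun a => ‖c a‖ * W (f a)) ∘ (Equiv.sigmaFiberEquiv f))
        ⟨b, a⟩) = fun a : {a // f a = b} => ‖c a‖ * W b := by
      funext a
      simp only [Function.comp_apply, Equiv.sigmaFiberEquiv, Equiv.coe_fn_mk, a.2]
    rw [h5] at h4
    exact (summable_mul_right_iff (hW b).ne').1 h4
  refine Summable.of_nonneg_of_le (fun b => mul_nonneg (norm_nonneg _) (hW b).le) (fun b => ?_) h2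
  have h5 : ∑' a : {a // f a = b}, ((fun a => ‖c a‖ * W (f a)) ∘ (Equiv.sigmaFiberEquiv f))
        ⟨b, a⟩ = (∑' a : {a // f a = b}, ‖c a‖) * W b := by
    rw [← tsum_mul_right]
    refine tsum_congr fun a => ?_
    simp only [Function.comp_apply, Equiv.sigmaFiberEquiv, Equiv.coe_fn_mk, a.2]
  rw [h5]
  exact mul_le_mul_of_nonneg_right (norm_tsum_le_tsum_norm (h3 b)) (hW b).le

theorem push_hasSum {c : α → ℂ} {φ : β → ℂ} (hs : Summable fun a => φ (f a) * c a) :
    HasSum (fun b => φ b * push f c b) (∑' a, φ (f a) * c a) := by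
  have h1 := (Equiv.sigmaFiberEquiv f).hasSum_iff.2 hs.hasSum
  have h2 := (Equiv.sigmaFiberEquiv f).summable_iff.2 hs
  refine h1.sigma fun b => ?_
  have h3 := (h2.sigma_factor b).hasSum
  have h5 : ∑' a : {a // f a = b}, ((fun a => φ (f a) * c a) ∘ (Equiv.sigmaFiberEquiv f))
        ⟨b, a⟩ = φ b * push f c b := by
    unfold push
    rw [← tsum_mul_left]
    refine tsum_congr fun a => ?_
    simp only [Function.comp_apply, Equiv.sigmaFiberEquiv, Equiv.coe_fn_mk, a.2]
  rw [h5] at h3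
  exact h3

end Push

section Bdy

variable {G : Type*} [Group G]

theorem IsLen.isLength {L : G → ℝ} (hL : IsLen L) : IsLength L := hL

theorem stp_prod {x : G} {m : ℕ} (p : Fin (m + 1) → G) :
    (List.ofFn (stp x p)).prod = (p 0)⁻¹ * (x * p 0) := by
  have h1 : ∀ (k : ℕ) (hk : k < m + 1), ((List.ofFn (stp x p)).take k).prod =
      (p 0)⁻¹ * p ⟨k, hk⟩ := by
    intro k
    induction k with
    | zero =>
      intro hk
      rw [List.take_zero, List.prod_nil]
      exact (inv_mul_cancel (p 0)).symm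
    | succ k ih =>
      intro hk
      rw [List.prod_take_succ _ k (by simp only [List.length_ofFn]; omega), List.getElem_ofFn, ih (by omega)]
      have h2 : (⟨k, by omega⟩ : Fin (m + 1)) = (⟨k, by omega⟩ : Fin m).castSucc := rfl
      have h3 : stp x p ⟨k, by omega⟩ = (p (⟨k, by omega⟩ : Fin m).castSucc)⁻¹ *
          p (⟨k, by omega⟩ : Fin m).succ := stp_castSucc x p ⟨k, by omega⟩
      rw [h3]
      have h4 : (⟨k + 1, hk⟩ : Fin (m + 1)) = (⟨k, by omega⟩ : Fin m).succ := rfl
      rw [h4, h2]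
      group
  have h2 : List.ofFn (stp x p) = (List.ofFn (stp x p)).take (m + 1) :=
    (List.take_of_length_le (by simp)).symm
  rw [h2, List.prod_take_succ _ m (by simp), List.getElem_ofFn, h1 m (by omega)]
  have h3 : stp x p ⟨m, by omega⟩ = (p (Fin.last m))⁻¹ * (x * p 0) := stp_last x p
  rw [h3]
  have h4 : (⟨m, by omega⟩ : Fin (m + 1)) = Fin.last m := rfl
  rw [h4]
  group

theorem isConj_stp {x : G} {m : ℕ} (p : Fin (m + 1) → G) :
    IsConj x (List.ofFn (stp x p)).prod := by
  rw [stp_prod, isConj_iff]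
  exact ⟨(p 0)⁻¹, by group⟩

theorem isConj_prod_iff {x : G} {m : ℕ} {g : Fin (m + 1) → G} :
    IsConj x (List.ofFn g).prod ↔ ∃ p : Fin (m + 1) → G, stp x p = g :=
  ⟨exists_stp g, fun ⟨p, hp⟩ => hp ▸ isConj_stp p⟩

/-- rotation preserves the class of the product -/
theorem isConj_rot {x : G} {m : ℕ} {g : Fin (m + 1) → G} (h : IsConj x (List.ofFn g).prod) :
    IsConj x (List.ofFn fun i => g (finRotate (m + 1) i)).prod := by
  obtain ⟨p, rfl⟩ := isConj_prod_iff.1 h
  have h1 : (fun i => stp x p (finRotate (m + 1) i)) = stp x (shf x p) :=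
    funext fun i => (stp_shf x p i).symm
  rw [h1]
  exact isConj_stp _

theorem isConj_rot_iff {x : G} {m : ℕ} {g : Fin (m + 1) → G} :
    IsConj x (List.ofFn fun i => g (finRotate (m + 1) i)).prod ↔ IsConj x (List.ofFn g).prod := by
  refine ⟨fun h => ?_, isConj_rot⟩
  obtain ⟨p, hp⟩ := isConj_prod_iff.1 h
  refine isConj_prod_iff.2 ⟨(shfEquiv x m).symm p, ?_⟩
  funext j
  obtain ⟨i, rfl⟩ := (finRotate (m + 1)).surjective j
  have h1 := stp_shf x ((shfEquiv x m).symm p) i
  have h2 : shf x ((shfEquiv x m).symm p) = p := (shfEquiv x m).apply_symm_apply p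
  rw [h2, hp] at h1
  exact h1.symm

/-- the chain `c` is summable with the weight `exp (ε L)` -/
def ExpC (L : G → ℝ) (ε : ℝ) {n : ℕ} (c : (Fin n → G) → ℂ) : Prop :=
  Summable fun g => ‖c g‖ * Real.exp (ε * ∑ i, L (g i))

section ExpC

set_option linter.unusedSectionVars false

variable {L : G → ℝ} (hL : IsLen L)
include hL

theorem IsLen.nonneg' (g : G) : 0 ≤ L g := IsLength.nonneg hL g

theorem sum_len_nonneg {n : ℕ} (g : Fin n → G) : 0 ≤ ∑ i, L (g i) :=
  Finset.sum_nonneg fun _ _ => IsLength.nonneg hL _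

theorem ExpC.anti {ε ε' : ℝ} (h : ε' ≤ ε) {n : ℕ} {c : (Fin n → G) → ℂ} (hc : ExpC L ε c) :
    ExpC L ε' c := by
  refine Summable.of_nonneg_of_le (fun _ => by positivity) (fun g => ?_) hc
  refine mul_le_mul_of_nonneg_left (Real.exp_le_exp.2 ?_) (norm_nonneg _)
  exact mul_le_mul_of_nonneg_right h (sum_len_nonneg hL g)

theorem ExpC.summable {ε : ℝ} (h : 0 ≤ ε) {n : ℕ} {c : (Fin n → G) → ℂ} (hc : ExpC L ε c) :
    Summable fun g => ‖c g‖ := by
  have h1 := hc.anti hL h
  refine h1.congr fun g => ?_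
  rw [zero_mul, Real.exp_zero, mul_one]

omit hL in
theorem ExpC.add {ε : ℝ} {n : ℕ} {c c' : (Fin n → G) → ℂ} (hc : ExpC L ε c) (hc' : ExpC L ε c') :
    ExpC L ε fun g => c g + c' g := by
  refine Summable.of_nonneg_of_le (fun _ => by positivity) (fun g => ?_) (Summable.add hc hc')
  rw [← add_mul]
  exact mul_le_mul_of_nonneg_right (norm_add_le _ _) (Real.exp_pos _).le

omit hL in
theorem ExpC.smul {ε : ℝ} {n : ℕ} {c : (Fin n → G) → ℂ} (z : ℂ) (hc : ExpC L ε c) :
    ExpC L ε fun g => z * c g := by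
  refine (Summable.mul_left ‖z‖ hc).congr fun g => ?_
  rw [norm_mul, mul_assoc]

omit hL in
theorem ExpC.zero {ε : ℝ} {n : ℕ} : ExpC L ε fun _ : Fin n → G => 0 := by
  unfold ExpC
  simp only [norm_zero, zero_mul]
  exact summable_zero

omit hL in
theorem ExpC.sum {ε : ℝ} {n : ℕ} {ι : Type*} (S : Finset ι) {c : ι → (Fin n → G) → ℂ}
    (hc : ∀ i, ExpC L ε (c i)) : ExpC L ε fun g => ∑ i ∈ S, c i g := by
  classical
  induction S using Finset.induction_on with
  | empty => simpa using ExpC.zero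
  | insert a S ha ih =>
    simp only [Finset.sum_insert ha]
    exact (hc a).add ih

omit hL in
theorem ExpC.rot {ε : ℝ} {n : ℕ} {c : (Fin (n + 1) → G) → ℂ} (hc : ExpC L ε c) :
    ExpC L ε fun g => c fun i => g (finRotate (n + 1) i) := by
  have h1 := (Equiv.arrowCongr (finRotate (n + 1)).symm (Equiv.refl G)).summable_iff.2 hc
  refine h1.congr fun g => ?_
  simp only [Function.comp_apply, Equiv.arrowCongr, Equiv.coe_fn_mk, Equiv.symm_symm,
    Equiv.coe_refl, CompTriple.comp_eq]
  have h2 : ∑ i, L (g (finRotate (n + 1) i)) = ∑ i, L (g i) :=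
    Equiv.sum_comp (finRotate (n + 1)) fun i => L (g i)
  have h3 : (g ∘ (finRotate (n + 1))) = fun i => g (finRotate (n + 1) i) := rfl
  simp only [h3]
  rw [h2]

omit hL in
theorem ExpC.cyc {ε : ℝ} {n : ℕ} {c : (Fin (n + 1) → G) → ℂ} (hc : ExpC L ε c) :
    ExpC L ε (cyc c) := ExpC.smul _ hc.rot

theorem ExpC.push {ε : ℝ} {n m : ℕ} {c : (Fin n → G) → ℂ} (hc : ExpC L ε c) (hε : 0 ≤ ε)
    (f : (Fin n → G) → (Fin m → G)) (hf : ∀ g, ∑ i, L (f g i) ≤ 2 * ∑ i, L (g i)) :
    ExpC L (ε / 2) (push f c) := by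
  refine push_summable f (W := fun g => Real.exp (ε / 2 * ∑ i, L (g i)))
    (fun _ => Real.exp_pos _) ?_
  refine Summable.of_nonneg_of_le (fun _ => by positivity) (fun g => ?_) hc
  refine mul_le_mul_of_nonneg_left (Real.exp_le_exp.2 ?_) (norm_nonneg _)
  calc ε / 2 * ∑ i, L (f g i) ≤ ε / 2 * (2 * ∑ i, L (g i)) :=
        mul_le_mul_of_nonneg_left (hf g) (by linarith)
    _ = ε * ∑ i, L (g i) := by ring

theorem sum_len_castSucc_succ {n : ℕ} (g : Fin (n + 1) → G) :
    ∑ i : Fin n, (L (g i.castSucc) + L (g i.succ)) ≤ 2 * ∑ i, L (g i) := by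
  have h1 := Fin.sum_univ_castSucc (fun i => L (g i))
  have h2 := Fin.sum_univ_succ (fun i => L (g i))
  have h3 := IsLength.nonneg hL (g 0)
  have h4 := IsLength.nonneg hL (g (Fin.last n))
  rw [Finset.sum_add_distrib]
  linarith

theorem sum_len_contract {n : ℕ} (j : Fin (n + 1)) (g : Fin (n + 2) → G) :
    ∑ i, L (j.castSucc.contractNth (· * ·) g i) ≤ 2 * ∑ i, L (g i) := by
  refine (Finset.sum_le_sum fun i _ => ?_).trans (sum_len_castSucc_succ hL g)
  have h1 := IsLength.nonneg hL (g i.castSucc)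
  have h2 := IsLength.nonneg hL (g i.succ)
  unfold Fin.contractNth
  split_ifs
  · linarith
  · exact hL.2.2 _ _
  · linarith

theorem sum_len_face {n : ℕ} (g : Fin (n + 2) → G) :
    ∑ i, L ((Fin.cons (g (Fin.last (n + 1)) * g 0) fun i => g i.castSucc.succ : Fin (n + 1) → G) i) ≤
      2 * ∑ i, L (g i) := by
  rw [Fin.sum_univ_succ]
  simp only [Fin.cons_zero, Fin.cons_succ]
  have h1 := hL.2.2 (g (Fin.last (n + 1))) (g 0)
  have h2 := Fin.sum_univ_succ (fun i => L (g i))
  have h3 := Fin.sum_univ_castSucc (fun i : Fin (n + 1) => L (g i.succ))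
  rw [Fin.succ_last] at h3
  have h4 := sum_len_nonneg hL g
  linarith

theorem ExpC.bdy {ε : ℝ} {n : ℕ} {c : (Fin (n + 2) → G) → ℂ} (hc : ExpC L ε c) (hε : 0 ≤ ε) :
    ExpC L (ε / 2) (bdy c) := by
  refine ExpC.add (ExpC.sum _ fun j => ExpC.smul _ ?_) (ExpC.smul _ ?_)
  · exact hc.push hL hε _ (sum_len_contract hL j)
  · exact hc.push hL hε _ (sum_len_face hL)

end ExpC

/-- the pairing of a boundary -/
theorem hasSum_bdy {n : ℕ} {φ : (Fin (n + 1) → G) → ℂ} {c : (Fin (n + 2) → G) → ℂ}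
    (h : ∀ f : (Fin (n + 2) → G) → (Fin (n + 1) → G), Summable fun p => φ (f p) * c p) :
    HasSum (fun g => φ g * bdy c g) (∑' p, hob φ p * c p) := by
  have h1 : ∀ f : (Fin (n + 2) → G) → (Fin (n + 1) → G),
      HasSum (fun g => φ g * push f c g) (∑' p, φ (f p) * c p) := fun f => push_hasSum f (h f)
  have h2 := (hasSum_sum (s := (Finset.univ : Finset (Fin (n + 1)))) fun j _ =>
    (h1 fun p => j.castSucc.contractNth (· * ·) p).mul_left ((-1 : ℂ) ^ (j : ℕ))).add
    ((h1 fun p => (Fin.cons (p (Fin.last (n + 1)) * p 0) fun i => p i.castSucc.succ :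
      Fin (n + 1) → G)).mul_left ((-1 : ℂ) ^ (n + 1)))
  have h3 : ∑' p, hob φ p * c p = ∑ j : Fin (n + 1), (-1 : ℂ) ^ (j : ℕ) *
      (∑' p, φ (j.castSucc.contractNth (· * ·) p) * c p) + (-1) ^ (n + 1) *
      ∑' p, φ (Fin.cons (p (Fin.last (n + 1)) * p 0) fun i => p i.castSucc.succ) * c p := by
    simp only [← tsum_mul_left]
    rw [← Summable.tsum_finsetSum, ← Summable.tsum_add]
    · refine tsum_congr fun p => ?_
      unfold hob
      rw [add_mul, Finset.sum_mul]
      simp only [mul_assoc]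
    · exact summable_sum fun j _ => (h _).mul_left _
    · exact (h _).mul_left _
    · exact fun j _ => (h _).mul_left _
  rw [h3]
  refine (congrArg (fun f => HasSum f _) (funext fun g => ?_)).mpr h2
  unfold bdy
  rw [mul_add, Finset.mul_sum]
  congr 1
  · refine Finset.sum_congr rfl fun j _ => ?_
    ring
  · ring

theorem bdy_supp {x : G} {n : ℕ} {c : (Fin (n + 2) → G) → ℂ}
    (hc : ∀ g, ¬ IsConj x (List.ofFn g).prod → c g = 0) (g : Fin (n + 1) → G)
    (hg : ¬ IsConj x (List.ofFn g).prod) : bdy c g = 0 := by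
  have h1 : ∀ f : (Fin (n + 2) → G) → (Fin (n + 1) → G),
      (∀ p : Fin (n + 2) → G, IsConj x (List.ofFn (f (stp x p))).prod) → push f c g = 0 := by
    intro f hf
    unfold push
    have h2 : ∀ a : {a // f a = g}, c a = 0 := by
      rintro ⟨a, rfl⟩
      refine hc a fun h => hg ?_
      obtain ⟨p, hp⟩ := isConj_prod_iff.1 h
      rw [← hp]
      exact hf p
    rw [tsum_congr h2, tsum_zero]
  unfold bdy
  rw [h1, mul_zero, add_zero]
  · refine Finset.sum_eq_zero fun j _ => ?_
    rw [h1, mul_zero]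
    intro p
    rw [← stp_del]
    exact isConj_stp _
  · intro p
    refine isConj_rot_iff.1 ?_
    rw [← stp_del_zero]
    exact isConj_stp _

set_option linter.unusedSectionVars false

/-- iterated rotations -/
def rotn {n : ℕ} (k : ℕ) (g : Fin (n + 1) → G) : Fin (n + 1) → G :=
  fun i => g ((finRotate (n + 1))^[k] i)

theorem rotn_zero {n : ℕ} (g : Fin (n + 1) → G) : rotn 0 g = g := rfl

theorem rotn_succ {n : ℕ} (k : ℕ) (g : Fin (n + 1) → G) :
    rotn (k + 1) g = fun i => rotn k g (finRotate (n + 1) i) := by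
  funext i
  unfold rotn
  rw [Function.iterate_succ_apply]

theorem rotn_succ' {n : ℕ} (k : ℕ) (g : Fin (n + 1) → G) :
    rotn (k + 1) g = rotn k fun i => g (finRotate (n + 1) i) := by
  funext i
  unfold rotn
  rw [Function.iterate_succ_apply']

theorem finRotate_pow (n : ℕ) : finRotate (n + 1) ^ (n + 1) = 1 := by
  rcases n with _ | n
  · ext i
    have h1 : i = 0 := Subsingleton.elim (α := Fin 1) i 0
    rw [h1, pow_one, Equiv.Perm.one_apply, finRotate_one]
    rfl
  · have h1 : orderOf (finRotate (n + 2)) = n + 2 := by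
      rw [isCycle_finRotate.orderOf, support_finRotate, Finset.card_univ, Fintype.card_fin]
    have h2 := pow_orderOf_eq_one (finRotate (n + 2))
    rwa [h1] at h2

theorem rotn_last {n : ℕ} (g : Fin (n + 1) → G) : rotn (n + 1) g = g := by
  funext i
  unfold rotn
  have h1 : (finRotate (n + 1))^[n + 1] i = (finRotate (n + 1) ^ (n + 1)) i := by
    rw [← Equiv.Perm.iterate_eq_pow]
  rw [h1, finRotate_pow]
  rfl

theorem isConj_rotn {x : G} {n : ℕ} (k : ℕ) {g : Fin (n + 1) → G}
    (h : IsConj x (List.ofFn g).prod) : IsConj x (List.ofFn (rotn k g)).prod := by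
  induction k with
  | zero => exact h
  | succ k ih =>
    rw [rotn_succ]
    exact isConj_rot ih

open Classical in
/-- the cyclic function attached to a tuple -/
def cycDelta {n : ℕ} (g h : Fin (n + 1) → G) : ℂ :=
  ∑ k ∈ Finset.range (n + 1), (-1 : ℂ) ^ (n * k) * if h = rotn k g then 1 else 0

theorem rot_injective {n : ℕ} :
    Function.Injective fun (g : Fin (n + 1) → G) => fun i => g (finRotate (n + 1) i) := by
  intro g h hgh
  funext j
  obtain ⟨i, rfl⟩ := (finRotate (n + 1)).surjective j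
  exact congrFun hgh i

theorem cycDelta_rot {n : ℕ} (g h : Fin (n + 1) → G) :
    cycDelta g (fun i => h (finRotate (n + 1) i)) = (-1) ^ n * cycDelta g h := by
  classical
  have h1 : ∀ k, ((fun i => h (finRotate (n + 1) i)) = rotn (k + 1) g) ↔ h = rotn k g := by
    intro k
    rw [rotn_succ]
    exact ⟨fun h2 => rot_injective h2, fun h2 => by rw [h2]⟩
  unfold cycDelta
  rw [Finset.sum_range_succ', Finset.sum_range_succ, mul_add]
  congr 1
  · rw [Finset.mul_sum]
    refine Finset.sum_congr rfl fun k _ => ?_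
    simp only [h1]
    rw [mul_add, pow_add, mul_one]
    ring
  · have h2 : ((fun i => h (finRotate (n + 1) i)) = rotn 0 g) ↔ h = rotn n g := by
      rw [rotn_zero, ← h1 n, rotn_last]
    simp only [h2]
    have h3 : (-1 : ℂ) ^ (n * 0) = (-1) ^ n * (-1) ^ (n * n) := by
      rw [← pow_add, mul_zero, pow_zero]
      have : Even (n + n * n) := by
        rw [show n + n * n = n * (n + 1) by ring]
        exact Nat.even_mul_succ_self n
      rw [this.neg_one_pow]
    rw [h3]
    ring

theorem norm_neg_one_pow (k : ℕ) : ‖(-1 : ℂ) ^ k‖ = 1 := by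
  rw [norm_pow, norm_neg, norm_one, one_pow]

theorem cycDelta_bdd {n : ℕ} (g h : Fin (n + 1) → G) : ‖cycDelta g h‖ ≤ n + 1 := by
  classical
  unfold cycDelta
  refine (norm_sum_le _ _).trans ?_
  have h1 : ∀ k ∈ Finset.range (n + 1),
      ‖(-1 : ℂ) ^ (n * k) * if h = rotn k g then 1 else 0‖ ≤ 1 := by
    intro k _
    rw [norm_mul, norm_neg_one_pow, one_mul]
    split_ifs
    · rw [norm_one]
    · rw [norm_zero]; exact zero_le_one
  refine (Finset.sum_le_sum h1).trans ?_
  simp

theorem cycDelta_supp {x : G} {n : ℕ} {g : Fin (n + 1) → G} (hg : IsConj x (List.ofFn g).prod)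
    (h : Fin (n + 1) → G) (hh : ¬ IsConj x (List.ofFn h).prod) : cycDelta g h = 0 := by
  classical
  unfold cycDelta
  refine Finset.sum_eq_zero fun k _ => ?_
  rw [if_neg, mul_zero]
  rintro rfl
  exact hh (isConj_rotn k hg)

theorem tsum_cycDelta {n : ℕ} (g : Fin (n + 1) → G) (d : (Fin (n + 1) → G) → ℂ) :
    ∑' h, cycDelta g h * d h = ∑ k ∈ Finset.range (n + 1), (-1 : ℂ) ^ (n * k) * d (rotn k g) := by
  classical
  have h1 : ∀ k : ℕ, HasSum (fun h => ((-1 : ℂ) ^ (n * k) * if h = rotn k g then 1 else 0) * d h)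
      ((-1 : ℂ) ^ (n * k) * d (rotn k g)) := by
    intro k
    have h2 := hasSum_single (f := fun h => ((-1 : ℂ) ^ (n * k) *
      if h = rotn k g then 1 else 0) * d h) (rotn k g) (fun h hh => by
        rw [if_neg hh, mul_zero, zero_mul])
    simpa using h2
  have h2 := hasSum_sum (s := Finset.range (n + 1)) fun k _ => h1 k
  rw [← h2.tsum_eq]
  refine tsum_congr fun h => ?_
  unfold cycDelta
  rw [Finset.sum_mul]

/-- From the dual form to the primal form. -/
theorem isCycBdy_of_dual {L : G → ℝ} (hL : IsLen L) {x : G} {n : ℕ}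
    {c : (Fin (n + 1) → G) → ℂ} {b : (Fin (n + 2) → G) → ℂ} (hc : ExpChain L c)
    (hb : ExpChain L b) (hcs : ∀ g, ¬ IsConj x (List.ofFn g).prod → c g = 0)
    (hbs : ∀ g, ¬ IsConj x (List.ofFn g).prod → b g = 0)
    (h : ∀ φ : (Fin (n + 1) → G) → ℂ, (∃ C, ∀ g, ‖φ g‖ ≤ C) →
      (∀ g, ¬ IsConj x (List.ofFn g).prod → φ g = 0) →
      (∀ g, φ (fun i => g (finRotate (n + 1) i)) = (-1) ^ n * φ g) →
      ∑' g, φ g * c g = ∑' p, hob φ p * b p) : IsCycBdy L x c := by
  obtain ⟨ε, hε, hc⟩ := hc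
  obtain ⟨ε', hε', hb⟩ := hb
  have hc : ExpC L ε c := hc
  have hb : ExpC L ε' b := hb
  set δ := min ε (ε' / 2) with hδ
  have hδ0 : 0 < δ := lt_min hε (by linarith)
  set d : (Fin (n + 1) → G) → ℂ := fun g => c g + (-1) * bdy b g with hd
  have hdE : ExpC L δ d :=
    (hc.anti hL (min_le_left _ _)).add (((hb.bdy hL hε'.le).anti hL (min_le_right _ _)).smul (-1))
  have hdb : bdy b = bdy b := rfl
  have hds : ∀ g, ¬ IsConj x (List.ofFn g).prod → d g = 0 := by
    intro g hg
    simp only [hd]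
    rw [hcs g hg, bdy_supp hbs g hg, mul_zero, add_zero]
  have hrotn : ∀ (k : ℕ) (g : Fin (n + 1) → G), ¬ IsConj x (List.ofFn g).prod →
      ¬ IsConj x (List.ofFn (rotn k g)).prod := by
    intro k
    induction k with
    | zero => intro g hg; exact hg
    | succ k ih =>
      intro g hg
      rw [rotn_succ']
      exact ih _ fun h1 => hg (isConj_rot_iff.1 h1)
  -- the sum over the rotations is zero
  have hN : ∀ g, ∑ k ∈ Finset.range (n + 1), (-1 : ℂ) ^ (n * k) * d (rotn k g) = 0 := by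
    intro g
    by_cases hg : IsConj x (List.ofFn g).prod
    · have h1 := h (cycDelta g) ⟨n + 1, cycDelta_bdd g⟩ (cycDelta_supp hg) (cycDelta_rot g)
      have hbs' := hb.summable hL hε'.le
      have hcs' := hc.summable hL hε.le
      have h2 := hasSum_bdy (φ := cycDelta g) (c := b) (fun f => by
        refine Summable.of_norm_bounded (hbs'.mul_left (n + 1 : ℝ)) fun p => ?_
        rw [norm_mul]
        exact mul_le_mul_of_nonneg_right (cycDelta_bdd g _) (norm_nonneg _))
      have h3 : Summable fun h => cycDelta g h * c h := by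
        refine Summable.of_norm_bounded (hcs'.mul_left (n + 1 : ℝ)) fun p => ?_
        rw [norm_mul]
        exact mul_le_mul_of_nonneg_right (cycDelta_bdd g _) (norm_nonneg _)
      rw [← tsum_cycDelta g d]
      have h4 : ∀ h, cycDelta g h * d h = cycDelta g h * c h - cycDelta g h * bdy b h := by
        intro h
        simp only [hd]
        ring
      rw [tsum_congr h4, h3.tsum_sub h2.summable, h2.tsum_eq, h1, sub_self]
    · refine Finset.sum_eq_zero fun k _ => ?_
      rw [hds _ (hrotn k g hg), mul_zero]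
  refine ⟨b, fun g => (n + 1 : ℂ)⁻¹ * ∑ j ∈ Finset.range (n + 1), ∑ k ∈ Finset.range j,
    (-1 : ℂ) ^ (n * k) * d (rotn k g), ⟨ε', hε', hb⟩, ⟨δ, hδ0, ?_⟩, hbs, ?_, ?_⟩
  · have h1 : ∀ k : ℕ, ExpC L δ fun g => d (rotn k g) := by
      intro k
      induction k with
      | zero => exact hdE
      | succ k ih =>
        simp only [rotn_succ']
        exact ih.rot
    exact ExpC.smul _ (ExpC.sum _ fun j => ExpC.sum _ fun k => ExpC.smul _ (h1 k))
  · intro g hg
    have h1 : ∑ j ∈ Finset.range (n + 1), ∑ k ∈ Finset.range j,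
        (-1 : ℂ) ^ (n * k) * d (rotn k g) = 0 := by
      refine Finset.sum_eq_zero fun j _ => Finset.sum_eq_zero fun k _ => ?_
      rw [hds _ (hrotn k g hg), mul_zero]
    simp only [h1, mul_zero]
  · intro g
    have h1 : ∀ k : ℕ, (-1 : ℂ) ^ n * ((-1 : ℂ) ^ (n * k) *
        d (rotn k fun i => g (finRotate (n + 1) i))) =
        (-1 : ℂ) ^ (n * (k + 1)) * d (rotn (k + 1) g) := by
      intro k
      rw [rotn_succ', show n * (k + 1) = n * k + n by ring, pow_add]
      ring
    unfold cyc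
    have h2 : (-1 : ℂ) ^ n * ((n + 1 : ℂ)⁻¹ * ∑ j ∈ Finset.range (n + 1), ∑ k ∈ Finset.range j,
        (-1 : ℂ) ^ (n * k) * d (rotn k fun i => g (finRotate (n + 1) i))) =
        (n + 1 : ℂ)⁻¹ * ∑ j ∈ Finset.range (n + 1), ∑ k ∈ Finset.range j,
        (-1 : ℂ) ^ (n * (k + 1)) * d (rotn (k + 1) g) := by
      simp only [← h1, ← Finset.mul_sum]
      ring
    rw [h2, ← mul_sub, ← Finset.sum_sub_distrib]
    have h3 : ∀ j ∈ Finset.range (n + 1), (∑ k ∈ Finset.range j,
        (-1 : ℂ) ^ (n * k) * d (rotn k g)) - ∑ k ∈ Finset.range j,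
        (-1 : ℂ) ^ (n * (k + 1)) * d (rotn (k + 1) g) =
        d g - (-1 : ℂ) ^ (n * j) * d (rotn j g) := by
      intro j _
      rw [← Finset.sum_sub_distrib]
      have h4 := Finset.sum_range_sub' (fun k => (-1 : ℂ) ^ (n * k) * d (rotn k g)) j
      rw [h4]
      simp only [mul_zero, pow_zero, one_mul, rotn_zero]
    rw [Finset.sum_congr rfl h3, Finset.sum_sub_distrib, hN, sub_zero, Finset.sum_const,
      Finset.card_range, nsmul_eq_mul]
    have h5 : ((n : ℂ) + 1) ≠ 0 := by
      have : ((n : ℂ) + 1) = ((n + 1 : ℕ) : ℂ) := by push_cast; rfl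
      rw [this, Nat.cast_ne_zero]
      omega
    push_cast
    rw [inv_mul_cancel_left₀ h5]
    simp only [hd]
    ring

end Bdy

end Vale.Agent.P184.A

end
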