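import Mathlib
import Vale.Agent.P184.R2.H1
import Vale.Agent.P184.R2.H3

/-!
# The Chern character in even degrees is a boundary
-/

noncomputable section

namespace Vale.Agent.P184

open Finset

section Orbits

variable {G : Type*} [Group G] {D : Type*} [NormedRing D] [NormedAlgebra ℂ D] (A : DData G D)

/-- the constant in `siz_le_stp` -/
def kst (m : ℕ) : ℝ := 2 * (m + 1) * (m + 1) + 4 * (m + 1)

theorem kst_pos (m : ℕ) : 0 < kst m := by unfold kst; positivity

/-- summability over the orbits -/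
theorem DData.summable_of_le {m : ℕ} {F : (Fin (m + 1) → G) → ℝ} {C : ℝ} (hC0 : 0 ≤ C)
    (hC : ∀ p, |F p| ≤ C * Real.exp (A.eps / kst m * siz A.x A.L p)) :
    Summable fun a : Orb A.x m => |F (Orb.rep A.x a)| * ‖wgt A.x A.tr A.E (Orb.rep A.x a)‖ := by
  have hK0 := kst_pos m
  set K : ℝ := kst m with hK
  set B : G → ℝ := fun g => ‖A.E g‖ * Real.exp (A.eps * A.L g) with hB
  have h1 := summable_pi (A := B) (fun g => by positivity) A.hdec (m + 1)
  have h2 : Summable fun a : Orb A.x m => ∏ i, B (stp A.x (Orb.rep A.x a) i) :=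
    h1.comp_injective (stp_injective A.x)
  refine Summable.of_nonneg_of_le (fun a => by positivity) (fun a => ?_)
    (h2.mul_left (C * ‖A.tr‖))
  set p := Orb.rep A.x a with hp
  have h3 := siz_le_stp (x := A.x) A.hL p
  have h4 : |F p| ≤ C * ∏ i, Real.exp (A.eps * A.L (stp A.x p i)) := by
    refine (hC p).trans (mul_le_mul_of_nonneg_left ?_ hC0)
    rw [← Real.exp_sum, Real.exp_le_exp, ← Finset.mul_sum]
    calc A.eps / K * siz A.x A.L p ≤ A.eps / K * (K * ∑ i, A.L (stp A.x p i)) :=
          mul_le_mul_of_nonneg_left h3 (div_pos A.heps hK0).le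
      _ = A.eps * ∑ i, A.L (stp A.x p i) := by (clear * - hK0; field_simp)
  have h5 := norm_wgt_le A.x A.tr A.E p
  calc |F p| * ‖wgt A.x A.tr A.E p‖
      ≤ (C * ∏ i, Real.exp (A.eps * A.L (stp A.x p i))) *
        (‖A.tr‖ * ∏ i, ‖A.E (stp A.x p i)‖) := by
        refine mul_le_mul h4 h5 (norm_nonneg _) ?_
        exact mul_nonneg hC0 (Finset.prod_nonneg fun _ _ => (Real.exp_pos _).le)
    _ = C * ‖A.tr‖ * ∏ i, B (stp A.x p i) := by
        simp only [hB, Finset.prod_mul_distrib]
        ring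

/-- the pairing with complex valued functions -/
def prC {m : ℕ} (F : (Fin (m + 1) → G) → ℂ) : ℂ :=
  ∑' a : Orb A.x m, F (Orb.rep A.x a) * wgt A.x A.tr A.E (Orb.rep A.x a)

theorem prC_eq {m : ℕ} {F : (Fin (m + 1) → G) → ℂ}
    (h1 : Summable fun a : Orb A.x m => ((F (Orb.rep A.x a)).re : ℂ) *
      wgt A.x A.tr A.E (Orb.rep A.x a))
    (h2 : Summable fun a : Orb A.x m => ((F (Orb.rep A.x a)).im : ℂ) *
      wgt A.x A.tr A.E (Orb.rep A.x a)) :
    prC A F = A.pr (fun p => (F p).re) + A.pr (fun p => (F p).im) * Complex.I := by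
  unfold prC DData.pr pair
  rw [← tsum_mul_right, ← h1.tsum_add (h2.mul_right Complex.I)]
  refine tsum_congr fun a => ?_
  conv_lhs => rw [← Complex.re_add_im (F (Orb.rep A.x a))]
  ring

end Orbits

section Main

open Vale.Agent.P184.A

variable {G : Type*} [Group G] {D : Type*} [NormedRing D] [NormedAlgebra ℂ D] (A : DData G D)

/-- the steps between the vertices in `s` -/
def vst {M n : ℕ} (x : G) (s : Finset (Fin (M + 1))) (a : Orb x M) : Fin (n + 1) → G :=
  stp x fun i => Orb.rep x a (em s i)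

/-- the weight, with the factor `ψ` -/
def vwt {M k : ℕ} (ψ : (Fin k → G) → ℝ) (s : Finset (Fin (M + 1))) (a : Orb A.x M) : ℂ :=
  (ψ fun i => Orb.rep A.x a (em sᶜ i) : ℝ) * wgt A.x A.tr A.E (Orb.rep A.x a)

/-- the chain attached to `s` -/
def vch {M n k : ℕ} (ψ : (Fin k → G) → ℝ) (s : Finset (Fin (M + 1))) :
    (Fin (n + 1) → G) → ℂ := push (vst A.x s) (vwt A ψ s)

/-- the decay constant of the chains -/
def veps (M n : ℕ) : ℝ := A.eps / kst M / 2 / (((n : ℝ) + 1) * ((n + 1) * (n + 1) + (n + 1)))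

theorem veps_pos (M n : ℕ) : 0 < veps A M n := by
  unfold veps
  have := A.heps
  have := kst_pos M
  positivity

theorem sum_vst_le {M n : ℕ} (s : Finset (Fin (M + 1))) (p : Fin (M + 1) → G) :
    veps A M n * ∑ i, A.L (stp A.x (fun i : Fin (n + 1) => p (em s i)) i) ≤
      A.eps / kst M / 2 * siz A.x A.L p := by
  have h1 := sum_stp_le (x := A.x) A.hL (fun i : Fin (n + 1) => p (em s i))
  have h2 := siz_comp (x := A.x) A.hL (em s : Fin (n + 1) → Fin (M + 1)) p
  have h0 : (0 : ℝ) < ((n : ℝ) + 1) * ((n + 1) * (n + 1) + (n + 1)) := by positivity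
  push_cast at h2
  have h3 : ∑ i, A.L (stp A.x (fun i : Fin (n + 1) => p (em s i)) i) ≤
      (((n : ℝ) + 1) * ((n + 1) * (n + 1) + (n + 1))) * siz A.x A.L p := by
    refine h1.trans ?_
    rw [mul_assoc]
    exact mul_le_mul_of_nonneg_left h2 (by positivity)
  calc veps A M n * ∑ i, A.L (stp A.x (fun i : Fin (n + 1) => p (em s i)) i)
      ≤ veps A M n * ((((n : ℝ) + 1) * ((n + 1) * (n + 1) + (n + 1))) * siz A.x A.L p) :=
        mul_le_mul_of_nonneg_left h3 (veps_pos A M n).le
    _ = A.eps / kst M / 2 * siz A.x A.L p := by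
        unfold veps
        field_simp

theorem vwt_summable {M n k : ℕ} {ψ : (Fin k → G) → ℝ} (hψ : SubExp A.x A.L ψ)
    (s : Finset (Fin (M + 1))) :
    Summable fun a : Orb A.x M => ‖vwt A ψ s a‖ *
      Real.exp (veps A M n * ∑ i, A.L ((vst A.x s a : Fin (n + 1) → G) i)) := by
  have hK0 := kst_pos M
  have h0 : 0 < A.eps / kst M / 2 := by have := A.heps; positivity
  obtain ⟨C, hC0, hC⟩ := (hψ.comp A.hL (em sᶜ : Fin k → Fin (M + 1))).pos h0
  have h1 := A.summable_of_le (F := fun p : Fin (M + 1) → G => (ψ fun i => p (em sᶜ i)) *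
    Real.exp (veps A M n * ∑ i, A.L (stp A.x (fun i : Fin (n + 1) => p (em s i)) i))) hC0 ?_
  · refine h1.congr fun a => ?_
    unfold vwt vst
    rw [abs_mul, Real.abs_exp, norm_mul, Complex.norm_real, Real.norm_eq_abs]
    ring
  · intro p
    rw [abs_mul, Real.abs_exp]
    have h2 := hC p
    have h3 := Real.exp_le_exp.2 (sum_vst_le A (n := n) s p)
    calc |ψ fun i => p (em sᶜ i)| * Real.exp (veps A M n *
          ∑ i, A.L (stp A.x (fun i : Fin (n + 1) => p (em s i)) i))
        ≤ (C * Real.exp (A.eps / kst M / 2 * siz A.x A.L p)) *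
          Real.exp (A.eps / kst M / 2 * siz A.x A.L p) :=
          mul_le_mul h2 h3 (Real.exp_pos _).le (by positivity)
      _ = C * Real.exp (A.eps / kst M * siz A.x A.L p) := by
          rw [mul_assoc, ← Real.exp_add]
          congr 2
          ring

theorem vch_expC {M n k : ℕ} {ψ : (Fin k → G) → ℝ} (hψ : SubExp A.x A.L ψ)
    (s : Finset (Fin (M + 1))) :
    ExpC A.L (veps A M n) (vch A ψ s : (Fin (n + 1) → G) → ℂ) :=
  push_summable (vst A.x s) (W := fun g => Real.exp (veps A M n * ∑ i, A.L (g i)))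
    (fun _ => Real.exp_pos _) (vwt_summable A hψ s)

theorem vch_supp {M n k : ℕ} {ψ : (Fin k → G) → ℝ} (s : Finset (Fin (M + 1)))
    (g : Fin (n + 1) → G) (hg : ¬ IsConj A.x (List.ofFn g).prod) : vch A ψ s g = 0 := by
  unfold vch push
  have h2 : ∀ a : {a // vst A.x s a = g}, vwt A ψ s a = 0 := by
    rintro ⟨a, rfl⟩
    exact absurd (isConj_stp _) hg
  rw [tsum_congr h2, tsum_zero]

/-- the pairing with functions of subexponential growth -/
theorem vch_hasSum {M n k : ℕ} {ψ : (Fin k → G) → ℝ} (hψ : SubExp A.x A.L ψ)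
    (s : Finset (Fin (M + 1))) {f : (Fin (n + 1) → G) → ℂ}
    (hf : ∃ C, ∀ g, ‖f g‖ ≤ C * Real.exp (veps A M n * ∑ i, A.L (g i))) :
    HasSum (fun g => f g * vch A ψ s g) (prC A fun p : Fin (M + 1) → G =>
      f (stp A.x fun i => p (em s i)) * (ψ fun i => p (em sᶜ i) : ℝ)) := by
  obtain ⟨C, hC⟩ := hf
  have h1 : Summable fun a : Orb A.x M => f (vst A.x s a) * vwt A ψ s a := by
    refine Summable.of_norm_bounded ((vwt_summable A (n := n) hψ s).mul_left C) fun a => ?_
    rw [norm_mul]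
    refine (mul_le_mul_of_nonneg_right (hC _) (norm_nonneg _)).trans (le_of_eq ?_)
    ring
  have h2 := push_hasSum (vst A.x s) (c := vwt A ψ s) (φ := f) h1
  have h3 : ∑' a : Orb A.x M, f (vst A.x s a) * vwt A ψ s a =
      prC A fun p : Fin (M + 1) → G =>
      f (stp A.x fun i => p (em s i)) * (ψ fun i => p (em sᶜ i) : ℝ) := by
    unfold prC vwt vst
    refine tsum_congr fun a => ?_
    ring
  rw [h3] at h2
  exact h2

theorem subexp_hob {L : G → ℝ} (hL : IsLen L) {n : ℕ} {φ : (Fin (n + 1) → G) → ℂ}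
    (hφ : Subexp L φ) : Subexp L (hob φ) := by
  intro ε hε
  obtain ⟨C, hC⟩ := hφ (ε / 2) (by linarith)
  have hC' : ∀ g, ‖φ g‖ ≤ |C| * Real.exp (ε / 2 * ∑ i, L (g i)) := fun g =>
    (hC g).trans (mul_le_mul_of_nonneg_right (le_abs_self C) (Real.exp_pos _).le)
  have h1 : ∀ (p : Fin (n + 2) → G) (g : Fin (n + 1) → G), ∑ i, L (g i) ≤ 2 * ∑ i, L (p i) →
      ‖φ g‖ ≤ |C| * Real.exp (ε * ∑ i, L (p i)) := by
    intro p g h
    refine (hC' g).trans (mul_le_mul_of_nonneg_left (Real.exp_le_exp.2 ?_) (abs_nonneg C))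
    nlinarith
  refine ⟨(n + 2) * |C|, fun p => ?_⟩
  unfold hob
  refine (norm_add_le _ _).trans ?_
  have h2 : ‖∑ j : Fin (n + 1), (-1 : ℂ) ^ (j : ℕ) * φ (j.castSucc.contractNth (· * ·) p)‖ ≤
      (n + 1) * (|C| * Real.exp (ε * ∑ i, L (p i))) := by
    refine (norm_sum_le _ _).trans ?_
    refine (Finset.sum_le_sum fun j _ => ?_).trans (le_of_eq (by
      rw [Finset.sum_const, Finset.card_univ, Fintype.card_fin, nsmul_eq_mul]
      push_cast
      rfl))
    rw [norm_mul, norm_neg_one_pow, one_mul]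
    exact h1 p _ (sum_len_contract hL j p)
  have h3 : ‖(-1 : ℂ) ^ (n + 1) * φ (Fin.cons (p (Fin.last (n + 1)) * p 0)
      fun i => p i.castSucc.succ)‖ ≤ |C| * Real.exp (ε * ∑ i, L (p i)) := by
    rw [norm_mul, norm_neg_one_pow, one_mul]
    exact h1 p _ (sum_len_face hL p)
  calc _ ≤ (n + 1) * (|C| * Real.exp (ε * ∑ i, L (p i))) +
        |C| * Real.exp (ε * ∑ i, L (p i)) := add_le_add h2 h3
    _ = _ := by ring

/-- the homogeneous coboundary of a cyclic cochain of even degree -/
theorem cob_hob {x : G} {m : ℕ} {φ : (Fin (2 * m + 1) → G) → ℂ}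
    (hφ : ∀ g, φ (fun i => g (finRotate (2 * m + 1) i)) = (-1) ^ (2 * m) * φ g)
    (p : Fin (2 * m + 2) → G) :
    ∑ j : Fin (2 * m + 2), (-1 : ℂ) ^ (j : ℕ) * φ (stp x fun i => p (j.succAbove i)) =
      - Vale.Agent.P184.A.hob φ (stp x p) := by
  have h2 : ∀ g, φ (fun i => g (finRotate (2 * m + 1) i)) = φ g := by
    intro g
    rw [hφ, pow_mul]
    simp
  unfold Vale.Agent.P184.A.hob
  rw [Fin.sum_univ_succ]
  simp only [Fin.val_zero, pow_zero, one_mul, Fin.zero_succAbove, Fin.val_succ, stp_del,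
    stp_del_zero, h2]
  have h5 : (-1 : ℂ) ^ (2 * m + 1) = -1 := by rw [pow_succ, pow_mul]; simp
  rw [h5]
  have h6 : ∑ j : Fin (2 * m + 1), (-1 : ℂ) ^ ((j : ℕ) + 1) *
      φ (j.castSucc.contractNth (· * ·) (stp x p)) =
      - ∑ j : Fin (2 * m + 1), (-1 : ℂ) ^ (j : ℕ) *
        φ (j.castSucc.contractNth (· * ·) (stp x p)) := by
    rw [← Finset.sum_neg_distrib]
    refine Finset.sum_congr rfl fun j _ => ?_
    rw [pow_succ]
    ring
  rw [h6]
  ring

end Main

theorem tr_expC {G : Type*} {D : Type*} [NormedRing D] [NormedAlgebra ℂ D] (tr : D →L[ℂ] ℂ)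
    {E : G → D} {L : G → ℝ} {ε : ℝ} (h : Summable fun g => ‖E g‖ * Real.exp (ε * L g)) (n : ℕ)
    (P : (Fin (n + 1) → G) → Prop) [DecidablePred P] :
    A.ExpC L ε fun g : Fin (n + 1) → G => if P g then tr (List.ofFn fun k => E (g k)).prod
      else 0 := by
  have h2 := summable_pi (A := fun g => ‖E g‖ * Real.exp (ε * L g))
    (fun g => by positivity) h (n + 1)
  refine Summable.of_nonneg_of_le (fun _ => by positivity) (fun g => ?_)
    (h2.mul_left ‖tr‖)
  rw [Finset.prod_mul_distrib, ← Real.exp_sum, ← Finset.mul_sum, ← mul_assoc]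
  refine mul_le_mul_of_nonneg_right ?_ (Real.exp_pos _).le
  beta_reduce
  split_ifs
  · refine (tr.le_opNorm _).trans (mul_le_mul_of_nonneg_left ?_ (norm_nonneg _))
    refine (List.norm_prod_le' ?_).trans (le_of_eq ?_)
    · intro h
      have := congrArg List.length h
      simp at this
    · rw [List.map_ofFn, List.prod_ofFn]
      rfl
  · rw [norm_zero]
    positivity

section Final

attribute [local instance] Matrix.linftyOpNormedRing Matrix.linftyOpNormedAlgebra

open Vale.Agent.P184.A (IsCycBdy chern EvenBdy ExpC ExpChain Subexp hob)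

variable {G : Type*} [Group G]

/-- If a power of the periodicity operator annihilates the trace at `x`, then the components at
`x` of the Chern characters of idempotents are boundaries. -/
theorem evenBdy_of_cyc {L : G → ℝ} (hL : IsLength L) {x : G} {n : ℕ} (hn : 0 < n)
    {ψ : (Fin (2 * n) → G) → ℝ} (hψ1 : CInv x ψ) (hψ2 : SubExp x L ψ) (hψ3 : CycAnti x ψ)
    (hψ4 : ∀ p, DData.cob ψ p = 1) : EvenBdy L x := by
  intro m q e he hdec
  obtain ⟨ε, hε, hdec⟩ := hdec
  have he : IsIdem e := ⟨he.1, fun i j g => congrFun (congrFun (congrFun he.2 i) j) g⟩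
  let A : DData G (Matrix (Fin q) (Fin q) ℂ) :=
    { x := x
      tr := mtr q
      E := toFn e
      L := L
      eps := ε
      htr := mtr_comm q
      hE := toFn_conv he
      hL := hL
      heps := hε
      hdec := toFn_decay hdec }
  obtain ⟨k, rfl⟩ : ∃ k, n = k + 1 := ⟨n - 1, by omega⟩
  obtain ⟨c, hc⟩ := DData.pr_eq_words m k
  set P := Finset.powersetCard (2 * m + 2) (Finset.univ : Finset (Fin (2 * m + 2 * k + 2 + 2)))
    with hP
  have hψ2' : SubExp A.x A.L ψ := hψ2
  set b : (Fin (2 * m + 1 + 1) → G) → ℂ := fun g => ∑ s ∈ P, (-c s) * vch A ψ s g with hb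
  have hch : (chern x (2 * m) fun _ => e : (Fin (2 * m + 1) → G) → ℂ) =
      fun g => open Classical in if IsConj x (List.ofFn g).prod then
        A.tr (List.ofFn fun k => A.E (g k)).prod else 0 := rfl
  have hexp : ExpC L ε (chern x (2 * m) fun _ => e) := by
    classical
    rw [hch]
    exact tr_expC A.tr A.hdec (2 * m) _
  refine Vale.Agent.P184.A.isCycBdy_of_dual (b := b) hL ⟨ε, hε, hexp⟩
    ⟨veps A (2 * m + 2 * k + 2 + 1) (2 * m + 1), veps_pos A _ _, ?_⟩ ?_ ?_ ?_
  · exact Vale.Agent.P184.A.ExpC.sum _ fun s => (vch_expC A hψ2' s).smul _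
  · intro g hg
    rw [hch]
    exact if_neg hg
  · intro g hg
    simp only [hb]
    refine Finset.sum_eq_zero fun s _ => ?_
    rw [vch_supp A s g hg, mul_zero]
  · intro φ hφb hφs hφc
    have hφg : Subexp L φ := by
      obtain ⟨C, hC⟩ := hφb
      intro δ hδ
      refine ⟨C, fun g => (hC g).trans ?_⟩
      have h1 : 0 ≤ C := (norm_nonneg _).trans (hC g)
      exact le_mul_of_one_le_right h1 (Real.one_le_exp
        (mul_nonneg hδ.le (Vale.Agent.P184.A.sum_len_nonneg hL g)))
    have hhob : Subexp L (hob φ) := subexp_hob hL hφg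
    -- the left-hand side
    have h3 := hasSum_pair A hφs hφg
    have h4 : ∀ g, φ g * chern x (2 * m) (fun _ => e) g =
        φ g * A.tr (List.ofFn fun k => A.E (g k)).prod := by
      intro g
      rw [hch]
      by_cases hg : IsConj x (List.ofFn g).prod
      · simp only [if_pos hg]
      · rw [hφs g hg, zero_mul, zero_mul]
    rw [tsum_congr h4, h3.tsum_eq]
    -- the pairing in terms of the coboundary
    have key : ∀ r : ℂ → ℝ, (∀ z, |r z| ≤ ‖z‖) → (∀ (n : ℕ) z, r ((-1 : ℂ) ^ n * z) =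
        (-1 : ℝ) ^ n * r z) → (∀ z w, r (z + w) = r z + r w) →
        A.pr (fun p : Fin (2 * m + 1) → G => r (φ (stp x p))) =
        ∑ s ∈ P, c s * A.pr (fun p : Fin (2 * m + 2 * k + 2 + 2) → G =>
          r (-hob φ (stp x fun i => p (em s i))) * ψ fun i => p (em sᶜ i)) := by
      intro r hr1 hr2 hr3
      rw [hc (A := A) (good_part A hφg r hr1) (fun p => ?_) ⟨hψ1, hψ2⟩ (cycAnti_iff.1 hψ3) hψ4]
      · refine Finset.sum_congr rfl fun s _ => ?_
        congr 2
        funext p
        congr 1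
        have h1 := cob_hob (x := x) hφc fun i => p (em s i)
        unfold DData.cob
        have h2 : ∀ z w : ℂ, z = w → r z = r w := fun z w h => by rw [h]
        have h5 := h2 _ _ h1
        have h6 := map_sum (AddMonoidHom.mk' r hr3) (fun j : Fin (2 * m + 2) =>
          (-1 : ℂ) ^ (j : ℕ) * φ (stp x fun i => p (em s (j.succAbove i)))) Finset.univ
        simp only [AddMonoidHom.mk'_apply] at h6
        rw [h6] at h5
        simp only [hr2] at h5
        exact h5
      · have h1 : stp x (shf x p) = fun i => stp x p (finRotate (2 * m + 1) i) :=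
          funext fun i => stp_shf x p i
        change r (φ (stp x (shf x p))) = r (φ (stp x p))
        rw [h1, hφc, pow_mul]
        simp
    have h1 := key Complex.re Complex.abs_re_le_norm neg_one_pow_mul_re Complex.add_re
    have h2 := key Complex.im Complex.abs_im_le_norm neg_one_pow_mul_im Complex.add_im
    have hnh : Subexp L fun g => -hob φ g := by
      intro δ hδ
      obtain ⟨C, hC⟩ := hhob δ hδ
      exact ⟨C, fun g => by rw [norm_neg]; exact hC g⟩
    have h5 : ∀ s, HasSum (fun g => -hob φ g * vch A ψ s g)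
        (A.pr (fun p : Fin (2 * m + 2 * k + 2 + 2) → G =>
          (-hob φ (stp x fun i => p (em s i))).re * ψ fun i => p (em sᶜ i)) +
        A.pr (fun p : Fin (2 * m + 2 * k + 2 + 2) → G =>
          (-hob φ (stp x fun i => p (em s i))).im * ψ fun i => p (em sᶜ i)) * Complex.I) := by
      intro s
      have h6 := vch_hasSum A (M := 2 * m + 2 * k + 2 + 1) (n := 2 * m + 1) hψ2' s
        (f := fun g => -hob φ g) (hnh _ (veps_pos A _ _))
      have hψG : A.Good ψ := ⟨hψ1, hψ2⟩
      have h7 : ∀ r : ℂ → ℝ, (∀ z, |r z| ≤ ‖z‖) →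
          A.Good (fun p : Fin (2 * m + 2 * k + 2 + 2) → G =>
          r (-hob φ (stp x fun i => p (em s i))) * ψ fun i => p (em sᶜ i)) := fun r hr =>
        ((good_part A hnh r hr).comp (em s)).mul (hψG.comp (em sᶜ))
      have h8 := prC_eq A (F := fun p : Fin (2 * m + 2 * k + 2 + 2) → G =>
        -hob φ (stp x fun i => p (em s i)) * (ψ fun i => p (em sᶜ i) : ℝ)) (by
          refine (h7 Complex.re Complex.abs_re_le_norm).summable.congr fun a => ?_
          rw [Complex.re_mul_ofReal]) (by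
          refine (h7 Complex.im Complex.abs_im_le_norm).summable.congr fun a => ?_
          rw [Complex.im_mul_ofReal])
      simp only [Complex.re_mul_ofReal, Complex.im_mul_ofReal] at h8
      rw [← h8]
      exact h6
    have h6 := hasSum_sum (s := P) fun s _ => (h5 s).mul_left (c s)
    have h7 : ∑ s ∈ P, c s * (A.pr (fun p : Fin (2 * m + 2 * k + 2 + 2) → G =>
          (-hob φ (stp x fun i => p (em s i))).re * ψ fun i => p (em sᶜ i)) +
        A.pr (fun p : Fin (2 * m + 2 * k + 2 + 2) → G =>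
          (-hob φ (stp x fun i => p (em s i))).im * ψ fun i => p (em sᶜ i)) * Complex.I) =
        A.pr (fun p => (φ (stp A.x p)).re) + A.pr (fun p => (φ (stp A.x p)).im) * Complex.I := by
      have h8 : A.pr (fun p : Fin (2 * m + 1) → G => (φ (stp A.x p)).re) = _ := h1
      have h9 : A.pr (fun p : Fin (2 * m + 1) → G => (φ (stp A.x p)).im) = _ := h2
      rw [h8, h9, Finset.sum_mul, ← Finset.sum_add_distrib]
      refine Finset.sum_congr rfl fun s _ => ?_
      ring
    rw [h7] at h6
    rw [← h6.tsum_eq]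
    refine tsum_congr fun g => ?_
    simp only [hb]
    rw [Finset.mul_sum]
    refine Finset.sum_congr rfl fun s _ => ?_
    ring

end Final

end Vale.Agent.P184

end
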