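import Mathlib
import Vale.Agent.P184.R2.O6

/-!
# The odd pairing of cyclic functions which need not be closed
-/

namespace Vale.Agent.P184.Odd

noncomputable section

namespace LData

variable {G : Type*} [Group G] {D : Type*} [NormedRing D] [NormedAlgebra ℂ D] {A : LData G D}

/-! ### Expressions which are linear in a cochain, pointwise -/

/-- `H E p` is a sum of values of `E` at tuples of components of `p`, with admissible factors -/
def PE (A : LData G D) {m n : ℕ} (H : ((Fin m → G) → ℝ) → (Fin n → G) → ℝ) : Prop :=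
  ∃ (k : ℕ) (f : Fin k → Fin m → Fin n) (χ : Fin k → (Fin n → G) → ℝ),
    (∀ i, A.toD.Good (χ i)) ∧ ∀ E p, H E p = ∑ i, (E fun l => p (f i l)) * χ i p

theorem PE.single {m n : ℕ} (f : Fin m → Fin n) {χ : (Fin n → G) → ℝ} (hχ : A.toD.Good χ) :
    PE A fun (E : (Fin m → G) → ℝ) (p : Fin n → G) => (E fun l => p (f l)) * χ p :=
  ⟨1, fun _ => f, fun _ => χ, fun _ => hχ, fun E p => by simp⟩

theorem PE.zero {m n : ℕ} : PE A fun (_ : (Fin m → G) → ℝ) (_ : Fin n → G) => 0 :=
  ⟨0, fun i => i.elim0, fun i => i.elim0, fun i => i.elim0, fun E p => by simp⟩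

theorem PE.congr {m n : ℕ} {H H' : ((Fin m → G) → ℝ) → (Fin n → G) → ℝ} (hH : PE A H)
    (h : ∀ E p, H' E p = H E p) : PE A H' := by
  obtain ⟨k, f, χ, h1, h2⟩ := hH
  exact ⟨k, f, χ, h1, fun E p => (h E p).trans (h2 E p)⟩

theorem PE.add {m n : ℕ} {H H' : ((Fin m → G) → ℝ) → (Fin n → G) → ℝ} (hH : PE A H)
    (hH' : PE A H') : PE A fun E p => H E p + H' E p := by
  obtain ⟨k, f, χ, h1, h2⟩ := hH
  obtain ⟨k', f', χ', h1', h2'⟩ := hH'
  refine ⟨k + k', Fin.append f f', Fin.append χ χ', fun i => ?_, fun E p => ?_⟩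
  · refine Fin.addCases (fun j => ?_) (fun j => ?_) i
    · rw [Fin.append_left]; exact h1 j
    · rw [Fin.append_right]; exact h1' j
  · beta_reduce
    rw [h2, h2', Fin.sum_univ_add]
    simp only [Fin.append_left, Fin.append_right]

theorem PE.mul {m n : ℕ} {H : ((Fin m → G) → ℝ) → (Fin n → G) → ℝ} (hH : PE A H)
    {c : (Fin n → G) → ℝ} (hc : A.toD.Good c) : PE A fun E p => H E p * c p := by
  obtain ⟨k, f, χ, h1, h2⟩ := hH
  refine ⟨k, f, fun i p => χ i p * c p, fun i => (h1 i).mul hc, fun E p => ?_⟩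
  beta_reduce
  rw [h2, Finset.sum_mul]
  exact Finset.sum_congr rfl fun i _ => by ring

theorem PE.smul {m n : ℕ} {H : ((Fin m → G) → ℝ) → (Fin n → G) → ℝ} (hH : PE A H)
    (c : ℝ) : PE A fun E p => c * H E p :=
  (hH.mul (DData.Good.const c)).congr fun E p => by ring

theorem PE.sum {m n : ℕ} {ι : Type*} (S : Finset ι)
    {H : ι → ((Fin m → G) → ℝ) → (Fin n → G) → ℝ} (hH : ∀ i, PE A (H i)) :
    PE A fun E p => ∑ i ∈ S, H i E p := by
  classical
  induction S using Finset.induction_on with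
  | empty => simpa only [Finset.sum_empty] using PE.zero
  | insert a S ha ih =>
    simp only [Finset.sum_insert ha]
    exact (hH a).add ih

theorem PE.comp {m n n' : ℕ} {H : ((Fin m → G) → ℝ) → (Fin n → G) → ℝ} (hH : PE A H)
    (g : Fin n → Fin n') : PE A fun E (p : Fin n' → G) => H E fun i => p (g i) := by
  obtain ⟨k, f, χ, h1, h2⟩ := hH
  exact ⟨k, fun i l => g (f i l), fun i p => χ i fun j => p (g j), fun i => (h1 i).comp g,
    fun E p => h2 E _⟩

theorem PE.fv {m n : ℕ} (s : Finset (Fin n)) :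
    PE A fun (E : (Fin m → G) → ℝ) (p : Fin n → G) => fv E p s := by
  by_cases h : s.card = m
  · refine (PE.single (A := A) (fun i => s.orderEmbOfFin h i) (DData.Good.const 1)).congr
      fun E p => ?_
    rw [fv_eq E p h, mul_one]
  · refine PE.zero.congr fun E p => fv_hom E p s h

theorem PE.bs {m n : ℕ} (s : Finset (Fin n)) :
    PE A fun (E : (Fin (m + 1) → G) → ℝ) (p : Fin (n + 1) → G) => bs E p s := by
  simp only [← fv_in0]
  exact PE.fv _

theorem PE.gm {m n : ℕ} {α : Type*} [LinearOrder α]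
    {f : ((Fin m → G) → ℝ) → (Fin n → G) → Finset α → ℝ} {g : (Fin n → G) → Finset α → ℝ}
    (hf : ∀ s, PE A fun E p => f E p s) (hg : ∀ s, A.toD.Good fun p => g p s) (u : Finset α) :
    PE A fun E p => gm (f E p) (g p) u :=
  PE.sum _ fun s => ((hf s).smul (sg s (u \ s))).mul (hg (u \ s))

theorem PE.cb {m n : ℕ} {H : ((Fin m → G) → ℝ) → (Fin n → G) → ℝ} (hH : PE A H) :
    PE A fun E (p : Fin (n + 1) → G) => cb (H E) p :=
  PE.sum _ fun j => (hH.comp j.succAbove).smul _

theorem PE.good {m n : ℕ} {H : ((Fin m → G) → ℝ) → (Fin n → G) → ℝ} (hH : PE A H)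
    {E : (Fin m → G) → ℝ} (hE : A.toD.Good E) : A.toD.Good (H E) := by
  obtain ⟨k, f, χ, h1, h2⟩ := hH
  have h3 : H E = fun p => ∑ i, (E fun l => p (f i l)) * χ i p := funext fun p => h2 E p
  rw [h3]
  exact DData.Good.sum _ fun i => (hE.comp (f i)).mul (h1 i)

/-! ### Functionals -/

/-- The data of an elementary functional. -/
structure El (A : LData G D) (m : ℕ) where
  n : ℕ
  w : Fin (n + 1) → A.Lt
  f : Fin m → Fin (n + 1)
  χ : (Fin (n + 1) → G) → ℝ
  hχ : A.toD.Good χ
  c : ℂ

/-- the elementary functional -/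
def El.ev {m : ℕ} (t : El A m) (E : (Fin m → G) → ℝ) : ℂ :=
  t.c * P t.w fun p => (E fun l => p (t.f l)) * t.χ p

/-- `Φ` is a sum of elementary functionals on the admissible functions -/
def Er (A : LData G D) {m : ℕ} (Φ : ((Fin m → G) → ℝ) → ℂ) : Prop :=
  ∃ (k : ℕ) (t : Fin k → El A m), ∀ E, A.toD.Good E → Φ E = ∑ i, (t i).ev E

theorem Er.add {m : ℕ} {Φ Φ' : ((Fin m → G) → ℝ) → ℂ} (h : Er A Φ) (h' : Er A Φ') :
    Er A fun E => Φ E + Φ' E := by
  obtain ⟨k, t, h1⟩ := h
  obtain ⟨k', t', h1'⟩ := h'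
  refine ⟨k + k', Fin.append t t', fun E hE => ?_⟩
  beta_reduce
  rw [h1 E hE, h1' E hE, Fin.sum_univ_add]
  simp only [Fin.append_left, Fin.append_right]

theorem Er.smul {m : ℕ} {Φ : ((Fin m → G) → ℝ) → ℂ} (h : Er A Φ) (c : ℂ) :
    Er A fun E => c * Φ E := by
  obtain ⟨k, t, h1⟩ := h
  refine ⟨k, fun i => { t i with c := c * (t i).c }, fun E hE => ?_⟩
  beta_reduce
  rw [h1 E hE, Finset.mul_sum]
  refine Finset.sum_congr rfl fun i _ => ?_
  unfold El.ev
  ring

theorem Er.zero {m : ℕ} : Er A fun _ : (Fin m → G) → ℝ => 0 :=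
  ⟨0, fun i => i.elim0, fun E _ => by simp⟩

theorem Er.congr {m : ℕ} {Φ Φ' : ((Fin m → G) → ℝ) → ℂ} (h : Er A Φ)
    (h' : ∀ E, A.toD.Good E → Φ' E = Φ E) : Er A Φ' := by
  obtain ⟨k, t, h1⟩ := h
  exact ⟨k, t, fun E hE => (h' E hE).trans (h1 E hE)⟩

theorem Er.sum {m : ℕ} {ι : Type*} (S : Finset ι) {Φ : ι → ((Fin m → G) → ℝ) → ℂ}
    (h : ∀ i, Er A (Φ i)) : Er A fun E => ∑ i ∈ S, Φ i E := by
  classical
  induction S using Finset.induction_on with
  | empty => simpa only [Finset.sum_empty] using Er.zero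
  | insert a S ha ih =>
    simp only [Finset.sum_insert ha]
    exact (h a).add ih

theorem PE.er {m n : ℕ} {H : ((Fin m → G) → ℝ) → (Fin (n + 1) → G) → ℝ} (hH : PE A H)
    (w : Fin (n + 1) → A.Lt) : Er A fun E => P w (H E) := by
  obtain ⟨k, f, χ, h1, h2⟩ := hH
  refine ⟨k, fun i => ⟨n, w, f i, χ i, h1 i, 1⟩, fun E hE => ?_⟩
  have h3 : H E = fun p => ∑ i, (E fun l => p (f i l)) * χ i p := funext fun p => h2 E p
  beta_reduce
  rw [h3, P_sum w Finset.univ fun i => (hE.comp (f i)).mul (h1 i)]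
  refine Finset.sum_congr rfl fun i _ => ?_
  unfold El.ev
  rw [one_mul]

theorem PE.erT {m n : ℕ} {H : ((Fin m → G) → ℝ) → (Fin (n + 1) → G) → ℝ} (hH : PE A H)
    (a b : A.Lt) : Er A fun E => T a b (H E) :=
  ((hH.er (aw a b (n + 1))).add ((hH.er (aw b a (n + 1))).smul (-1))).congr fun E _ => by
    unfold T
    ring

variable [CompleteSpace D]

/-! ### The periodicity operator -/

/-- the failure of cyclicity -/
def dc (x : G) {m : ℕ} (F : (Fin (m + 1) → G) → ℝ) (p : Fin (m + 1) → G) : ℝ :=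
  F (shf x p) + F p

omit [CompleteSpace D] in
theorem P_shf' {m : ℕ} (w : Fin (m + 1) → A.Lt) {F : (Fin (m + 1) → G) → ℝ}
    (hF : A.toD.Good F) : P (fun i => w (finRotate (m + 1) i)) F = P w (dc A.x F) - P w F := by
  have h1 : (dc A.x F : (Fin (m + 1) → G) → ℝ) = fun p => F (shf A.x p) + F p := rfl
  have h2 : A.toD.Good fun p => F (shf A.x p) := hF.shf
  rw [h1, P_add w h2 hF, P_shf w hF.inv]
  ring

/-- the word with a doubled letter -/
def dw (a b : A.Lt) (m : ℕ) (i : Fin (m + 1)) (k : Fin (m + 2)) : A.Lt :=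
  al a b (if (k : ℕ) ≤ i then k else k + 1)

/-- the value at an alternating word with a doubled letter -/
theorem P_double' {m : ℕ} (hm : Odd m) {a b : A.Lt} (h : Inv a b) {F : (Fin (m + 1) → G) → ℝ}
    (hF : A.toD.Good F) (i : Fin (m + 1)) :
    P (ct i (dw a b m i)) F = -2 * P (aw a b (m + 1)) F -
      (-1) ^ (i : ℕ) * (P (dw a b m i) (cb F) +
        P (fun k : Fin (m + 1) => dw a b m i k.castSucc) (dc A.x F)) := by
  set v : Fin (m + 2) → A.Lt := dw a b m i with hv
  have hv1 : ∀ k : Fin (m + 2), (k : ℕ) ≤ i → v k = al a b k := by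
    intro k hk
    simp only [hv]
    unfold dw
    rw [if_pos hk]
  have hv2 : ∀ k : Fin (m + 2), (i : ℕ) < k → v k = al a b (k + 1) := by
    intro k hk
    simp only [hv]
    unfold dw
    rw [if_neg (not_le.2 hk)]
  set r : Fin (m + 2) → ℂ := fun y => P (fun k => v (y.succAbove k)) F with hr
  set d : ℂ := P (fun k : Fin (m + 1) => v k.castSucc) (dc A.x F) with hd
  -- the deletion of the first vertex
  have h0 : P v (fun p : Fin (m + 2) → G => F fun k => p k.succ) =
      -(r 0) + r (Fin.last (m + 1)) - d := by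
    rw [P_del_zero v hF]
    set v' : Fin (m + 2) → A.Lt := fun l => v (finRotate (m + 2) l) with hv'
    have e1 : finRotate (m + 2) (Fin.last m).castSucc = Fin.last (m + 1) := by
      apply Fin.ext
      rw [coe_finRotate_of_ne_last (Fin.castSucc_lt_last _).ne]
      simp
    have e2 : finRotate (m + 2) (Fin.last m).succ = 0 := by
      rw [Fin.succ_last, finRotate_last]
    have e3 : v (Fin.last (m + 1)) = b := by
      rw [hv2 _ (by rw [Fin.val_last]; exact i.isLt)]
      unfold al
      rw [if_neg]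
      rw [Fin.val_last, Nat.not_even_iff_odd]
      exact (hm.add_one).add_one
    have e4 : v 0 = a := by
      rw [hv1 _ (by simp)]
      unfold al
      rw [if_pos (by simp)]
    have e5 : cv (v' (Fin.last m).castSucc) (v' (Fin.last m).succ) =
        -(v' (Fin.last m).castSucc + v' (Fin.last m).succ) := by
      simp only [hv', e1, e2, e3, e4]
      rw [h.2, add_comm]
    rw [P_ct _ _ e5 hF]
    have e6 : (fun k => v' ((Fin.last m).succ.succAbove k)) =
        fun k => v ((0 : Fin (m + 2)).succAbove k) := by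
      funext k
      simp only [hv', Fin.succ_last, Fin.succAbove_last, Fin.succAbove_zero]
      congr 1
      apply Fin.ext
      rw [coe_finRotate_of_ne_last (Fin.castSucc_lt_last _).ne]
      simp
    have e7 : (fun k => v' ((Fin.last m).castSucc.succAbove k)) =
        fun k => (fun l : Fin (m + 1) => v l.castSucc) (finRotate (m + 1) k) := by
      funext k
      simp only [hv']
      congr 1
      refine Fin.lastCases ?_ (fun l => ?_) k
      · rw [Fin.succAbove_castSucc_self, Fin.succ_last, finRotate_last, finRotate_last]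
        rfl
      · rw [Fin.succAbove_of_castSucc_lt _ _
          (Fin.castSucc_lt_castSucc_iff.2 (Fin.castSucc_lt_last l))]
        apply Fin.ext
        have e8 : ((finRotate (m + 1) l.castSucc : Fin (m + 1)) : ℕ) = l + 1 := by
          rw [coe_finRotate_of_ne_last (Fin.castSucc_lt_last l).ne]
          simp
        rw [coe_finRotate_of_ne_last (Fin.castSucc_lt_last _).ne, Fin.val_castSucc]
        exact e8.symm
    have e9 : r (Fin.last (m + 1)) = P (fun l : Fin (m + 1) => v l.castSucc) F := by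
      simp only [hr, Fin.succAbove_last]
    have e10 := P_shf' (fun l : Fin (m + 1) => v l.castSucc) hF
    rw [e6, e7, e9, hd]
    simp only [hr]
    linear_combination -e10
  -- the coboundary
  have h1 : P v (cb F) = P v (fun p : Fin (m + 2) → G => F fun k => p k.succ) +
      ∑ l : Fin (m + 1), (-1 : ℂ) ^ ((l : ℕ) + 1) * P (ct l v) F := by
    have e1 : (cb F : (Fin (m + 2) → G) → ℝ) = fun p => ∑ j : Fin (m + 2),
      (-1) ^ (j : ℕ) * F fun i => p (j.succAbove i) := rfl
    rw [e1, P_sum v Finset.univ (F := fun (j : Fin (m + 2)) (p : Fin (m + 2) → G) =>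
      (-1 : ℝ) ^ (j : ℕ) * F fun i => p (j.succAbove i))
      (fun j => (hF.comp j.succAbove).smul _)]
    rw [Fin.sum_univ_succ]
    simp only [P_smul, Fin.val_zero, pow_zero, Fin.zero_succAbove, Fin.val_succ]
    congr 1
    · push_cast
      rw [one_mul]
    · refine Finset.sum_congr rfl fun l _ => ?_
      rw [← P_del l v hF]
      push_cast
      rfl
  -- contraction of different letters
  have h2 : ∀ l : Fin (m + 1), l ≠ i → P (ct l v) F = -(r l.castSucc + r l.succ) := by
    intro l hl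
    refine P_ct l v ?_ hF
    rcases lt_or_gt_of_ne (fun h => hl (Fin.ext h) : (l : ℕ) ≠ i) with h3 | h3
    · rw [hv1 l.castSucc (by simpa using h3.le), hv1 l.succ (by simpa using h3)]
      simp only [Fin.val_castSucc, Fin.val_succ]
      exact h.al _
    · rw [hv2 l.castSucc (by simpa using h3), hv2 l.succ (by rw [Fin.val_succ]; omega)]
      simp only [Fin.val_castSucc, Fin.val_succ]
      exact h.al _
  have h3 : ∑ l : Fin (m + 1), (-1 : ℂ) ^ ((l : ℕ) + 1) * P (ct l v) F =
      (r 0 - (-1) ^ (m + 1) * r (Fin.last (m + 1))) -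
        (-1) ^ (i : ℕ) * (P (ct i v) F + (r i.castSucc + r i.succ)) := by
    rw [← tel_fin (m + 1) r, ← Finset.add_sum_erase _ _ (Finset.mem_univ i),
      ← Finset.add_sum_erase _ (fun j : Fin (m + 1) =>
        (-1 : ℂ) ^ (j : ℕ) * (r j.castSucc + r j.succ)) (Finset.mem_univ i)]
    have e1 : ∑ l ∈ Finset.univ.erase i, (-1 : ℂ) ^ ((l : ℕ) + 1) * P (ct l v) F =
        ∑ l ∈ Finset.univ.erase i, (-1 : ℂ) ^ (l : ℕ) * (r l.castSucc + r l.succ) := by
      refine Finset.sum_congr rfl fun l hl => ?_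
      rw [h2 l (Finset.ne_of_mem_erase hl), pow_succ]
      ring
    rw [e1, pow_succ]
    ring
  rw [h0, h3, hm.add_one.neg_one_pow] at h1
  have h4 : ∀ y : Fin (m + 2), (y = i.castSucc ∨ y = i.succ) → r y = P (aw a b (m + 1)) F := by
    intro y hy
    simp only [hr]
    congr 1
    funext k
    unfold aw
    rcases lt_trichotomy (k : ℕ) (i : ℕ) with hk | hk | hk
    · have e1 : y.succAbove k = k.castSucc := by
        refine Fin.succAbove_of_castSucc_lt _ _ ?_
        rcases hy with rfl | rfl <;> simp only [Fin.lt_def, Fin.val_castSucc, Fin.val_succ] <;> omega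
      rw [e1, hv1 _ (by simpa using hk.le)]
      simp
    · have hk' : k = i := Fin.ext hk
      subst hk'
      rcases hy with rfl | rfl
      · rw [Fin.succAbove_castSucc_self, hv2 _ (by simp), Fin.val_succ, al_add_two]
      · rw [Fin.succAbove_succ_self, hv1 _ (by simp)]
        simp
    · have e1 : y.succAbove k = k.succ := by
        refine Fin.succAbove_of_le_castSucc _ _ ?_
        rcases hy with rfl | rfl <;> simp only [Fin.le_def, Fin.val_castSucc, Fin.val_succ] <;> omega
      rw [e1, hv2 _ (by rw [Fin.val_succ]; omega), Fin.val_succ, al_add_two]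
  rw [h4 _ (Or.inl rfl), h4 _ (Or.inr rfl)] at h1
  have e4 : (-1 : ℂ) ^ (i : ℕ) * (-1 : ℂ) ^ (i : ℕ) = 1 := by
    rw [← pow_add, Even.neg_one_pow ⟨_, rfl⟩]
  linear_combination ((-1 : ℂ) ^ (i : ℕ)) * h1 - (P (ct i v) F + 2 * P (aw a b (m + 1)) F) * e4

/-- the effect of the periodicity operator, with error terms -/
theorem P_s2' {m : ℕ} (hm : Odd m) {a b : A.Lt} (h : Inv a b) {F : (Fin (m + 1) → G) → ℝ}
    (hF : A.toD.Good F) :
    P (aw a b (m + 3)) (s2 F) = -(2 * (m : ℂ) + 4) * P (aw a b (m + 1)) F +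
      (P (aw a b (m + 1)) (dc A.x F) - ∑ i : Fin (m + 1), (-1) ^ (i : ℕ) *
        (P (dw a b m i) (cb F) + P (fun k : Fin (m + 1) => dw a b m i k.castSucc)
          (dc A.x F))) := by
  set w : Fin (m + 3) → A.Lt := aw a b (m + 3) with hw
  -- the partial pairings
  set r : Fin (m + 1) → Fin (m + 3) → ℂ := fun i y =>
    P (fun k => w (y.succAbove k)) (fun p : Fin (m + 2) → G => F fun l => p (i.succ.succAbove l))
    with hr
  have hg : ∀ i : Fin (m + 1), A.toD.Good fun p : Fin (m + 2) → G =>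
      F fun l => p (i.succ.succAbove l) := fun i => hF.comp i.succ.succAbove
  have h1 : P w (s2 F) = ∑ i : Fin (m + 1), ∑ j : Fin (m + 2), if (i : ℕ) < j then
      (-1 : ℂ) ^ ((i : ℕ) + j) * -(r i j.castSucc + r i j.succ) else 0 := by
    unfold s2
    have hgood : ∀ (j : Fin (m + 2)) (i : Fin (m + 1)), A.toD.Good fun p : Fin (m + 3) → G =>
        if (i : ℕ) < j then (-1) ^ ((i : ℕ) + j) *
          F fun l => p (j.succ.succAbove (i.succ.succAbove l)) else 0 := by
      intro j i
      split_ifs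
      · exact ((hg i).comp j.succ.succAbove).smul _
      · exact DData.Good.const 0
    rw [P_sum w Finset.univ (F := fun (j : Fin (m + 2)) (p : Fin (m + 3) → G) =>
      ∑ i : Fin (m + 1), if (i : ℕ) < j then (-1) ^ ((i : ℕ) + j) *
          F fun l => p (j.succ.succAbove (i.succ.succAbove l)) else 0)
      (fun j => DData.Good.sum _ (hgood j)), Finset.sum_comm]
    refine Finset.sum_congr rfl fun j _ => ?_
    rw [P_sum w Finset.univ (hgood j)]
    refine Finset.sum_congr rfl fun i _ => ?_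
    split_ifs
    · rw [P_smul, P_del j w (hg i), P_ct j w (h.al _) (hg i)]
      push_cast
      rfl
    · exact P_zero w
  have h2 : ∀ i : Fin (m + 1), ∑ j : Fin (m + 2), (if (i : ℕ) < j then
      (-1 : ℂ) ^ ((i : ℕ) + j) * -(r i j.castSucc + r i j.succ) else 0) =
      r i i.succ.castSucc - (-1) ^ (i : ℕ) * r i (Fin.last (m + 2)) := by
    intro i
    have e1 := tel_part (m + 2) (r i) i (by omega)
    have e2 : (⟨(i : ℕ) + 1, Nat.succ_lt_succ (by omega)⟩ : Fin (m + 3)) = i.succ.castSucc := rfl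
    rw [e2] at e1
    have e3 : ∑ j : Fin (m + 2), (if (i : ℕ) < j then
        (-1 : ℂ) ^ ((i : ℕ) + j) * -(r i j.castSucc + r i j.succ) else 0) =
        -(-1) ^ (i : ℕ) * ∑ j : Fin (m + 2), (if (i : ℕ) < j then
          (-1 : ℂ) ^ (j : ℕ) * (r i j.castSucc + r i j.succ) else 0) := by
      rw [Finset.mul_sum]
      refine Finset.sum_congr rfl fun j _ => ?_
      split_ifs
      · rw [pow_add]; ring
      · ring
    have e4 : (-1 : ℂ) ^ (i : ℕ) * (-1 : ℂ) ^ (i : ℕ) = 1 := by
      rw [← pow_add, Even.neg_one_pow ⟨_, rfl⟩]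
    have e5 : (-1 : ℂ) ^ (m + 2) = -1 := (hm.add_one.add_one).neg_one_pow
    rw [e3, e1, e5, pow_succ]
    linear_combination r i i.succ.castSucc * e4
  -- the two remaining sums
  have h3 : ∀ i : Fin (m + 1), r i i.succ.castSucc = -2 * P (aw a b (m + 1)) F -
      (-1) ^ (i : ℕ) * (P (dw a b m i) (cb F) +
        P (fun k : Fin (m + 1) => dw a b m i k.castSucc) (dc A.x F)) := by
    intro i
    simp only [hr]
    rw [P_del i _ hF, ← P_double' hm h hF i]
    congr 2
    funext k
    unfold dw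
    simp only [hw]
    by_cases hk : (k : ℕ) ≤ i
    · have e1 : i.succ.castSucc.succAbove k = k.castSucc := by
        refine Fin.succAbove_of_castSucc_lt _ _ ?_
        simp only [Fin.lt_def, Fin.val_castSucc, Fin.val_succ]
        omega
      rw [e1, if_pos hk]
      rfl
    · have e1 : i.succ.castSucc.succAbove k = k.succ := by
        refine Fin.succAbove_of_le_castSucc _ _ ?_
        simp only [Fin.le_def, Fin.val_castSucc, Fin.val_succ]
        omega
      rw [e1, if_neg hk]
      unfold aw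
      rw [Fin.val_succ]
  have h4 : ∑ i : Fin (m + 1), (-1 : ℂ) ^ (i : ℕ) * r i (Fin.last (m + 2)) =
      2 * P (aw a b (m + 1)) F - P (aw a b (m + 1)) (dc A.x F) := by
    have e1 : ∀ i : Fin (m + 1), r i (Fin.last (m + 2)) = P (aw a b (m + 2))
        (fun p : Fin (m + 2) → G => F fun l => p (i.succ.succAbove l)) := by
      intro i
      simp only [hr, Fin.succAbove_last]
      rfl
    simp only [e1]
    rw [P_tel (aw a b (m + 2)) (fun j => h.al _) hF]
    have e2 : (fun i : Fin (m + 1) => aw a b (m + 2) i.succ) = aw b a (m + 1) := by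
      funext i
      unfold aw
      rw [Fin.val_succ, al_succ]
    have e3 : (fun i : Fin (m + 1) => aw a b (m + 2) i.castSucc) = aw a b (m + 1) := by
      funext i
      rfl
    have e4 := P_shf' (aw a b (m + 1)) hF
    simp only [aw_rot hm] at e4
    change P (aw b a (m + 1)) F = _ at e4
    rw [e2, e3, e4, hm.add_one.neg_one_pow]
    ring
  rw [h1, Finset.sum_congr rfl fun i _ => h2 i, Finset.sum_sub_distrib, h4,
    Finset.sum_congr rfl fun i _ => h3 i, Finset.sum_sub_distrib, Finset.sum_const,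
    Finset.card_univ, Fintype.card_fin, nsmul_eq_mul]
  push_cast
  ring

end LData

end

end Vale.Agent.P184.Odd
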