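import Mathlib
import Vale.Agent.P184.R2.O8

/-!
# The odd pairing of cyclic functions which need not be closed, continued
-/

namespace Vale.Agent.P184.Odd

noncomputable section

section Alg

variable {α : Type*} [LinearOrder α]

theorem gm_sub_left (f f' g : Finset α → ℝ) (u : Finset α) :
    gm (fun s => f s - f' s) g u = gm f g u - gm f' g u := by
  unfold gm
  rw [← Finset.sum_sub_distrib]
  exact Finset.sum_congr rfl fun s _ => by ring

theorem gm_add_left (f f' g : Finset α → ℝ) (u : Finset α) :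
    gm (fun s => f s + f' s) g u = gm f g u + gm f' g u := by
  unfold gm
  rw [← Finset.sum_add_distrib]
  exact Finset.sum_congr rfl fun s _ => by ring

theorem gm_comm {b c : ℕ} {f g : Finset α → ℝ} (hf : Hom b f) (hg : Hom c g) (u : Finset α) :
    gm f g u = (-1) ^ (b * c) * gm g f u := by
  unfold gm
  rw [Finset.mul_sum]
  refine Finset.sum_bij' (fun s _ => u \ s) (fun s _ => u \ s) ?_ ?_ ?_ ?_ ?_
  · intro s _
    exact Finset.mem_powerset.2 Finset.sdiff_subset
  · intro s _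
    exact Finset.mem_powerset.2 Finset.sdiff_subset
  · intro s hs
    exact Finset.sdiff_sdiff_eq_self (Finset.mem_powerset.1 hs)
  · intro s hs
    exact Finset.sdiff_sdiff_eq_self (Finset.mem_powerset.1 hs)
  · intro s hs
    rw [Finset.sdiff_sdiff_eq_self (Finset.mem_powerset.1 hs)]
    by_cases h1 : s.card = b
    · by_cases h2 : (u \ s).card = c
      · rw [sg_comm' (Finset.disjoint_sdiff (s := s) (t := u)), h1, h2]
        ring
      · rw [hg _ h2]
        ring
    · rw [hf _ h1]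
      ring

theorem gm_io_two {j : ℕ} (u : Finset α) :
    gm (io (2 * j)) (io 2) u = ((j : ℝ) + 1) * io (2 * (j + 1)) u := by
  rw [gm_comm (io_hom (2 * j)) (io_hom 2), io_two_io]
  have h : (-1 : ℝ) ^ (2 * j * 2) = 1 := by
    rw [mul_assoc, pow_mul]
    norm_num
  rw [h, one_mul]

end Alg

section Ind

variable {G : Type*}

theorem fv_sub {α : Type*} [LinearOrder α] {k : ℕ} (F F' : (Fin k → G) → ℝ) (p : α → G)
    (s : Finset α) : fv (fun q => F q - F' q) p s = fv F p s - fv F' p s := by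
  by_cases h : s.card = k
  · rw [fv_eq _ p h, fv_eq _ p h, fv_eq _ p h]
  · rw [fv_hom _ p s h, fv_hom _ p s h, fv_hom _ p s h, sub_zero]

theorem gm_io_one_bs' {m n : ℕ} (F : (Fin (m + 1) → G) → ℝ) (p : Fin (n + 1) → G)
    (u : Finset (Fin n)) : gm (io 1) (bs F p) u = pl F p u - bs (cb F) p u := by
  unfold bs
  rw [gm_io_one_fv]
  have h : (cb fun q : Fin m → G => F (Fin.cons (p 0) q)) =
      fun q => F q - cb F (Fin.cons (p 0) q) := by
    funext q
    rw [cb_cons]
  rw [h, fv_sub]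
  rfl

/-- products with the indicator functions of odd degree -/
theorem gm_pl_io' {m n : ℕ} (F : (Fin (m + 1) → G) → ℝ) {c : ℕ} (hc : Odd c)
    (p : Fin (n + 1) → G) (u : Finset (Fin n)) :
    gm (pl F p) (io c) u = gm (bs (cb F) p) (io c) u := by
  have h1 : gm (pl F p) (io c) u =
      gm (fun s => gm (io 1) (bs F p) s + bs (cb F) p s) (io c) u := by
    refine gm_congr (fun s _ => ?_) fun s _ => rfl
    rw [gm_io_one_bs' F]
    ring
  have h2 : gm (gm (io 1) (bs F p)) (io c) u =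
      gm (gm (bs F p) (io 1)) (fun s => (-1) ^ m * io c s) u := by
    unfold gm
    refine Finset.sum_congr rfl fun s _ => ?_
    have := io_one_comm (bs_hom F p) s
    unfold gm at this
    rw [this]
    ring
  have h3 : gm (bs F p) (gm (io 1) (io c)) u = gm (bs F p) (fun _ => 0) u :=
    gm_congr (fun s _ => rfl) fun s _ => io_one_io_odd hc s
  rw [h1, gm_add_left, h2, gm_smul_right, gm_assoc, h3, gm_zero_right, mul_zero, zero_add]

/-- the product of the based evaluation with an indicator function -/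
def gi {m : ℕ} (c N : ℕ) (F : (Fin (m + 1) → G) → ℝ) (p : Fin (N + 1) → G) : ℝ :=
  gm (bs F p) (io c) (Finset.univ : Finset (Fin N))

/-- the product of the evaluation with an indicator function -/
def gf {m : ℕ} (c N : ℕ) (F : (Fin m → G) → ℝ) (p : Fin N → G) : ℝ :=
  gm (fv F p) (io c) (Finset.univ : Finset (Fin N))

theorem bs_gi {m n N c : ℕ} (hN : N = m + c) (F : (Fin (m + 1) → G) → ℝ) (p : Fin (n + 1) → G)
    (s : Finset (Fin n)) : bs (gi c N F) p s = gm (bs F p) (io c) s := by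
  subst hN
  by_cases h : s.card = m + c
  · have h1 : bs (gi c (m + c) F) p s =
        gi c (m + c) F (Fin.cons (p 0) fun i => p (s.orderEmbOfFin h i).succ) := by
      unfold bs
      rw [fv_eq _ _ h]
    rw [h1]
    unfold gi
    conv_rhs => rw [← Finset.map_orderEmbOfFin_univ s h]
    rw [gm_map]
    refine gm_congr (fun t _ => ?_) fun t _ => (io_map _ c t).symm
    unfold bs
    rw [← fv_map]
    simp only [Fin.cons_zero, Fin.cons_succ]
  · rw [bs_hom (gi c _ F) p s h, (bs_hom F p).gm (io_hom c) s h]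

theorem fv_gf {m n N c : ℕ} (hN : N = m + c) (F : (Fin m → G) → ℝ) (p : Fin n → G)
    (s : Finset (Fin n)) : fv (gf c N F) p s = gm (fv F p) (io c) s := by
  subst hN
  by_cases h : s.card = m + c
  · rw [fv_eq _ _ h]
    unfold gf
    conv_rhs => rw [← Finset.map_orderEmbOfFin_univ s h]
    rw [gm_map]
    refine gm_congr (fun t _ => ?_) fun t _ => (io_map _ c t).symm
    rw [← fv_map]
  · rw [fv_hom (gf c _ F) p s h, (fv_hom F p).gm (io_hom c) s h]

theorem gi_zero {m : ℕ} (F : (Fin (m + 1) → G) → ℝ) : gi 0 m F = F := by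
  funext p
  unfold gi gm
  rw [Finset.sum_eq_single Finset.univ]
  · have h1 : (Finset.univ \ Finset.univ : Finset (Fin m)) = ∅ := Finset.sdiff_self _
    rw [h1, bs_univ]
    unfold io sg
    simp
  · intro s _ hs
    have h1 : (Finset.univ \ s).card ≠ 0 := by
      intro h2
      apply hs
      have h3 := Finset.card_eq_zero.1 h2
      exact Finset.eq_univ_of_forall fun k => by
        by_contra h4
        have : k ∈ Finset.univ \ s := by simp [h4]
        rw [h3] at this
        exact absurd this (Finset.notMem_empty k)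
    unfold io
    rw [if_neg h1, mul_zero]
  · intro h1
    exact absurd (Finset.mem_powerset.2 (Finset.subset_univ _)) h1

theorem io_up0 {n : ℕ} (c : ℕ) : (fun s : Finset (Fin n) => io c (up0 s)) = io c := by
  funext s
  unfold io
  rw [card_up0]

theorem io_in0 {n : ℕ} (c : ℕ) : (fun s : Finset (Fin n) => io (c + 1) (in0 s)) = io c := by
  funext s
  unfold io
  rw [card_in0]
  by_cases h : s.card = c
  · rw [if_pos (by omega), if_pos h]
  · rw [if_neg (by omega), if_neg h]

theorem gf_split {m N c : ℕ} (hm : Odd m) (hc : Odd c) (F : (Fin (m + 1) → G) → ℝ)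
    (p : Fin (N + 1) → G) : gf (c + 1) (N + 1) F p = gi (c + 1) N F p + gi c N (cb F) p := by
  unfold gf
  rw [gm_split (fv_hom F p), io_up0, io_in0]
  have h3 : (fun s : Finset (Fin N) => fv F p (in0 s)) = bs F p :=
    funext fun s => fv_in0 F p s
  have h4 : (fun s : Finset (Fin N) => fv F p (up0 s)) = pl F p :=
    funext fun s => fv_up0 F p s
  rw [h3, h4, gm_pl_io' F hc, hm.add_one.neg_one_pow, one_mul]
  rfl

theorem cb_gf {m N c : ℕ} (hN : N = m + c) (F : (Fin m → G) → ℝ) :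
    cb (gf c N F) = gf c (N + 1) (cb F) := by
  funext p
  rw [← fv_univ (cb (gf c N F)) p, ← gm_io_one_fv]
  have h1 : gm (io 1) (fv (gf c N F) p) Finset.univ =
      gm (io 1) (gm (fv F p) (io c)) Finset.univ :=
    gm_congr (fun s _ => rfl) fun s _ => fv_gf hN F p s
  rw [h1, ← gm_assoc]
  unfold gf
  refine gm_congr (fun s _ => ?_) fun s _ => rfl
  rw [gm_io_one_fv]

theorem cb_sub {n : ℕ} (F F' : (Fin n → G) → ℝ) (p : Fin (n + 1) → G) :
    cb (fun q => F q - F' q) p = cb F p - cb F' p := by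
  unfold cb
  rw [← Finset.sum_sub_distrib]
  exact Finset.sum_congr rfl fun s _ => by ring

theorem cb_gi {m N c : ℕ} (hm : Odd m) (hc : Odd c) (hN : N = m + (c + 1))
    (F : (Fin (m + 1) → G) → ℝ) (p : Fin (N + 2) → G) :
    cb (gi (c + 1) N F) p = gf (c + 1) (N + 2) (cb F) p - cb (gi c N (cb F)) p := by
  have h1 : (gi (c + 1) N F : (Fin (N + 1) → G) → ℝ) =
      fun q => gf (c + 1) (N + 1) F q - gi c N (cb F) q := by
    funext q
    rw [gf_split hm hc]
    ring
  rw [h1, cb_sub, cb_gf (by omega)]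

variable [Group G]

/-- the cyclic shift of the product -/
theorem gf_shf {m N c : ℕ} (hm : Odd m) (hN : Odd N) (x : G) {F : (Fin (m + 1) → G) → ℝ}
    (hF : ∀ p, F (shf x p) = -F p) (hc : Odd c) (p : Fin (N + 1) → G) :
    gf (c + 1) (N + 1) F (shf x p) = gi c N (cb F) p - gi (c + 1) N F p := by
  unfold gf
  rw [gm_univ, ← (rtE N).sum_comp]
  have h1 : ∀ s : Finset (Fin (N + 1)), sg (rtE N s) (Finset.univ \ rtE N s) *
      fv F (shf x p) (rtE N s) * io (c + 1) (Finset.univ \ rtE N s) =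
      (if 0 ∈ s then 0 else sg s (Finset.univ \ s) * fv F p s * io (c + 1) (Finset.univ \ s)) -
      (if 0 ∈ s then sg s (Finset.univ \ s) * fv F p s * io (c + 1) (Finset.univ \ s) else 0) := by
    intro s
    rw [rtE_apply]
    by_cases h : s.card = m + 1
    · have h2 : io (c + 1) (Finset.univ \ rt s) = io (c + 1) (Finset.univ \ s) := by
        unfold io
        rw [compl_rt, card_rt]
      have h3 : Even s.card := by rw [h]; exact hm.add_one
      rw [sg_rt hN h3, h2]
      by_cases h0 : 0 ∈ s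
      · rw [if_pos h0, if_pos h0, fv_rt_mem x F hF p h0]
        ring
      · rw [if_neg h0, if_neg h0, fv_rt_notMem x F p h0]
        ring
    · rw [fv_hom F _ _ (by rwa [card_rt]), fv_hom F p _ h]
      split_ifs <;> ring
  rw [Finset.sum_congr rfl fun s _ => h1 s, Finset.sum_sub_distrib, gm_notMem (fv_hom F p),
    gm_mem, io_up0, io_in0]
  have h3 : (fun s : Finset (Fin N) => fv F p (in0 s)) = bs F p :=
    funext fun s => fv_in0 F p s
  have h4 : (fun s : Finset (Fin N) => fv F p (up0 s)) = pl F p :=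
    funext fun s => fv_up0 F p s
  rw [h3, h4, gm_pl_io' F hc, hm.add_one.neg_one_pow, one_mul]
  rfl

theorem dc_gi {m N c : ℕ} (hm : Odd m) (hN : Odd N) (x : G) {F : (Fin (m + 1) → G) → ℝ}
    (hF : ∀ p, F (shf x p) = -F p) (hc : Odd c) (p : Fin (N + 1) → G) :
    LData.dc x (gi (c + 1) N F) p = gi c N (cb F) p - gi c N (cb F) (shf x p) := by
  unfold LData.dc
  have h1 := gf_shf hm hN x hF hc p
  rw [gf_split hm hc] at h1
  linear_combination h1

end Ind

namespace LData

variable {G : Type*} [Group G] {D : Type*} [NormedRing D] [NormedAlgebra ℂ D] {A : LData G D}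

theorem PE.gi {m : ℕ} (c N : ℕ) :
    PE A fun (E : (Fin (m + 1) → G) → ℝ) (p : Fin (N + 1) → G) => gi c N E p :=
  PE.gm (g := fun _ => io c) (fun s => PE.bs s) (fun _ => DData.Good.const _) _

theorem PE.gf {m : ℕ} (c N : ℕ) :
    PE A fun (E : (Fin m → G) → ℝ) (p : Fin N → G) => gf c N E p :=
  PE.gm (g := fun _ => io c) (fun s => PE.fv s) (fun _ => DData.Good.const _) _

theorem good_gi {m : ℕ} (c N : ℕ) {F : (Fin (m + 1) → G) → ℝ} (hF : A.toD.Good F) :
    A.toD.Good (gi c N F : (Fin (N + 1) → G) → ℝ) := (PE.gi c N).good hF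

theorem good_cb {m : ℕ} {F : (Fin m → G) → ℝ} (hF : A.toD.Good F) :
    A.toD.Good (cb F : (Fin (m + 1) → G) → ℝ) :=
  DData.Good.sum _ fun j => (hF.comp j.succAbove).smul _

theorem PE.sub {m n : ℕ} {H H' : ((Fin m → G) → ℝ) → (Fin n → G) → ℝ} (hH : PE A H)
    (hH' : PE A H') : PE A fun E p => H E p - H' E p :=
  (hH.add (hH'.smul (-1))).congr fun E p => by ring

/-- a functional of the coboundary of a cyclic function -/
def Fe (A : LData G D) {m : ℕ} (Ψ : ((Fin (m + 1) → G) → ℝ) → ℂ) : Prop :=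
  ∃ Φ : ((Fin (m + 2) → G) → ℝ) → ℂ, Er A Φ ∧ ∀ F : (Fin (m + 1) → G) → ℝ, A.toD.Good F →
    (∀ p, F (shf A.x p) = -F p) → Ψ F = Φ (cb F)

theorem Fe.congr {m : ℕ} {Ψ Ψ' : ((Fin (m + 1) → G) → ℝ) → ℂ} (h : Fe A Ψ)
    (h' : ∀ F : (Fin (m + 1) → G) → ℝ, A.toD.Good F → (∀ p, F (shf A.x p) = -F p) →
      Ψ' F = Ψ F) : Fe A Ψ' := by
  obtain ⟨Φ, h1, h2⟩ := h
  exact ⟨Φ, h1, fun F hF hF1 => (h' F hF hF1).trans (h2 F hF hF1)⟩

theorem Fe.zero {m : ℕ} : Fe A fun _ : (Fin (m + 1) → G) → ℝ => 0 :=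
  ⟨fun _ => 0, Er.zero, fun _ _ _ => rfl⟩

theorem Fe.add {m : ℕ} {Ψ Ψ' : ((Fin (m + 1) → G) → ℝ) → ℂ} (h : Fe A Ψ) (h' : Fe A Ψ') :
    Fe A fun F => Ψ F + Ψ' F := by
  obtain ⟨Φ, h1, h2⟩ := h
  obtain ⟨Φ', h1', h2'⟩ := h'
  exact ⟨_, h1.add h1', fun F hF hF1 => congrArg₂ (· + ·) (h2 F hF hF1) (h2' F hF hF1)⟩

theorem Fe.smul {m : ℕ} {Ψ : ((Fin (m + 1) → G) → ℝ) → ℂ} (h : Fe A Ψ) (c : ℂ) :
    Fe A fun F => c * Ψ F := by
  obtain ⟨Φ, h1, h2⟩ := h
  exact ⟨_, h1.smul c, fun F hF hF1 => congrArg (c * ·) (h2 F hF hF1)⟩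

theorem Fe.sub {m : ℕ} {Ψ Ψ' : ((Fin (m + 1) → G) → ℝ) → ℂ} (h : Fe A Ψ) (h' : Fe A Ψ') :
    Fe A fun F => Ψ F - Ψ' F :=
  (h.add (h'.smul (-1))).congr fun F _ _ => by ring

theorem Fe.sum {m : ℕ} {ι : Type*} (S : Finset ι) {Ψ : ι → ((Fin (m + 1) → G) → ℝ) → ℂ}
    (h : ∀ i, Fe A (Ψ i)) : Fe A fun F => ∑ i ∈ S, Ψ i F := by
  classical
  induction S using Finset.induction_on with
  | empty => simpa only [Finset.sum_empty] using Fe.zero
  | insert a S ha ih =>
    simp only [Finset.sum_insert ha]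
    exact (h a).add ih

theorem fe_of_pe {m n : ℕ} {H : ((Fin (m + 2) → G) → ℝ) → (Fin (n + 1) → G) → ℝ} (hH : PE A H)
    (w : Fin (n + 1) → A.Lt) : Fe A fun F : (Fin (m + 1) → G) → ℝ => P w (H (cb F)) :=
  ⟨_, hH.er w, fun _ _ _ => rfl⟩

theorem fe_cb {m N : ℕ} (hm : Odd m) (j : ℕ) (hN : N = m + 2 * j) (w : Fin (N + 2) → A.Lt) :
    Fe A fun F : (Fin (m + 1) → G) → ℝ => P w (cb (gi (2 * j) N F)) := by
  rcases j with _ | j
  · obtain rfl : N = m := by omega
    refine ((fe_of_pe (PE.fv (A := A) (m := N + 2) Finset.univ) w)).congr fun F hF _ => ?_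
    simp only [mul_zero, gi_zero]
    congr 1
    funext p
    rw [fv_univ]
  · refine (fe_of_pe (((PE.gf (A := A) (m := m + 2) (2 * j + 1 + 1) (N + 2)).sub
      (PE.gi (A := A) (m := m + 1) (2 * j + 1) N).cb)) w).congr fun F hF _ => ?_
    congr 1
    funext p
    exact cb_gi hm ⟨j, rfl⟩ (by omega) F p

theorem fe_dc {m N : ℕ} (hm : Odd m) (j : ℕ) (hN : N = m + 2 * j) (w : Fin (N + 1) → A.Lt) :
    Fe A fun F : (Fin (m + 1) → G) → ℝ => P w (dc A.x (gi (2 * j) N F)) := by
  rcases j with _ | j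
  · obtain rfl : N = m := by omega
    refine Fe.zero.congr fun F hF hF1 => ?_
    simp only [mul_zero, gi_zero]
    rw [← P_zero w]
    congr 1
    funext p
    unfold dc
    rw [hF1]
    ring
  · have hN' : Odd N := by
      rw [hN]
      exact hm.add_even ⟨j + 1, by ring⟩
    refine ((fe_of_pe (PE.gi (A := A) (m := m + 1) (2 * j + 1) N) w).sub
      (fe_of_pe (PE.gi (A := A) (m := m + 1) (2 * j + 1) N)
        fun i => w (finRotate (N + 1) i))).congr fun F hF hF1 => ?_
    have h1 : (dc A.x (gi (2 * (j + 1)) N F) : (Fin (N + 1) → G) → ℝ) = fun p =>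
        gi (2 * j + 1) N (cb F) p + -1 * gi (2 * j + 1) N (cb F) (shf A.x p) := by
      funext p
      have := dc_gi (c := 2 * j + 1) hm hN' A.x hF1 ⟨j, rfl⟩ p
      rw [neg_one_mul, ← sub_eq_add_neg]
      exact this
    have h2 : A.toD.Good (gi (2 * j + 1) N (cb F) : (Fin (N + 1) → G) → ℝ) :=
      good_gi _ _ (good_cb hF)
    have h3 : A.toD.Good fun p => gi (2 * j + 1) N (cb F) (shf A.x p) := h2.shf
    rw [h1, P_add w h2 (h3.smul _), P_smul, P_shf w h2.inv]
    push_cast
    ring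

variable [CompleteSpace D]

/-- the pairing with the iterated periodicity operator -/
theorem P_gi {m : ℕ} (hm : Odd m) (j : ℕ) : ∀ (N : ℕ) (_ : N = m + 2 * j),
    ∃ c : ℂ, c ≠ 0 ∧ ∀ {a b : A.Lt} (_ : Inv a b), Fe A fun F : (Fin (m + 1) → G) → ℝ =>
      P (aw a b (N + 1)) (gi (2 * j) N F) - c * P (aw a b (m + 1)) F := by
  induction j with
  | zero =>
    intro N hN
    obtain rfl : N = m := by omega
    refine ⟨1, one_ne_zero, fun {a b} h => Fe.zero.congr fun F hF hF1 => ?_⟩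
    simp only [mul_zero, gi_zero]
    ring
  | succ j ih =>
    intro N' hN'
    obtain ⟨N, rfl⟩ : ∃ N, N' = N + 2 := ⟨m + 2 * j, by omega⟩
    have hN : N = m + 2 * j := by omega
    have hNo : Odd N := by
      rw [hN]
      exact hm.add_even ⟨j, by ring⟩
    obtain ⟨c, hc, h1⟩ := ih N hN
    have hj : ((j : ℂ) + 1) ≠ 0 := by exact_mod_cast Nat.succ_ne_zero j
    have hN4 : (2 * (N : ℂ) + 4) ≠ 0 := by
      have : (2 * (N : ℂ) + 4) = ((2 * N + 4 : ℕ) : ℂ) := by push_cast; rfl
      rw [this, Nat.cast_ne_zero]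
      omega
    refine ⟨c * (2 * (N : ℂ) + 4) / ((j : ℂ) + 1), div_ne_zero (mul_ne_zero hc hN4) hj,
      fun {a b} h => ?_⟩
    have h2 := fe_dc (A := A) hm j hN (aw a b (N + 1))
    have h3 := Fe.sum (Finset.univ : Finset (Fin (N + 1))) fun i =>
      ((fe_cb (A := A) hm j hN (dw a b N i)).add (fe_dc (A := A) hm j hN
        fun k : Fin (N + 1) => dw a b N i k.castSucc)).smul ((-1) ^ (i : ℕ))
    refine (((h1 h).smul ((2 * (N : ℂ) + 4) / ((j : ℂ) + 1))).sub
      ((h2.sub h3).smul (1 / ((j : ℂ) + 1)))).congr fun F hF hF1 => ?_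
    have h4 := P_s2' hNo h (good_gi (A := A) (2 * j) N hF)
    have h5 : (s2 (gi (2 * j) N F) : (Fin (N + 3) → G) → ℝ) =
        fun p => -((j : ℝ) + 1) * gi (2 * (j + 1)) (N + 2) F p := by
      funext p
      rw [s2_eq]
      unfold sp
      have e1 : gm (bs (gi (2 * j) N F) p) (io 2) (Finset.univ : Finset (Fin (N + 2))) =
          gm (gm (bs F p) (io (2 * j))) (io 2) Finset.univ :=
        gm_congr (fun s _ => bs_gi hN F p s) fun s _ => rfl
      have e2 : gm (bs F p) (gm (io (2 * j)) (io 2)) (Finset.univ : Finset (Fin (N + 2))) =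
          gm (bs F p) (fun s => ((j : ℝ) + 1) * io (2 * (j + 1)) s) Finset.univ :=
        gm_congr (fun s _ => rfl) fun s _ => gm_io_two s
      rw [e1, gm_assoc, e2, gm_smul_right]
      unfold gi
      ring
    rw [h5, P_smul] at h4
    push_cast at h4
    change P (aw a b (N + 3)) (gi (2 * (j + 1)) (N + 2) F) - _ = _
    field_simp
    linear_combination -h4

end LData

end

end Vale.Agent.P184.Odd
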