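import Mathlib
import Vale.Agent.P184.R2.O9

/-!
# The odd pairing of cyclic functions in terms of the coboundary
-/

namespace Vale.Agent.P184.Odd

noncomputable section

/-- a rotation invariant function of sets: all sums over the sets avoiding a point agree -/
theorem sum_of_rt {N c : ℕ} (hc : c < N + 1) (Y : Finset (Fin (N + 1)) → ℂ)
    (hY : ∀ s, Y (rt s) = Y s) (hY0 : ∀ s, s.card ≠ c → Y s = 0) :
    (N + 1 - c) * ∑ s, Y s = (N + 1) * ∑ s, (if (0 : Fin (N + 1)) ∈ s then 0 else Y s) := by
  set w : Fin (N + 1) → ℂ := fun k => ∑ s, if k ∈ s then 0 else Y s with hw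
  have hrot : ∀ k, w (finRotate (N + 1) k) = w k := by
    intro k
    simp only [hw]
    rw [← (rtE N).sum_comp fun s => if k ∈ s then 0 else Y s]
    refine Finset.sum_congr rfl fun s _ => ?_
    rw [rtE_apply, hY]
    simp only [mem_rt]
  have hw0 : ∀ k, w k = w 0 := by
    intro k
    refine Fin.induction rfl (fun l ih => ?_) k
    rw [← ih, ← hrot l.castSucc]
    congr 1
    apply Fin.ext
    rw [coe_finRotate_of_ne_last (Fin.castSucc_lt_last l).ne]
    simp
  have h1 : ∑ k, w k = (N + 1 - c) * ∑ s, Y s := by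
    simp only [hw]
    rw [Finset.sum_comm, Finset.mul_sum]
    refine Finset.sum_congr rfl fun s _ => ?_
    by_cases hs : s.card = c
    · have h2 : ∑ k : Fin (N + 1), (if k ∈ s then 0 else Y s) =
          ∑ k ∈ Finset.univ \ s, Y s := by
        rw [← Finset.sum_filter_add_sum_filter_not Finset.univ (fun k => k ∈ s)]
        rw [Finset.sum_eq_zero (s := Finset.univ.filter fun k => k ∈ s), zero_add]
        · refine Finset.sum_congr ?_ fun k hk => ?_
          · ext k; simp
          · exact if_neg (Finset.mem_sdiff.1 hk).2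
        · intro k hk
          rw [if_pos (Finset.mem_filter.1 hk).2]
      rw [h2, Finset.sum_const, Finset.card_sdiff_of_subset (Finset.subset_univ s),
        Finset.card_univ, Fintype.card_fin, hs, nsmul_eq_mul, Nat.cast_sub hc.le]
      push_cast
      rfl
    · rw [hY0 s hs, mul_zero]
      exact Finset.sum_eq_zero fun k _ => by split_ifs <;> rfl
  rw [← h1, Finset.sum_congr rfl fun k _ => hw0 k, Finset.sum_const, Finset.card_univ,
    Fintype.card_fin, nsmul_eq_mul]
  push_cast
  rfl

namespace LData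

variable {G : Type*} [Group G] {D : Type*} [NormedRing D] [NormedAlgebra ℂ D] {A : LData G D}
  [CompleteSpace D] {m k : ℕ} {ψ : (Fin (k + 1) → G) → ℝ}

/-- the key relations, with error terms -/
theorem T_gi (hm : Odd m) (hk : Odd k) {a b : A.Lt} (h : Inv a b)
    (hψ : A.toD.Good ψ) (hψ1 : ∀ p, ψ (shf A.x p) = -ψ p) (hψ0 : ∀ p, cb ψ p = 1) :
    Fe A fun F : (Fin (m + 1) → G) → ℝ =>
      T a b (gi (k + 1) (m + k + 1) F : (Fin (m + k + 1 + 1) → G) → ℝ) := by
  have hmk : Even (m + k) := hm.add_odd hk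
  have hE : PE A fun (E : (Fin (m + 2) → G) → ℝ) (p : Fin (m + k + 2) → G) =>
      gm (bs E p) (bs ψ p) (Finset.univ : Finset (Fin (m + k + 1))) :=
    PE.gm (g := fun p => bs ψ p) (fun s => PE.bs s) (fun s => good_bs hψ s) _
  refine ⟨_, (hE.erT a b).smul (((m : ℂ) + 1) / ((k : ℂ) + 1)), fun F hF hF1 => ?_⟩
  beta_reduce
  -- the shuffle product
  set U : (Fin (m + k + 1) → G) → ℝ := fun p =>
    gm (bs F p) (bs ψ p) (Finset.univ : Finset (Fin (m + k))) with hU
  have hUg : A.toD.Good U := good_gm (good_bs hF) (good_bs hψ) _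
  have h0 := T_bp hmk h hUg
  have h1 : (bp U : (Fin (m + k + 2) → G) → ℝ) =
      fun p => gm (io 1) (gm (bs F p) (bs ψ p)) Finset.univ := by
    funext p
    exact bp_gm F ψ p
  -- first form
  have h2 : (bp U : (Fin (m + k + 2) → G) → ℝ) =
      fun p => gm (pl F p) (bs ψ p) (Finset.univ : Finset (Fin (m + k + 1))) + (-1) *
        gm (bs (cb F) p) (bs ψ p) (Finset.univ : Finset (Fin (m + k + 1))) := by
    rw [h1]
    funext p
    rw [← gm_assoc]
    have e1 : gm (gm (io 1) (bs F p)) (bs ψ p) (Finset.univ : Finset (Fin (m + k + 1))) =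
        gm (fun s => pl F p s - bs (cb F) p s) (bs ψ p) Finset.univ :=
      gm_congr (fun s _ => gm_io_one_bs' F p s) fun s _ => rfl
    rw [e1, gm_sub_left]
    ring
  -- second form
  have h3 : (bp U : (Fin (m + k + 2) → G) → ℝ) = fun p => (-1) *
      (gm (bs F p) (pl ψ p) (Finset.univ : Finset (Fin (m + k + 1))) + (-1) *
        gi (k + 1) (m + k + 1) F p) := by
    rw [h1]
    funext p
    have e1 : gm (gm (io 1) (bs F p)) (bs ψ p) (Finset.univ : Finset (Fin (m + k + 1))) =
        gm (gm (bs F p) (io 1)) (fun s => (-1) ^ m * bs ψ p s) Finset.univ := by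
      unfold gm
      refine Finset.sum_congr rfl fun s _ => ?_
      have := io_one_comm (bs_hom F p) s
      unfold gm at this
      rw [this]
      ring
    have e2 : gm (bs F p) (gm (io 1) (bs ψ p)) (Finset.univ : Finset (Fin (m + k + 1))) =
        gm (bs F p) (fun s => pl ψ p s - io (k + 1) s) Finset.univ := by
      refine gm_congr (fun s _ => rfl) fun s _ => ?_
      rw [gm_io_one_bs ψ 1 hψ0, one_mul]
    rw [← gm_assoc, e1, gm_smul_right, gm_assoc, e2, gm_sub_right, hm.neg_one_pow]
    unfold gi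
    ring
  have g0 : A.toD.Good fun p : Fin (m + k + 2) → G =>
      gm (pl F p) (bs ψ p) (Finset.univ : Finset (Fin (m + k + 1))) :=
    good_gm (good_pl hF) (good_bs hψ) _
  have g1 : A.toD.Good fun p : Fin (m + k + 2) → G =>
      gm (bs F p) (pl ψ p) (Finset.univ : Finset (Fin (m + k + 1))) :=
    good_gm (good_bs hF) (good_pl hψ) _
  have g2 : A.toD.Good (gi (k + 1) (m + k + 1) F : (Fin (m + k + 2) → G) → ℝ) := good_gi _ _ hF
  have g3 : A.toD.Good fun p : Fin (m + k + 2) → G =>
      gm (bs (cb F) p) (bs ψ p) (Finset.univ : Finset (Fin (m + k + 1))) :=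
    good_gm (good_bs (good_cb hF)) (good_bs hψ) _
  set e : ℂ := T a b fun p : Fin (m + k + 2) → G =>
      gm (bs (cb F) p) (bs ψ p) (Finset.univ : Finset (Fin (m + k + 1))) with he
  -- the sum over the sets avoiding zero
  have hY0 : ∑ s : Finset (Fin (m + k + 2)), (if (0 : Fin (m + k + 2)) ∈ s then 0
      else Yv a b F ψ s) = e := by
    have e1 : (fun p : Fin (m + k + 2) → G => ∑ s : Finset (Fin (m + k + 2)),
        (if (0 : Fin (m + k + 2)) ∈ s then 0 else
          sg s (Finset.univ \ s) * fv F p s * fv ψ p (Finset.univ \ s))) =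
        fun p => gm (pl F p) (bs ψ p) (Finset.univ : Finset (Fin (m + k + 1))) := by
      funext p
      rw [gm_notMem (fv_hom F p), hm.add_one.neg_one_pow, one_mul]
      simp only [fv_up0, fv_in0]
    have e2 : ∀ s : Finset (Fin (m + k + 2)), A.toD.Good fun p : Fin (m + k + 2) → G =>
        (if (0 : Fin (m + k + 2)) ∈ s then 0 else
          sg s (Finset.univ \ s) * fv F p s * fv ψ p (Finset.univ \ s)) := by
      intro s
      split_ifs
      · exact DData.Good.const 0
      · exact ((good_fv hF s).smul _).mul (good_fv hψ _)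
    have e3 := T_sum a b Finset.univ e2
    rw [e1] at e3
    have e4 : T a b (fun p : Fin (m + k + 2) → G =>
        gm (pl F p) (bs ψ p) (Finset.univ : Finset (Fin (m + k + 1)))) = e := by
      rw [h2, T_add a b g0 (g3.smul _), T_smul] at h0
      push_cast at h0
      linear_combination h0
    rw [← e4, e3]
    refine Finset.sum_congr rfl fun s _ => ?_
    unfold Yv
    split_ifs
    · exact (T_zero a b).symm
    · rw [← T_smul]
      congr 1
      funext p
      unfold wd
      ring
  have hYs := sum_of_rt (N := m + k + 1) (c := m + 1) (by omega) (Yv a b F ψ)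
      (Yv_rt hm hk rfl a b hF hψ hF1 hψ1) (fun s hs => by
    have e1 : wd F ψ s = fun _ => 0 := by
      funext p
      unfold wd
      rw [fv_hom F p s hs, zero_mul]
    unfold Yv
    rw [e1, T_zero, mul_zero])
  rw [hY0] at hYs
  -- the sum over the sets containing zero
  have hY1 : T a b (fun p : Fin (m + k + 2) → G =>
      gm (bs F p) (pl ψ p) (Finset.univ : Finset (Fin (m + k + 1)))) =
      ∑ s : Finset (Fin (m + k + 2)), Yv a b F ψ s - e := by
    have e1 : (fun p : Fin (m + k + 2) → G => ∑ s : Finset (Fin (m + k + 2)),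
        (if (0 : Fin (m + k + 2)) ∈ s then
          sg s (Finset.univ \ s) * fv F p s * fv ψ p (Finset.univ \ s) else 0)) =
        fun p => gm (bs F p) (pl ψ p) (Finset.univ : Finset (Fin (m + k + 1))) := by
      funext p
      rw [gm_mem]
      simp only [fv_up0, fv_in0]
    have e2 : ∀ s : Finset (Fin (m + k + 2)), A.toD.Good fun p : Fin (m + k + 2) → G =>
        (if (0 : Fin (m + k + 2)) ∈ s then
          sg s (Finset.univ \ s) * fv F p s * fv ψ p (Finset.univ \ s) else 0) := by
      intro s
      split_ifs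
      · exact ((good_fv hF s).smul _).mul (good_fv hψ _)
      · exact DData.Good.const 0
    have e3 := T_sum a b Finset.univ e2
    rw [e1] at e3
    rw [e3]
    have e4 : ∀ s : Finset (Fin (m + k + 2)), T a b (fun p : Fin (m + k + 2) → G =>
        (if (0 : Fin (m + k + 2)) ∈ s then
          sg s (Finset.univ \ s) * fv F p s * fv ψ p (Finset.univ \ s) else 0)) =
        Yv a b F ψ s - (if (0 : Fin (m + k + 2)) ∈ s then 0 else Yv a b F ψ s) := by
      intro s
      split_ifs
      · unfold Yv
        rw [← T_smul, sub_zero]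
        congr 1
        funext p
        unfold wd
        ring
      · rw [T_zero, sub_self]
    rw [Finset.sum_congr rfl fun s _ => e4 s, Finset.sum_sub_distrib, hY0]
  rw [h3, T_smul, T_add a b g1 (g2.smul _), T_smul, hY1] at h0
  push_cast at h0 hYs
  have hk0 : ((k : ℂ) + 1) ≠ 0 := by exact_mod_cast Nat.succ_ne_zero k
  change T a b (gi (k + 1) (m + k + 1) F : (Fin (m + k + 1 + 1) → G) → ℝ) =
    ((m : ℂ) + 1) / ((k : ℂ) + 1) * e
  field_simp
  linear_combination ((k : ℂ) + 1) * h0 + hYs

/-- The pairing of cyclic functions with alternating words in terms of the coboundary. -/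
theorem P_err (hm : Odd m) (hk : Odd k) {a b : A.Lt} (h : Inv a b)
    (hψ : A.toD.Good ψ) (hψ1 : ∀ p, ψ (shf A.x p) = -ψ p) (hψ0 : ∀ p, cb ψ p = 1) :
    Fe A fun F : (Fin (m + 1) → G) → ℝ => P (aw a b (m + 1)) F := by
  have h1 := T_gi (m := m) hm hk h hψ hψ1 hψ0
  obtain ⟨j, hj⟩ : ∃ j, k + 1 = 2 * j := by
    obtain ⟨r, hr⟩ := hk
    exact ⟨r + 1, by omega⟩
  obtain ⟨c, hc, h2⟩ := P_gi (A := A) hm j (m + k + 1) (by omega)
  rw [hj] at h1
  refine ((h1.sub ((h2 h).sub (h2 h.symm))).smul (1 / (2 * c))).congr fun F hF hF1 => ?_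
  have h3 := T_cyc hm a b hF.inv hF1
  unfold T at h3 ⊢
  have h4 : P (aw b a (m + 1)) F = -P (aw a b (m + 1)) F := by linear_combination -h3
  rw [h4]
  field_simp
  ring

end LData

end

end Vale.Agent.P184.Odd
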