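import Mathlib
import Vale.Agent.P184.R2.H2
import Vale.Agent.P184.R2.O7
import Vale.Agent.P184.R2.O10

/-!
# The Chern character in odd degrees is a boundary
-/

namespace Vale.Agent.P184.Odd

noncomputable section

open Vale.Agent.P184.A (Mat InL1 mul unit IsInv hob Subexp ExpDecay IsLen IsCycBdy chern OddBdy
  ExpC ExpChain push push_summable push_hasSum isConj_stp)

variable {G : Type*} [Group G]

theorem expChain_add {L : G → ℝ} (hL : IsLen L) {n : ℕ} {c c' : (Fin n → G) → ℂ}
    (hc : ExpChain L c) (hc' : ExpChain L c') : ExpChain L fun g => c g + c' g := by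
  obtain ⟨ε, hε, h⟩ := hc
  obtain ⟨ε', hε', h'⟩ := hc'
  have h : ExpC L ε c := h
  have h' : ExpC L ε' c' := h'
  exact ⟨min ε ε', lt_min hε hε', (h.anti hL (min_le_left _ _)).add (h'.anti hL (min_le_right _ _))⟩

theorem expChain_sum {L : G → ℝ} (hL : IsLen L) {n : ℕ} {ι : Type*} (S : Finset ι)
    {c : ι → (Fin n → G) → ℂ} (hc : ∀ i, ExpChain L (c i)) :
    ExpChain L fun g => ∑ i ∈ S, c i g := by
  classical
  induction S using Finset.induction_on with
  | empty =>
    simp only [Finset.sum_empty]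
    exact ⟨1, one_pos, ExpC.zero⟩
  | insert a S ha ih =>
    simp only [Finset.sum_insert ha]
    exact expChain_add hL (hc a) ih

theorem expChain_smul {L : G → ℝ} {n : ℕ} {c : (Fin n → G) → ℂ} (z : ℂ)
    (hc : ExpChain L c) : ExpChain L fun g => z * c g := by
  obtain ⟨ε, hε, h⟩ := hc
  have h : ExpC L ε c := h
  exact ⟨ε, hε, h.smul z⟩

/-- the homogeneous coboundary of a cyclic cochain of odd degree -/
theorem cob_hob_odd {x : G} {m : ℕ} (hm : Odd m) {φ : (Fin (m + 1) → G) → ℂ}
    (hφ : ∀ g, φ (fun i => g (finRotate (m + 1) i)) = (-1) ^ m * φ g)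
    (p : Fin (m + 2) → G) :
    ∑ j : Fin (m + 2), (-1 : ℂ) ^ (j : ℕ) * φ (stp x fun i => p (j.succAbove i)) =
      - hob φ (stp x p) := by
  unfold Vale.Agent.P184.A.hob
  rw [Fin.sum_univ_succ]
  simp only [Fin.val_zero, pow_zero, one_mul, Fin.zero_succAbove, Fin.val_succ, stp_del,
    stp_del_zero, hφ, hm.neg_one_pow]
  rw [hm.add_one.neg_one_pow]
  have h6 : ∑ j : Fin (m + 1), (-1 : ℂ) ^ ((j : ℕ) + 1) *
      φ (j.castSucc.contractNth (· * ·) (stp x p)) =
      - ∑ j : Fin (m + 1), (-1 : ℂ) ^ (j : ℕ) *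
        φ (j.castSucc.contractNth (· * ·) (stp x p)) := by
    rw [← Finset.sum_neg_distrib]
    refine Finset.sum_congr rfl fun j _ => ?_
    rw [pow_succ]
    ring
  rw [h6]
  ring

namespace LData

variable {D : Type*} [NormedRing D] [NormedAlgebra ℂ D] {A : LData G D}

/-- summability over the orbits -/
theorem wt_summable_of_le {m : ℕ} (w : Fin (m + 1) → A.Lt) {F : (Fin (m + 1) → G) → ℝ} {C : ℝ}
    (hC0 : 0 ≤ C) (hC : ∀ p, |F p| ≤ C * Real.exp (A.eps / kst m * siz A.x A.L p)) :
    Summable fun a : Orb A.x m => |F (Orb.rep A.x a)| * ‖wt w (Orb.rep A.x a)‖ := by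
  have hK0 := kst_pos m
  set K : ℝ := kst m with hK
  set B : G → ℝ := fun g => ∑ i, ‖(w i).1 g‖ * Real.exp (A.eps * A.L g) with hB
  have hB0 : ∀ g, 0 ≤ B g := fun g => Finset.sum_nonneg fun i _ => by positivity
  have hB1 : ∀ g i, ‖(w i).1 g‖ * Real.exp (A.eps * A.L g) ≤ B g := fun g i =>
    Finset.single_le_sum (f := fun i => ‖(w i).1 g‖ * Real.exp (A.eps * A.L g))
      (fun i _ => by positivity) (Finset.mem_univ i)
  have h1 := summable_pi (A := B) hB0 (summable_sum fun i _ => Lt_dec (w i)) (m + 1)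
  have h2 : Summable fun a : Orb A.x m => ∏ i, B (stp A.x (Orb.rep A.x a) i) :=
    h1.comp_injective (stp_injective A.x)
  refine Summable.of_nonneg_of_le (fun a => by positivity) (fun a => ?_)
    (h2.mul_left (C * ‖A.tr‖))
  set p := Orb.rep A.x a with hp
  have h3 := siz_le_stp (x := A.x) A.hL p
  have h4 : |F p| ≤ C * ∏ i, Real.exp (A.eps * A.L (stp A.x p i)) := by
    refine (hC p).trans (mul_le_mul_of_nonneg_left ?_ hC0)
    rw [← Real.exp_sum, Real.exp_le_exp, ← Finset.mul_sum]
    calc A.eps / K * siz A.x A.L p ≤ A.eps / K * (K * ∑ i, A.L (stp A.x p i)) :=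
          mul_le_mul_of_nonneg_left h3 (div_pos A.heps hK0).le
      _ = A.eps * ∑ i, A.L (stp A.x p i) := by (clear * - hK0; field_simp)
  have h5 := norm_wt_le w p
  calc |F p| * ‖wt w p‖
      ≤ (C * ∏ i, Real.exp (A.eps * A.L (stp A.x p i))) *
        (‖A.tr‖ * ∏ i, ‖(w i).1 (stp A.x p i)‖) := by
        refine mul_le_mul h4 h5 (norm_nonneg _) ?_
        exact mul_nonneg hC0 (Finset.prod_nonneg fun _ _ => (Real.exp_pos _).le)
    _ = C * ‖A.tr‖ * ∏ i, (‖(w i).1 (stp A.x p i)‖ * Real.exp (A.eps * A.L (stp A.x p i))) := by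
        rw [Finset.prod_mul_distrib]
        ring
    _ ≤ C * ‖A.tr‖ * ∏ i, B (stp A.x p i) := by
        refine mul_le_mul_of_nonneg_left ?_ (mul_nonneg hC0 (norm_nonneg _))
        exact Finset.prod_le_prod (fun i _ => by positivity) fun i _ => hB1 _ i

/-- the steps of the chosen vertices -/
def El.st {m : ℕ} (t : El A (m + 1)) (a : Orb A.x t.n) : Fin (m + 1) → G :=
  stp A.x fun l => Orb.rep A.x a (t.f l)

/-- the weights -/
def El.wv {m : ℕ} (t : El A (m + 1)) (a : Orb A.x t.n) : ℂ :=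
  t.c * ((t.χ (Orb.rep A.x a) : ℂ) * wt t.w (Orb.rep A.x a))

/-- the chain of an elementary functional -/
def El.ch {m : ℕ} (t : El A (m + 1)) : (Fin (m + 1) → G) → ℂ := push t.st t.wv

/-- the decay constant of the chains -/
def El.ep {m : ℕ} (t : El A (m + 1)) : ℝ :=
  A.eps / kst t.n / 2 / (((m : ℝ) + 1) * ((m + 1) * (m + 1) + (m + 1)))

theorem El.ep_pos {m : ℕ} (t : El A (m + 1)) : 0 < t.ep := by
  unfold El.ep
  have := A.heps
  have := kst_pos t.n
  positivity

theorem El.sum_st_le {m : ℕ} (t : El A (m + 1)) (p : Fin (t.n + 1) → G) :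
    t.ep * ∑ i, A.L (stp A.x (fun l : Fin (m + 1) => p (t.f l)) i) ≤
      A.eps / kst t.n / 2 * siz A.x A.L p := by
  have h1 := sum_stp_le (x := A.x) A.hL (fun l : Fin (m + 1) => p (t.f l))
  have h2 := siz_comp (x := A.x) A.hL t.f p
  have h0 : (0 : ℝ) < ((m : ℝ) + 1) * ((m + 1) * (m + 1) + (m + 1)) := by positivity
  push_cast at h2
  have h3 : ∑ i, A.L (stp A.x (fun l : Fin (m + 1) => p (t.f l)) i) ≤
      (((m : ℝ) + 1) * ((m + 1) * (m + 1) + (m + 1))) * siz A.x A.L p := by
    refine h1.trans ?_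
    rw [mul_assoc]
    exact mul_le_mul_of_nonneg_left h2 (by positivity)
  calc t.ep * ∑ i, A.L (stp A.x (fun l : Fin (m + 1) => p (t.f l)) i)
      ≤ t.ep * ((((m : ℝ) + 1) * ((m + 1) * (m + 1) + (m + 1))) * siz A.x A.L p) :=
        mul_le_mul_of_nonneg_left h3 t.ep_pos.le
    _ = A.eps / kst t.n / 2 * siz A.x A.L p := by
        unfold El.ep
        field_simp

theorem El.wv_summable {m : ℕ} (t : El A (m + 1)) :
    Summable fun a : Orb A.x t.n => ‖t.wv a‖ * Real.exp (t.ep * ∑ i, A.L (t.st a i)) := by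
  have hK0 := kst_pos t.n
  have h0 : 0 < A.eps / kst t.n / 2 := by have := A.heps; positivity
  obtain ⟨C, hC0, hC⟩ := t.hχ.sub.pos h0
  have h1 := wt_summable_of_le t.w (F := fun p : Fin (t.n + 1) → G => t.χ p *
    Real.exp (t.ep * ∑ i, A.L (stp A.x (fun l : Fin (m + 1) => p (t.f l)) i))) hC0 ?_
  · refine (h1.mul_left ‖t.c‖).congr fun a => ?_
    unfold El.wv El.st
    rw [abs_mul, Real.abs_exp, norm_mul, norm_mul, Complex.norm_real, Real.norm_eq_abs]
    ring
  · intro p
    rw [abs_mul, Real.abs_exp]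
    have h2 := hC p
    have h3 := Real.exp_le_exp.2 (t.sum_st_le p)
    calc |t.χ p| * Real.exp (t.ep * ∑ i, A.L (stp A.x (fun l : Fin (m + 1) => p (t.f l)) i))
        ≤ (C * Real.exp (A.eps / kst t.n / 2 * siz A.x A.L p)) *
          Real.exp (A.eps / kst t.n / 2 * siz A.x A.L p) :=
          mul_le_mul h2 h3 (Real.exp_pos _).le (by positivity)
      _ = C * Real.exp (A.eps / kst t.n * siz A.x A.L p) := by
          rw [mul_assoc, ← Real.exp_add]
          congr 2
          ring

theorem El.ch_exp {m : ℕ} (t : El A (m + 1)) : ExpChain A.L t.ch :=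
  ⟨t.ep, t.ep_pos, push_summable t.st (W := fun g => Real.exp (t.ep * ∑ i, A.L (g i)))
    (fun _ => Real.exp_pos _) t.wv_summable⟩

theorem El.ch_supp {m : ℕ} (t : El A (m + 1)) (g : Fin (m + 1) → G)
    (hg : ¬ IsConj A.x (List.ofFn g).prod) : t.ch g = 0 := by
  unfold El.ch push
  have h2 : ∀ a : {a // t.st a = g}, t.wv a = 0 := by
    rintro ⟨a, rfl⟩
    exact absurd (isConj_stp _) hg
  rw [tsum_congr h2, tsum_zero]

/-- the pairing with functions of subexponential growth -/
theorem El.ch_hasSum {m : ℕ} (t : El A (m + 1)) {f : (Fin (m + 1) → G) → ℂ}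
    (hf : Subexp A.L f) : HasSum (fun g => f g * t.ch g)
      (t.ev (fun p => (f (stp A.x p)).re) + t.ev (fun p => (f (stp A.x p)).im) * Complex.I) := by
  obtain ⟨C, hC⟩ := hf t.ep t.ep_pos
  have h1 : Summable fun a : Orb A.x t.n => f (t.st a) * t.wv a := by
    refine Summable.of_norm_bounded (t.wv_summable.mul_left C) fun a => ?_
    rw [norm_mul]
    refine (mul_le_mul_of_nonneg_right (hC _) (norm_nonneg _)).trans (le_of_eq ?_)
    ring
  have h2 := push_hasSum t.st (c := t.wv) (φ := f) h1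
  have h7 : ∀ r : ℂ → ℝ, (∀ z, |r z| ≤ ‖z‖) → A.toD.Good (fun p : Fin (t.n + 1) → G =>
      r (f (stp A.x fun l => p (t.f l))) * t.χ p) := fun r hr =>
    ((good_part A.toD hf r hr).comp t.f).mul t.hχ
  have h8 := P_summable t.w (h7 Complex.re Complex.abs_re_le_norm)
  have h9 := P_summable t.w (h7 Complex.im Complex.abs_im_le_norm)
  have h3 : ∑' a : Orb A.x t.n, f (t.st a) * t.wv a =
      t.ev (fun p => (f (stp A.x p)).re) + t.ev (fun p => (f (stp A.x p)).im) * Complex.I := by
    unfold El.ev P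
    rw [mul_assoc, ← mul_add, ← tsum_mul_right, ← h8.tsum_add (h9.mul_right Complex.I),
      ← tsum_mul_left]
    refine tsum_congr fun a => ?_
    unfold El.wv El.st
    conv_lhs => rw [← Complex.re_add_im (f (stp A.x fun l => Orb.rep A.x a (t.f l)))]
    push_cast
    ring
  rw [h3] at h2
  exact h2

/-- the chain of a word decays -/
theorem wd_expC {n : ℕ} (w : Fin (n + 1) → A.Lt) (Q : (Fin (n + 1) → G) → Prop)
    [DecidablePred Q] : ExpC A.L A.eps fun g : Fin (n + 1) → G =>
      if Q g then A.tr (List.ofFn fun k => (w k).1 (g k)).prod else 0 := by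
  set B : G → ℝ := fun g => ∑ i, ‖(w i).1 g‖ * Real.exp (A.eps * A.L g) with hB
  have hB0 : ∀ g, 0 ≤ B g := fun g => Finset.sum_nonneg fun i _ => by positivity
  have hB1 : ∀ g i, ‖(w i).1 g‖ * Real.exp (A.eps * A.L g) ≤ B g := fun g i =>
    Finset.single_le_sum (f := fun i => ‖(w i).1 g‖ * Real.exp (A.eps * A.L g))
      (fun i _ => by positivity) (Finset.mem_univ i)
  have h1 := summable_pi (A := B) hB0 (summable_sum fun i _ => Lt_dec (w i)) (n + 1)
  refine Summable.of_nonneg_of_le (fun _ => by positivity) (fun g => ?_)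
    (h1.mul_left ‖A.tr‖)
  have h2 : ‖A.tr (List.ofFn fun k => (w k).1 (g k)).prod‖ ≤
      ‖A.tr‖ * ∏ i, ‖(w i).1 (g i)‖ := by
    refine (A.tr.le_opNorm _).trans (mul_le_mul_of_nonneg_left ?_ (norm_nonneg _))
    refine (List.norm_prod_le' ?_).trans (le_of_eq ?_)
    · intro h
      have := congrArg List.length h
      simp only [List.ofFn_succ, List.length_cons, List.length_ofFn, List.length_nil,
        Nat.add_eq_zero_iff, one_ne_zero, and_false] at this
    · rw [List.map_ofFn, List.prod_ofFn]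
      rfl
  have h3 : ‖(if Q g then A.tr (List.ofFn fun k => (w k).1 (g k)).prod else 0 : ℂ)‖ ≤
      ‖A.tr‖ * ∏ i, ‖(w i).1 (g i)‖ := by
    split_ifs
    · exact h2
    · rw [norm_zero]
      exact mul_nonneg (norm_nonneg _) (Finset.prod_nonneg fun _ _ => norm_nonneg _)
  calc _ ≤ (‖A.tr‖ * ∏ i, ‖(w i).1 (g i)‖) * Real.exp (A.eps * ∑ i, A.L (g i)) :=
        mul_le_mul_of_nonneg_right h3 (Real.exp_pos _).le
    _ = ‖A.tr‖ * ∏ i, (‖(w i).1 (g i)‖ * Real.exp (A.eps * A.L (g i))) := by
        rw [Finset.prod_mul_distrib, ← Real.exp_sum, ← Finset.mul_sum, mul_assoc]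
    _ ≤ ‖A.tr‖ * ∏ i, B (g i) := by
        refine mul_le_mul_of_nonneg_left ?_ (norm_nonneg _)
        exact Finset.prod_le_prod (fun i _ => by positivity) fun i _ => hB1 _ i

end LData

section Final

attribute [local instance] Matrix.linftyOpNormedRing Matrix.linftyOpNormedAlgebra

variable {x : G}

/-- If a power of the periodicity operator annihilates the trace at `x`, then the components at
`x` of the Chern characters of invertible matrices are boundaries. -/
theorem oddBdy_of_cyc {L : G → ℝ} (hL : IsLength L) {n : ℕ} (hn : 0 < n)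
    {ψ : (Fin (2 * n) → G) → ℝ} (hψ1 : CInv x ψ) (hψ2 : SubExp x L ψ) (hψ3 : CycAnti x ψ)
    (hψ4 : ∀ p, DData.cob ψ p = 1) : OddBdy L x := by
  intro m q u v huv hu hv
  obtain ⟨ε₁, hε₁, hu⟩ := hu
  obtain ⟨ε₂, hε₂, hv⟩ := hv
  let A : LData G (Matrix (Fin q) (Fin q) ℂ) :=
    { x := x
      tr := mtr q
      L := L
      eps := min ε₁ ε₂
      htr := mtr_comm q
      hL := hL
      heps := lt_min hε₁ hε₂ }
  have hu' := fun i j => decay_mono hL (min_le_left ε₁ ε₂) hu i j
  have hv' := fun i j => decay_mono hL (min_le_right ε₁ ε₂) hv i j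
  let uL : A.Lt := ⟨toFn u, toFn_decay hu'⟩
  let vL : A.Lt := ⟨toFn v, toFn_decay hv'⟩
  let eL : A.Lt := ⟨toFn (unit G q), toFn_decay fun i j => unit_decay L _ i j⟩
  have huI : InL1 u := huv.1
  have hvI : InL1 v := huv.2.1
  have h1 : LData.cv uL vL = eL := by
    apply Subtype.ext
    funext k
    change ∑' h, toFn u h * toFn v (h⁻¹ * k) = toFn (unit G q) k
    rw [toFn_mul huI hvI, huv.2.2.1]
  have h2 : LData.cv vL uL = eL := by
    apply Subtype.ext
    funext k
    change ∑' h, toFn v h * toFn u (h⁻¹ * k) = toFn (unit G q) k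
    rw [toFn_mul hvI huI, huv.2.2.2]
  have hInv : LData.Inv (vL - eL) (uL - eL) :=
    LData.inv_of_unit eL uL vL (toFn_unit q) h1 h2
  obtain ⟨k, rfl⟩ : ∃ k, n = k + 1 := ⟨n - 1, by omega⟩
  have hm : Odd (2 * m + 1) := ⟨m, rfl⟩
  obtain ⟨Φ, ⟨K, t, ht⟩, hΦ⟩ := LData.P_err (A := A) (k := 2 * k + 1) hm ⟨k, rfl⟩ hInv
    (ψ := ψ) ⟨hψ1, hψ2⟩ (cycAnti_iff.1 hψ3) hψ4
  set w : Fin (2 * m + 1 + 1) → A.Lt := LData.aw (vL - eL) (uL - eL) (2 * m + 1 + 1) with hw
  set a : ℕ → Mat G q := fun k => if Even k then v - unit G q else u - unit G q with ha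
  have hletter : ∀ (g : Fin (2 * m + 1 + 1) → G) (i : Fin (2 * m + 1 + 1)),
      (w i).1 (g i) = Matrix.of fun r s => a i r s (g i) := by
    intro g i
    simp only [hw, ha]
    unfold LData.aw LData.al
    by_cases hi : Even (i : ℕ)
    · rw [if_pos hi]
      simp only [if_pos hi]
      rfl
    · rw [if_neg hi]
      simp only [if_neg hi]
      rfl
  have hch : (chern x (2 * m + 1) a : (Fin (2 * m + 1 + 1) → G) → ℂ) =
      fun g => open Classical in if IsConj x (List.ofFn g).prod then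
        A.tr (List.ofFn fun k => (w k).1 (g k)).prod else 0 := by
    funext g
    simp only [hletter g]
    rfl
  set b : (Fin (2 * m + 1 + 1 + 1) → G) → ℂ := fun g => ∑ i, (-1 : ℂ) * (t i).ch g with hb
  have hexp : ExpC L (min ε₁ ε₂) (chern x (2 * m + 1) a) := by
    classical
    rw [hch]
    exact LData.wd_expC w _
  refine Vale.Agent.P184.A.isCycBdy_of_dual (b := b) hL ⟨_, lt_min hε₁ hε₂, hexp⟩
    (expChain_sum hL _ fun i => expChain_smul _ (t i).ch_exp) ?_ ?_ ?_
  · intro g hg
    rw [hch]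
    exact if_neg hg
  · intro g hg
    simp only [hb]
    refine Finset.sum_eq_zero fun i _ => ?_
    rw [(t i).ch_supp g hg, mul_zero]
  · intro φ hφb hφs hφc
    have hφg : Subexp L φ := by
      obtain ⟨C, hC⟩ := hφb
      intro δ hδ
      refine ⟨C, fun g => (hC g).trans ?_⟩
      have h1 : 0 ≤ C := (norm_nonneg _).trans (hC g)
      exact le_mul_of_one_le_right h1 (Real.one_le_exp
        (mul_nonneg hδ.le (Vale.Agent.P184.A.sum_len_nonneg hL g)))
    have hhob : Subexp L (hob φ) := subexp_hob hL hφg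
    have hnh : Subexp L fun g => -hob φ g := by
      intro δ hδ
      obtain ⟨C, hC⟩ := hhob δ hδ
      exact ⟨C, fun g => by rw [norm_neg]; exact hC g⟩
    -- the left-hand side
    have h3 := LData.hasSum_P A w hφs hφg
    have h4 : ∀ g, φ g * chern x (2 * m + 1) a g =
        φ g * A.tr (List.ofFn fun k => (w k).1 (g k)).prod := by
      intro g
      rw [hch]
      by_cases hg : IsConj x (List.ofFn g).prod
      · simp only [if_pos hg]
      · rw [hφs g hg, zero_mul, zero_mul]
    rw [tsum_congr h4, h3.tsum_eq]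
    -- the pairing in terms of the coboundary
    have key : ∀ r : ℂ → ℝ, (∀ z, |r z| ≤ ‖z‖) → (∀ (n : ℕ) z, r ((-1 : ℂ) ^ n * z) =
        (-1 : ℝ) ^ n * r z) → (∀ z w, r (z + w) = r z + r w) →
        LData.P w (fun p : Fin (2 * m + 1 + 1) → G => r (φ (stp x p))) =
        ∑ i, (t i).ev (fun p : Fin (2 * m + 1 + 2) → G => r (-hob φ (stp x p))) := by
      intro r hr1 hr2 hr3
      have e1 := hΦ (fun p : Fin (2 * m + 1 + 1) → G => r (φ (stp x p)))
        (good_part A.toD hφg r hr1) (fun p => by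
          have e1 : stp x (shf x p) = fun i => stp x p (finRotate (2 * m + 1 + 1) i) :=
            funext fun i => stp_shf x p i
          change r (φ (stp x (shf x p))) = -r (φ (stp x p))
          rw [e1, hφc, hr2, hm.neg_one_pow, neg_one_mul])
      have e2 : (cb (fun p : Fin (2 * m + 1 + 1) → G => r (φ (stp x p))) :
          (Fin (2 * m + 1 + 2) → G) → ℝ) = fun p => r (-hob φ (stp x p)) := by
        funext p
        have e3 := cob_hob_odd (x := x) hm hφc p
        unfold cb
        have e4 : ∀ z w : ℂ, z = w → r z = r w := fun z w h => by rw [h]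
        have e5 := e4 _ _ e3
        have e6 := map_sum (AddMonoidHom.mk' r hr3) (fun j : Fin (2 * m + 1 + 2) =>
          (-1 : ℂ) ^ (j : ℕ) * φ (stp x fun i => p (j.succAbove i))) Finset.univ
        simp only [AddMonoidHom.mk'_apply] at e6
        rw [e6] at e5
        simp only [hr2] at e5
        exact e5
      refine e1.trans ?_
      rw [e2]
      exact ht _ (good_part A.toD hnh r hr1)
    have g1 := key Complex.re Complex.abs_re_le_norm neg_one_pow_mul_re Complex.add_re
    have g2 := key Complex.im Complex.abs_im_le_norm neg_one_pow_mul_im Complex.add_im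
    have g3 := hasSum_sum (s := (Finset.univ : Finset (Fin K))) fun i _ => (t i).ch_hasSum hnh
    change LData.P w (fun p : Fin (2 * m + 1 + 1) → G => (φ (stp x p)).re) +
      LData.P w (fun p : Fin (2 * m + 1 + 1) → G => (φ (stp x p)).im) * Complex.I = _
    rw [g1, g2, Finset.sum_mul, ← Finset.sum_add_distrib]
    refine g3.tsum_eq.symm.trans (tsum_congr fun g => ?_)
    simp only [hb]
    rw [Finset.mul_sum]
    refine Finset.sum_congr rfl fun i _ => ?_
    ring

end Final

end

end Vale.Agent.P184.Odd
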