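import Vale.Agent.P184.SMain
import Vale.Agent.P184.R2.H2
import Vale.Agent.P184.R2.Rep
import Vale.Agent.P184.R2.O11

/-!
# Assembly: the statement in cyclic homology
-/

namespace Vale.Agent.P184.A

open Vale.Agent.P184

universe u v

/-- The conclusion for all length functions dominating the one in the definition of tameness. -/
theorem bdy_of_tame {G : Type*} [Group G] {x : G} (h : S.TameAt x) :
    ∃ L₀ : G → ℝ, IsLen L₀ ∧ ∀ L, IsLen L → (∃ c : ℝ, ∀ g, L₀ g ≤ c * L g) →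
      EvenBdy L x ∧ OddBdy L x := by
  obtain ⟨L₀, hL₀, n, ψ, hn, h1, h2, h3, h4⟩ := S.tameAt_iff.1 h
  refine ⟨L₀, hL₀, fun L hL ⟨c, hc⟩ => ?_⟩
  have hL' : IsLength L := hL
  have h5 := h2.dom (c := max c 1) (by positivity) (fun g =>
    (hc g).trans (mul_le_mul_of_nonneg_right (le_max_left _ _) (hL'.nonneg g)))
  exact ⟨evenBdy_of_cyc hL' hn h1 h5 h3 h4, Odd.oddBdy_of_cyc hL' hn h1 h5 h3 h4⟩

theorem homBass_of_loc {G : Type*} [Group G] (hG : Group.FG G)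
    (h : ∀ x : G, ¬ IsOfFinOrder x → S.LocTame x) : HomBass G := by
  obtain ⟨T, hS⟩ := Group.fg_def.1 hG
  have hL := maxLen_length hS
  refine ⟨maxLen (T : Set G), hL, fun l hl => ?_, fun q e he => ?_, fun q u u' hu => ?_,
    fun x hx => ?_⟩
  · obtain ⟨c, _, hc⟩ := maxLen_dom hS T.finite_toSet hl
    exact ⟨c, hc⟩
  · obtain ⟨ε, hε, f, u, v, hf, hdec, hu, hv, h1, h2⟩ :=
      exists_decay_equiv (maxLen (T : Set G)) hL.nonneg hL.2.2 e (S.isIdem_iff.1 he)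
    exact ⟨f, u, v, S.isIdem_iff.2 hf, ⟨ε, hε, hdec⟩, hu, hv,
      funext fun i => funext fun j => funext fun g => h1 i j g,
      funext fun i => funext fun j => funext fun g => h2 i j g⟩
  · exact exists_rep (maxLen (T : Set G)) hL.nonneg hL.2.2 u u' hu
  · obtain ⟨L₀, hL₀, h1⟩ := bdy_of_tame
      (S.tameAt_iff.2 (S.cycTame_of_fg hG (S.locTame_iff.1 (h x hx))))
    obtain ⟨c, _, hc⟩ := maxLen_dom hS T.finite_toSet hL₀
    exact h1 _ hL ⟨c, hc⟩

theorem relHyp_hom {G : Type u} [Group G] {ι : Type v} {H : ι → Subgroup G} (hG : S.IsRelHyp H)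
    (h : ∀ k (y : H k), ¬ IsOfFinOrder y → S.LocTame y) :
    (∀ x : G, ¬ IsOfFinOrder x → S.LocTame x) ∧ (Group.FG G → HomBass G) ∧
      ((∀ k, S.FinTors (H k)) → S.FinTors G ∧ L1Bass G) := by
  have h1 := S.relHyp_loc hG h
  exact ⟨h1, fun h2 => homBass_of_loc h2 h1,
    fun h2 => ⟨S.relHyp_tors hG h2, S.l1Bass_of_fin h1 (S.relHyp_tors hG h2)⟩⟩

end Vale.Agent.P184.A
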